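import Claimed.Agent.R316.Pack015_2

set_option autoImplicit false

/-!
# Row 316, B4-FrameA: pointwise calculus of the frame operators `Zb a j = Z̄_j`, `Zf a j = Z_j`

Everything follows by unfolding `Zb`, `Zf` and using the calculus of `dz`, `dzb` in `R316/CW/Basic.lean`
(`dz_add`, `dz_mul`, `dz_conj`, `dz_coord`, `dz_comp_real`, `dz_dzb_comm`, `contDiff_dz`, `tsupport_dz_subset`, …) plus `Finset.sum_…`, `ring`.

-/

section SecFrameA
open scoped ContDiff ComplexOrder ComplexConjugate Topology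
open Claimed.Agent.R316.B6E (IsTest IsTestForm cx L2w)

namespace Claimed.Agent.R316.B4

variable {ι : Type} [Fintype ι] [DecidableEq ι]
variable {a : ι → ι → CE ι → ℂ} {j k : ι} {u v : CE ι → ℂ} {z : CE ι}

/-! ### algebra -/

theorem Zb_add (hu : DifferentiableAt ℝ u z) (hv : DifferentiableAt ℝ v z) :
    Zb a j (fun w => u w + v w) z = Zb a j u z + Zb a j v z := by
  unfold Zb
  rw [dzb_add hu hv]
  simp only [dz_add hu hv, mul_add, Finset.sum_add_distrib]
  ring

theorem Zf_add (hu : DifferentiableAt ℝ u z) (hv : DifferentiableAt ℝ v z) :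
    Zf a j (fun w => u w + v w) z = Zf a j u z + Zf a j v z := by
  unfold Zf
  rw [dz_add hu hv]
  simp only [dzb_add hu hv, mul_add, Finset.sum_add_distrib]
  ring

theorem Zb_sub (hu : DifferentiableAt ℝ u z) (hv : DifferentiableAt ℝ v z) :
    Zb a j (fun w => u w - v w) z = Zb a j u z - Zb a j v z := by
  unfold Zb
  rw [dzb_sub hu hv]
  simp only [dz_sub hu hv, mul_sub, Finset.sum_sub_distrib]
  ring

theorem Zf_sub (hu : DifferentiableAt ℝ u z) (hv : DifferentiableAt ℝ v z) :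
    Zf a j (fun w => u w - v w) z = Zf a j u z - Zf a j v z := by
  unfold Zf
  rw [dz_sub hu hv]
  simp only [dzb_sub hu hv, mul_sub, Finset.sum_sub_distrib]
  ring

theorem Zb_neg : Zb a j (fun w => - u w) z = - Zb a j u z := by
  unfold Zb
  rw [dzb_neg]
  simp only [dz_neg, mul_neg, Finset.sum_neg_distrib]
  ring

theorem Zf_neg : Zf a j (fun w => - u w) z = - Zf a j u z := by
  unfold Zf
  rw [dz_neg]
  simp only [dzb_neg, mul_neg, Finset.sum_neg_distrib]
  ring

theorem Zb_const (c : ℂ) : Zb a j (fun _ => c) z = 0 := by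
  unfold Zb
  simp only [dzb_const, dz_const, mul_zero, Finset.sum_const_zero, add_zero]

theorem Zf_const (c : ℂ) : Zf a j (fun _ => c) z = 0 := by
  unfold Zf
  simp only [dzb_const, dz_const, mul_zero, Finset.sum_const_zero, add_zero]

theorem Zb_const_mul (c : ℂ) (hu : DifferentiableAt ℝ u z) :
    Zb a j (fun w => c * u w) z = c * Zb a j u z := by
  unfold Zb
  rw [dzb_const_mul c hu, mul_add, Finset.mul_sum]
  simp only [dz_const_mul c hu]
  congr 1
  exact Finset.sum_congr rfl fun k _ => by ring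

theorem Zf_const_mul (c : ℂ) (hu : DifferentiableAt ℝ u z) :
    Zf a j (fun w => c * u w) z = c * Zf a j u z := by
  unfold Zf
  rw [dz_const_mul c hu, mul_add, Finset.mul_sum]
  simp only [dzb_const_mul c hu]
  congr 1
  exact Finset.sum_congr rfl fun k _ => by ring

theorem Zb_mul (hu : DifferentiableAt ℝ u z) (hv : DifferentiableAt ℝ v z) :
    Zb a j (fun w => u w * v w) z = Zb a j u z * v z + u z * Zb a j v z := by
  unfold Zb
  rw [dzb_mul hu hv]
  simp only [dz_mul hu hv, add_mul, mul_add, Finset.sum_add_distrib, Finset.sum_mul, Finset.mul_sum]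
  have e1 : ∀ k, a j k z * (dz k u z * v z) = a j k z * dz k u z * v z := fun k => by ring
  have e2 : ∀ k, a j k z * (u z * dz k v z) = u z * (a j k z * dz k v z) := fun k => by ring
  simp only [e1, e2]
  ring

theorem Zf_mul (hu : DifferentiableAt ℝ u z) (hv : DifferentiableAt ℝ v z) :
    Zf a j (fun w => u w * v w) z = Zf a j u z * v z + u z * Zf a j v z := by
  unfold Zf
  rw [dz_mul hu hv]
  simp only [dzb_mul hu hv, add_mul, mul_add, Finset.sum_add_distrib, Finset.sum_mul, Finset.mul_sum]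
  have e1 : ∀ k, conj (a j k z) * (dzb k u z * v z) = conj (a j k z) * dzb k u z * v z :=
    fun k => by ring
  have e2 : ∀ k, conj (a j k z) * (u z * dzb k v z) = u z * (conj (a j k z) * dzb k v z) :=
    fun k => by ring
  simp only [e1, e2]
  ring

theorem Zb_sum {κ : Type} (s : Finset κ) (U : κ → CE ι → ℂ)
    (hU : ∀ i ∈ s, DifferentiableAt ℝ (U i) z) :
    Zb a j (fun w => ∑ i ∈ s, U i w) z = ∑ i ∈ s, Zb a j (U i) z := by
  unfold Zb
  rw [dzb_sum s U hU, Finset.sum_add_distrib]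
  simp only [dz_sum s U hU, Finset.mul_sum]
  rw [Finset.sum_comm]

theorem Zf_sum {κ : Type} (s : Finset κ) (U : κ → CE ι → ℂ)
    (hU : ∀ i ∈ s, DifferentiableAt ℝ (U i) z) :
    Zf a j (fun w => ∑ i ∈ s, U i w) z = ∑ i ∈ s, Zf a j (U i) z := by
  unfold Zf
  rw [dz_sum s U hU, Finset.sum_add_distrib]
  simp only [dzb_sum s U hU, Finset.mul_sum]
  rw [Finset.sum_comm]

theorem Zb_conj : Zb a j (fun w => conj (u w)) z = conj (Zf a j u z) := by
  unfold Zb Zf
  rw [dzb_conj]
  simp only [dz_conj, map_add, map_sum, map_mul, Complex.conj_conj]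

theorem Zf_conj : Zf a j (fun w => conj (u w)) z = conj (Zb a j u z) := by
  unfold Zb Zf
  rw [dz_conj]
  simp only [dzb_conj, map_add, map_sum, map_mul]

/-- for real `p`: `Z̄_j p = \overline{Z_j p}`. -/
theorem Zb_cx (p : CE ι → ℝ) : Zb a j (cx p) z = conj (gradF a p z j) := by
  unfold gradF
  rw [← Zb_conj]
  congr 1
  funext w
  simp [cx]

/-! ### locality -/

theorem Zb_congr (h : u =ᶠ[𝓝 z] v) : Zb a j u z = Zb a j v z := by
  unfold Zb
  rw [dzb_congr h]
  simp only [dz_congr h]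

theorem Zf_congr (h : u =ᶠ[𝓝 z] v) : Zf a j u z = Zf a j v z := by
  unfold Zf
  rw [dz_congr h]
  simp only [dzb_congr h]

/-- only the values of the coefficients at the point matter. -/
theorem Zb_congr_coef {a' : ι → ι → CE ι → ℂ} (h : ∀ k, a j k z = a' j k z) :
    Zb a j u z = Zb a' j u z := by
  unfold Zb
  simp only [h]

theorem Zf_congr_coef {a' : ι → ι → CE ι → ℂ} (h : ∀ k, a j k z = a' j k z) :
    Zf a j u z = Zf a' j u z := by
  unfold Zf
  simp only [h]

theorem sg_congr_coef {a' : ι → ι → CE ι → ℂ} (h : ∀ k, a j k =ᶠ[𝓝 z] a' j k) :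
    sg a j z = sg a' j z := by
  unfold sg
  refine Finset.sum_congr rfl fun k _ => dzb_congr ?_
  filter_upwards [h k] with y hy
  rw [hy]

theorem Zb_eq_zero_of_notMem_tsupport (h : z ∉ tsupport u) : Zb a j u z = 0 := by
  unfold Zb
  simp only [dzb_eq_zero_of_notMem_tsupport h, dz_eq_zero_of_notMem_tsupport h, mul_zero,
    Finset.sum_const_zero, add_zero]

theorem Zf_eq_zero_of_notMem_tsupport (h : z ∉ tsupport u) : Zf a j u z = 0 := by
  unfold Zf
  simp only [dzb_eq_zero_of_notMem_tsupport h, dz_eq_zero_of_notMem_tsupport h, mul_zero,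
    Finset.sum_const_zero, add_zero]

theorem tsupport_Zb_subset : tsupport (Zb a j u) ⊆ tsupport u := by
  refine closure_minimal (fun y hy => ?_) (isClosed_tsupport u)
  by_contra hn
  exact hy (Zb_eq_zero_of_notMem_tsupport hn)

theorem tsupport_Zf_subset : tsupport (Zf a j u) ⊆ tsupport u := by
  refine closure_minimal (fun y hy => ?_) (isClosed_tsupport u)
  by_contra hn
  exact hy (Zf_eq_zero_of_notMem_tsupport hn)

/-- the flat case. -/
theorem Zb_zero_coef : Zb (fun _ _ _ => (0 : ℂ)) j u z = dzb j u z := by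
  unfold Zb
  simp

theorem Zf_zero_coef : Zf (fun _ _ _ => (0 : ℂ)) j u z = dz j u z := by
  unfold Zf
  simp

/-! ### coordinates -/

theorem Zb_coord (l : ι) : Zb a j (fun w : CE ι => w l) z = a j l z := by
  unfold Zb
  rw [dzb_coord]
  simp only [dz_coord, mul_ite, mul_one, mul_zero, Finset.sum_ite_eq', Finset.mem_univ, if_true,
    zero_add]

theorem Zb_conj_coord (l : ι) : Zb a j (fun w : CE ι => conj (w l)) z = if j = l then 1 else 0 := by
  unfold Zb
  rw [dzb_conj_coord]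
  simp only [dz_conj_coord, mul_zero, Finset.sum_const_zero, add_zero]

/-- `Z_j ‖z‖² = \bar z_j + ∑_k \bar a_{jk} z_k`. -/
theorem gradF_normSq : gradF a (fun w : CE ι => ‖w‖ ^ 2) z j
    = conj (z j) + ∑ k, conj (a j k z) * z k := by
  unfold gradF Zf
  have h1 : ∀ k, dz k (cx fun w : CE ι => ‖w‖ ^ 2) z = conj (z k) := fun k => grad10_normSq
  have h2 : ∀ k, dzb k (cx fun w : CE ι => ‖w‖ ^ 2) z = z k := fun k => by
    have := dzb_ofReal_eq_grad10 (j := k) (z := z) (fun w : CE ι => ‖w‖ ^ 2)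
    rw [grad10_normSq, Complex.conj_conj] at this
    exact this
  simp only [h1, h2]

/-- `Z̄_j` as a complex combination of two real directional derivatives:
with `A_j = ∑_k a_{jk}(z) e_k`:  `Z̄_j u = ½ [du(e_j + A_j) + i du(i (e_j - A_j))]`. -/
theorem Zb_eq_fderiv :
    Zb a j u z = (1 / 2 : ℂ) * (fderiv ℝ u z (eb j + ∑ k, a j k z • eb k)
      + Complex.I * fderiv ℝ u z (Complex.I • (eb j - ∑ k, a j k z • eb k))) := by
  rw [fderiv_eq_sum, fderiv_eq_sum]
  unfold Zb
  have hv : ∀ l, (eb j + ∑ k, a j k z • eb k : CE ι) l = (if l = j then 1 else 0) + a j l z := by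
    intro l
    simp only [PiLp.add_apply, WithLp.ofLp_sum, Finset.sum_apply, PiLp.smul_apply, eb_apply,
      smul_eq_mul, mul_ite, mul_one, mul_zero, Finset.sum_ite_eq, Finset.mem_univ, if_true]
  have hw : ∀ l, (Complex.I • (eb j - ∑ k, a j k z • eb k) : CE ι) l
      = Complex.I * ((if l = j then 1 else 0) - a j l z) := by
    intro l
    simp only [PiLp.smul_apply, PiLp.sub_apply, WithLp.ofLp_sum, Finset.sum_apply, eb_apply,
      smul_eq_mul, mul_ite, mul_one, mul_zero, Finset.sum_ite_eq, Finset.mem_univ, if_true]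
  simp only [hv, hw, map_mul, map_add, map_sub, Complex.conj_I]
  have hI : Complex.I * Complex.I = -1 := Complex.I_mul_I
  have key : ∀ l, (dz l u z * ((if l = j then 1 else 0) + a j l z)
        + dzb l u z * (conj (if l = j then (1 : ℂ) else 0) + conj (a j l z)))
      + Complex.I * (dz l u z * (Complex.I * ((if l = j then 1 else 0) - a j l z))
        + dzb l u z * (-Complex.I * (conj (if l = j then (1 : ℂ) else 0) - conj (a j l z))))
      = 2 * ((if l = j then dzb l u z else 0) + a j l z * dz l u z) := by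
    intro l
    split_ifs
    · simp only [map_one]
      linear_combination (dz l u z * (1 - a j l z) - dzb l u z * (1 - conj (a j l z))) * hI
    · simp only [map_zero]
      linear_combination (dz l u z * (0 - a j l z) - dzb l u z * (0 - conj (a j l z))) * hI
  rw [Finset.mul_sum, ← Finset.sum_add_distrib]
  simp only [key]
  rw [← Finset.mul_sum, Finset.sum_add_distrib]
  simp only [Finset.sum_ite_eq', Finset.mem_univ, if_true]
  ring

/-! ### smoothness -/

theorem contDiff_Zb (ha : ∀ j k, ContDiff ℝ ∞ (a j k)) (hu : ContDiff ℝ ∞ u) :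
    ContDiff ℝ ∞ (Zb a j u) := by
  unfold Zb
  exact (contDiff_dzb hu).add (ContDiff.sum fun k _ => (ha j k).mul (contDiff_dz hu))

theorem contDiff_Zf (ha : ∀ j k, ContDiff ℝ ∞ (a j k)) (hu : ContDiff ℝ ∞ u) :
    ContDiff ℝ ∞ (Zf a j u) := by
  unfold Zf
  exact (contDiff_dz hu).add (ContDiff.sum fun k _ =>
    (Complex.conjCLE.contDiff.comp (ha j k)).mul (contDiff_dzb hu))

theorem contDiffOn_Zb (ha : ∀ j k, ContDiff ℝ ∞ (a j k)) {Ω : Set (CE ι)} (hΩ : IsOpen Ω)
    (hu : ContDiffOn ℝ ∞ u Ω) : ContDiffOn ℝ ∞ (Zb a j u) Ω := by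
  unfold Zb
  exact (contDiffOn_dzb hΩ hu).add (ContDiffOn.sum fun k _ =>
    (ha j k).contDiffOn.mul (contDiffOn_dz hΩ hu))

theorem contDiffOn_Zf (ha : ∀ j k, ContDiff ℝ ∞ (a j k)) {Ω : Set (CE ι)} (hΩ : IsOpen Ω)
    (hu : ContDiffOn ℝ ∞ u Ω) : ContDiffOn ℝ ∞ (Zf a j u) Ω := by
  unfold Zf
  exact (contDiffOn_dz hΩ hu).add (ContDiffOn.sum fun k _ =>
    (Complex.conjCLE.contDiff.comp (ha j k)).contDiffOn.mul (contDiffOn_dzb hΩ hu))

theorem contDiff_sg (ha : ∀ j k, ContDiff ℝ ∞ (a j k)) : ContDiff ℝ ∞ (sg a j) := by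
  unfold sg
  exact ContDiff.sum fun k _ => contDiff_dzb (Complex.conjCLE.contDiff.comp (ha j k))

theorem contDiffOn_gradF (ha : ∀ j k, ContDiff ℝ ∞ (a j k)) {Ω : Set (CE ι)} (hΩ : IsOpen Ω)
    {p : CE ι → ℝ} (hp : ContDiffOn ℝ ∞ p Ω) : ContDiffOn ℝ ∞ (fun y => gradF a p y j) Ω := by
  exact contDiffOn_Zf ha hΩ (B6E.contDiffOn_cx hp)

/-! ### real functions -/

theorem gradF_add {p q : CE ι → ℝ} (hp : DifferentiableAt ℝ p z) (hq : DifferentiableAt ℝ q z) :
    gradF a (fun y => p y + q y) z = gradF a p z + gradF a q z := by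
  funext j
  have h := Zf_add (a := a) (j := j) (differentiableAt_ofReal hp) (differentiableAt_ofReal hq)
  simp only [← Complex.ofReal_add] at h
  exact h

theorem gradF_sub {p q : CE ι → ℝ} (hp : DifferentiableAt ℝ p z) (hq : DifferentiableAt ℝ q z) :
    gradF a (fun y => p y - q y) z = gradF a p z - gradF a q z := by
  funext j
  have h := Zf_sub (a := a) (j := j) (differentiableAt_ofReal hp) (differentiableAt_ofReal hq)
  simp only [← Complex.ofReal_sub] at h
  exact h

theorem gradF_const_mul (c : ℝ) {p : CE ι → ℝ} (hp : DifferentiableAt ℝ p z) :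
    gradF a (fun y => c * p y) z = fun j => (c : ℂ) * gradF a p z j := by
  funext j
  have h := Zf_const_mul (a := a) (j := j) (c : ℂ) (differentiableAt_ofReal hp)
  simp only [← Complex.ofReal_mul] at h
  exact h

theorem gradF_congr {p q : CE ι → ℝ} (h : p =ᶠ[𝓝 z] q) : gradF a p z = gradF a q z := by
  funext j
  refine Zf_congr ?_
  filter_upwards [h] with y hy
  simp only [cx, hy]

theorem gradF_comp_real (χ : ℝ → ℝ) (s : CE ι → ℝ) (hχ : DifferentiableAt ℝ χ (s z))
    (hs : DifferentiableAt ℝ s z) :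
    gradF a (fun y => χ (s y)) z = fun j => ((deriv χ (s z) : ℝ) : ℂ) * gradF a s z j := by
  funext j
  unfold gradF Zf cx
  rw [dz_comp_real χ s hχ hs]
  simp only [dzb_comp_real χ s hχ hs]
  rw [mul_add, Finset.mul_sum]
  congr 1
  exact Finset.sum_congr rfl fun k _ => by ring

theorem Zf_exp_neg {p : CE ι → ℝ} (hp : DifferentiableAt ℝ p z) :
    Zf a j (fun y => ((Real.exp (-p y) : ℝ) : ℂ)) z
      = - ((Real.exp (-p z) : ℝ) : ℂ) * gradF a p z j := by
  have h := congrFun (gradF_comp_real (a := a) (fun t => Real.exp (-t)) p (z := z)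
    (Real.differentiable_exp.differentiableAt.comp _ differentiable_neg.differentiableAt) hp) j
  have hd : deriv (fun t : ℝ => Real.exp (-t)) (p z) = - Real.exp (-p z) := by
    have h0 : HasDerivAt (fun t : ℝ => Real.exp (-t)) (Real.exp (-p z) * -1) (p z) :=
      (Real.hasDerivAt_exp (-p z)).comp (p z) (hasDerivAt_neg (p z))
    rw [h0.deriv]
    ring
  rw [hd] at h
  have h' : Zf a j (fun y => ((Real.exp (-p y) : ℝ) : ℂ)) z
      = ((-Real.exp (-p z) : ℝ) : ℂ) * gradF a p z j := h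
  rw [h']
  push_cast
  ring

theorem Zb_exp_neg {p : CE ι → ℝ} (hp : DifferentiableAt ℝ p z) :
    Zb a j (fun y => ((Real.exp (-p y) : ℝ) : ℂ)) z
      = - ((Real.exp (-p z) : ℝ) : ℂ) * conj (gradF a p z j) := by
  have h := Zb_cx (a := a) (j := j) (z := z) (fun y => Real.exp (-p y))
  have h2 : gradF a (fun y => Real.exp (-p y)) z j
      = - ((Real.exp (-p z) : ℝ) : ℂ) * gradF a p z j := Zf_exp_neg hp
  rw [h2] at h
  have h' : Zb a j (fun y => ((Real.exp (-p y) : ℝ) : ℂ)) z
      = conj (- ((Real.exp (-p z) : ℝ) : ℂ) * gradF a p z j) := h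
  rw [h', map_mul, map_neg, Complex.conj_ofReal]

theorem IsFrame.mono {Ω Ω' : Set (CE ι)} {α β : ι → ι → ι → CE ι → ℂ} (h : IsFrame Ω a α β)
    (hs : Ω' ⊆ Ω) : IsFrame Ω' a α β :=
  ⟨h.smooth, fun j k l => (h.smoothα j k l).mono hs, fun j k l => (h.smoothβ j k l).mono hs,
    fun z hz => h.comm z (hs hz), fun z hz => h.str1 z (hs hz), fun z hz => h.str2 z (hs hz)⟩

theorem FrameBd.mono {Ω Ω' : Set (CE ι)} {α β : ι → ι → ι → CE ι → ℂ} {M : ℝ}
    (h : FrameBd Ω a α β M) (hs : Ω' ⊆ Ω) : FrameBd Ω' a α β M :=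
  ⟨fun z hz => h.α_le z (hs hz), fun z hz => h.β_le z (hs hz), fun z hz => h.γ_le z (hs hz)⟩

end Claimed.Agent.R316.B4

end SecFrameA

/-!
# Row 316, B4-FrameC: commutators of the frame operators

Unfold `Zb`, `Zf`, `dlF`; use `FrameA` (`Zb_add`, `Zb_mul`, `Zb_sum`, …) or directly the calculus of `dz`, `dzb` in `R316/CW/Basic.lean` (`dz_add`, `dz_mul`, `dz_sum`, `dz_dz_comm`, `dz_dzb_comm`, `dzb_dzb_comm`,
`contDiffAt_dz`, `contDiffAt_dzb` for the differentiability side conditions).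

Commutators.  For `u` of class `C²` at `z` and `a` differentiable at `z` the second order terms cancel (`dz_dz_comm`, `dz_dzb_comm`, `dzb_dzb_comm`):
`Z̄_j Z̄_k u - Z̄_k Z̄_j u = ∑_l (Z̄_j a_{kl} - Z̄_k a_{jl}) ∂_l u`,
`Z_j Z̄_k u - Z̄_k Z_j u = ∑_l (Z_j a_{kl}) ∂_l u - ∑_l (Z̄_k \bar a_{jl}) ∂̄_l u`; insert `str1`, `str2` and regroup:
`∑_l [α_l + ∑_m β_m a_{ml}] ∂_l u + ∑_l [∑_m α_m \bar a_{ml} + β_l] ∂̄_l u = ∑_m α_m Z_m u + ∑_m β_m Z̄_m u`.
-/

section SecFrameC
open scoped ContDiff ComplexOrder ComplexConjugate Topology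
open Claimed.Agent.R316.B6E (IsTest IsTestForm cx L2w)

namespace Claimed.Agent.R316.B4

variable {ι : Type} [Fintype ι] [DecidableEq ι]
variable {a : ι → ι → CE ι → ℂ} {j k : ι} {u v : CE ι → ℂ} {z : CE ι}

theorem differentiableAt_Zb (ha : ∀ l, DifferentiableAt ℝ (a j l) z) (hu : ContDiffAt ℝ 2 u z) :
    DifferentiableAt ℝ (Zb a j u) z := by
  unfold Zb
  exact (lv_differentiableAt_dzb hu).add
    (DifferentiableAt.fun_sum fun l _ => (ha l).mul (lv_differentiableAt_dz hu))

omit [DecidableEq ι] in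
theorem differentiableAt_conj (hu : DifferentiableAt ℝ u z) :
    DifferentiableAt ℝ (fun y => conj (u y)) z :=
  Complex.conjCLE.differentiableAt.comp z hu

theorem differentiableAt_Zf (ha : ∀ l, DifferentiableAt ℝ (a j l) z) (hu : ContDiffAt ℝ 2 u z) :
    DifferentiableAt ℝ (Zf a j u) z := by
  unfold Zf
  exact (lv_differentiableAt_dz hu).add
    (DifferentiableAt.fun_sum fun l _ =>
      (differentiableAt_conj (ha l)).mul (lv_differentiableAt_dzb hu))

theorem contDiffAt_Zb {m n : WithTop ℕ∞} (ha : ∀ l, ContDiffAt ℝ m (a j l) z)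
    (hu : ContDiffAt ℝ n u z) (hmn : m + 1 ≤ n) : ContDiffAt ℝ m (Zb a j u) z := by
  unfold Zb
  exact (contDiffAt_dzb hu hmn).add (ContDiffAt.sum fun l _ => (ha l).mul (contDiffAt_dz hu hmn))

theorem contDiffAt_Zf {m n : WithTop ℕ∞} (ha : ∀ l, ContDiffAt ℝ m (a j l) z)
    (hu : ContDiffAt ℝ n u z) (hmn : m + 1 ≤ n) : ContDiffAt ℝ m (Zf a j u) z := by
  unfold Zf
  exact (contDiffAt_dz hu hmn).add (ContDiffAt.sum fun l _ =>
    (Complex.conjCLE.contDiff.contDiffAt.comp z (ha l)).mul (contDiffAt_dzb hu hmn))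

theorem Zb_Zb_expand (ha : ∀ l, DifferentiableAt ℝ (a k l) z) (hu : ContDiffAt ℝ 2 u z) :
    Zb a j (Zb a k u) z = Zb a j (dzb k u) z + ∑ l, Zb a j (a k l) z * dz l u z
      + ∑ l, a k l z * Zb a j (dz l u) z := by
  have h0 : Zb a k u = fun y => dzb k u y + ∑ l, a k l y * dz l u y := rfl
  have hm : ∀ l, DifferentiableAt ℝ (fun y => a k l y * dz l u y) z :=
    fun l => (ha l).mul (lv_differentiableAt_dz hu)
  rw [h0, Zb_add (lv_differentiableAt_dzb hu) (DifferentiableAt.fun_sum fun l _ => hm l),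
    Zb_sum Finset.univ (fun l y => a k l y * dz l u y) fun l _ => hm l]
  simp only [Zb_mul (ha _) (lv_differentiableAt_dz hu), Finset.sum_add_distrib]
  ring

theorem Zf_Zb_expand (ha : ∀ l, DifferentiableAt ℝ (a k l) z) (hu : ContDiffAt ℝ 2 u z) :
    Zf a j (Zb a k u) z = Zf a j (dzb k u) z + ∑ l, Zf a j (a k l) z * dz l u z
      + ∑ l, a k l z * Zf a j (dz l u) z := by
  have h0 : Zb a k u = fun y => dzb k u y + ∑ l, a k l y * dz l u y := rfl
  have hm : ∀ l, DifferentiableAt ℝ (fun y => a k l y * dz l u y) z :=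
    fun l => (ha l).mul (lv_differentiableAt_dz hu)
  rw [h0, Zf_add (lv_differentiableAt_dzb hu) (DifferentiableAt.fun_sum fun l _ => hm l),
    Zf_sum Finset.univ (fun l y => a k l y * dz l u y) fun l _ => hm l]
  simp only [Zf_mul (ha _) (lv_differentiableAt_dz hu), Finset.sum_add_distrib]
  ring

theorem Zb_Zf_expand (ha : ∀ l, DifferentiableAt ℝ (a j l) z) (hu : ContDiffAt ℝ 2 u z) :
    Zb a k (Zf a j u) z = Zb a k (dz j u) z + ∑ l, Zb a k (fun y => conj (a j l y)) z * dzb l u z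
      + ∑ l, conj (a j l z) * Zb a k (dzb l u) z := by
  have h0 : Zf a j u = fun y => dz j u y + ∑ l, conj (a j l y) * dzb l u y := rfl
  have hm : ∀ l, DifferentiableAt ℝ (fun y => conj (a j l y) * dzb l u y) z :=
    fun l => (differentiableAt_conj (ha l)).mul (lv_differentiableAt_dzb hu)
  rw [h0, Zb_add (lv_differentiableAt_dz hu) (DifferentiableAt.fun_sum fun l _ => hm l),
    Zb_sum Finset.univ (fun l y => conj (a j l y) * dzb l u y) fun l _ => hm l]
  simp only [Zb_mul (differentiableAt_conj (ha _)) (lv_differentiableAt_dzb hu),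
    Finset.sum_add_distrib]
  ring

theorem Zb_Zb_sub (ha : ∀ j k, DifferentiableAt ℝ (a j k) z) (hu : ContDiffAt ℝ 2 u z) :
    Zb a j (Zb a k u) z - Zb a k (Zb a j u) z
      = ∑ l, (Zb a j (a k l) z - Zb a k (a j l) z) * dz l u z := by
  rw [Zb_Zb_expand (fun l => ha k l) hu, Zb_Zb_expand (fun l => ha j l) hu]
  have e1 : ∀ j k : ι, Zb a j (dzb k u) z
      = dzb j (dzb k u) z + ∑ m, a j m z * dz m (dzb k u) z := fun _ _ => rfl
  have e2 : ∀ j l : ι, Zb a j (dz l u) z
      = dz l (dzb j u) z + ∑ m, a j m z * dz m (dz l u) z := fun j l => by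
    rw [dz_dzb_comm hu]
    rfl
  have c1 : dzb j (dzb k u) z = dzb k (dzb j u) z := dzb_dzb_comm hu
  have c3 : ∑ l, a k l z * ∑ m, a j m z * dz m (dz l u) z
      = ∑ l, a j l z * ∑ m, a k m z * dz m (dz l u) z := by
    simp only [Finset.mul_sum]
    rw [Finset.sum_comm]
    refine Finset.sum_congr rfl fun m _ => Finset.sum_congr rfl fun l _ => ?_
    rw [dz_dz_comm hu]
    ring
  simp only [e1, e2, mul_add, Finset.sum_add_distrib, sub_mul, Finset.sum_sub_distrib]
  linear_combination c1 + c3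

/-- the frame commutes. -/
theorem Zb_Zb_comm {Ω : Set (CE ι)} {α β : ι → ι → ι → CE ι → ℂ} (hfr : IsFrame Ω a α β)
    (hz : z ∈ Ω) (hu : ContDiffAt ℝ 2 u z) : Zb a j (Zb a k u) z = Zb a k (Zb a j u) z := by
  have h := Zb_Zb_sub (a := a) (j := j) (k := k)
    (fun j k => (hfr.smooth j k).differentiable (by simp) z) hu
  simp only [hfr.comm z hz j k, sub_self, zero_mul, Finset.sum_const_zero] at h
  exact sub_eq_zero.1 h

/-- the commutator `[Z_j, Z̄_k]` without structure functions. -/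
theorem Zf_Zb_sub_general (ha : ∀ j k, DifferentiableAt ℝ (a j k) z) (hu : ContDiffAt ℝ 2 u z) :
    Zf a j (Zb a k u) z - Zb a k (Zf a j u) z
      = ∑ l, Zf a j (a k l) z * dz l u z - ∑ l, Zb a k (fun y => conj (a j l y)) z * dzb l u z := by
  rw [Zf_Zb_expand (fun l => ha k l) hu, Zb_Zf_expand (fun l => ha j l) hu]
  have e1 : Zf a j (dzb k u) z
      = dz j (dzb k u) z + ∑ m, conj (a j m z) * dzb m (dzb k u) z := rfl
  have e2 : ∀ l : ι, Zf a j (dz l u) z
      = dz j (dz l u) z + ∑ m, conj (a j m z) * dz l (dzb m u) z := fun l => by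
    simp only [dz_dzb_comm hu]
    rfl
  have e3 : Zb a k (dz j u) z = dz j (dzb k u) z + ∑ m, a k m z * dz m (dz j u) z := by
    rw [dz_dzb_comm hu]
    rfl
  have e4 : ∀ l : ι, Zb a k (dzb l u) z
      = dzb k (dzb l u) z + ∑ m, a k m z * dz m (dzb l u) z := fun _ => rfl
  have c2 : ∑ m, conj (a j m z) * dzb m (dzb k u) z = ∑ l, conj (a j l z) * dzb k (dzb l u) z :=
    Finset.sum_congr rfl fun m _ => by rw [dzb_dzb_comm hu]
  have c3 : ∑ l, a k l z * dz j (dz l u) z = ∑ m, a k m z * dz m (dz j u) z :=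
    Finset.sum_congr rfl fun m _ => by rw [dz_dz_comm hu]
  have c4 : ∑ l, a k l z * ∑ m, conj (a j m z) * dz l (dzb m u) z
      = ∑ l, conj (a j l z) * ∑ m, a k m z * dz m (dzb l u) z := by
    simp only [Finset.mul_sum]
    rw [Finset.sum_comm]
    refine Finset.sum_congr rfl fun m _ => Finset.sum_congr rfl fun l _ => ?_
    ring
  simp only [e1, e2, e3, e4, mul_add, Finset.sum_add_distrib]
  linear_combination c2 + c3 + c4

theorem Zf_Zb_sub {Ω : Set (CE ι)} {α β : ι → ι → ι → CE ι → ℂ} (hfr : IsFrame Ω a α β)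
    (hz : z ∈ Ω) (hu : ContDiffAt ℝ 2 u z) :
    Zf a j (Zb a k u) z - Zb a k (Zf a j u) z
      = ∑ l, α j k l z * Zf a l u z + ∑ l, β j k l z * Zb a l u z := by
  rw [Zf_Zb_sub_general (fun j k => (hfr.smooth j k).differentiable (by simp) z) hu]
  have s1 := hfr.str1 z hz j k
  have s2 : ∀ l, Zb a k (fun y => conj (a j l y)) z
      = -(∑ m, α j k m z * conj (a m l z) + β j k l z) := fun l => by
    rw [← hfr.str2 z hz j k l, neg_neg]
  simp only [s1, s2]
  unfold Zf Zb
  simp only [add_mul, mul_add, Finset.sum_add_distrib, Finset.sum_mul, Finset.mul_sum, neg_mul,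
    Finset.sum_neg_distrib, sub_neg_eq_add]
  have x1 : ∑ l, ∑ m, β j k m z * a m l z * dz l u z
      = ∑ l, ∑ m, β j k l z * (a l m z * dz m u z) := by
    rw [Finset.sum_comm]
    exact Finset.sum_congr rfl fun m _ => Finset.sum_congr rfl fun l _ => by ring
  have x2 : ∑ l, ∑ m, α j k m z * conj (a m l z) * dzb l u z
      = ∑ l, ∑ m, α j k l z * (conj (a l m z) * dzb m u z) := by
    rw [Finset.sum_comm]
    exact Finset.sum_congr rfl fun m _ => Finset.sum_congr rfl fun l _ => by ring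
  linear_combination x1 + x2

theorem differentiableAt_gradF (ha : ∀ l, DifferentiableAt ℝ (a j l) z) {p : CE ι → ℝ}
    (hp : ContDiffAt ℝ 2 p z) : DifferentiableAt ℝ (fun y => gradF a p y j) z :=
  differentiableAt_Zf ha (Complex.ofRealCLM.contDiff.contDiffAt.comp z hp)

/-- `[δ_j, Z̄_k] w = [Z_j, Z̄_k] w + (Z̄_k Z_j p) w - (Z̄_k σ_j) w`. -/
theorem dlF_Zb_sub {Ω : Set (CE ι)} {α β : ι → ι → ι → CE ι → ℂ} (hfr : IsFrame Ω a α β)
    (hz : z ∈ Ω) {p : CE ι → ℝ} (hp : ContDiffAt ℝ 2 p z) (hu : ContDiffAt ℝ 2 u z) :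
    dlF a p j (Zb a k u) z - Zb a k (dlF a p j u) z
      = ∑ l, α j k l z * Zf a l u z + ∑ l, β j k l z * Zb a l u z
        + Zb a k (fun y => gradF a p y j) z * u z - Zb a k (sg a j) z * u z := by
  have had : ∀ j k, DifferentiableAt ℝ (a j k) z :=
    fun j k => (hfr.smooth j k).differentiable (by simp) z
  have h1 : DifferentiableAt ℝ (Zf a j u) z := differentiableAt_Zf (had j) hu
  have h2 : DifferentiableAt ℝ (fun y => gradF a p y j) z := differentiableAt_gradF (had j) hp
  have h3 : DifferentiableAt ℝ u z := hu.differentiableAt (by simp)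
  have h4 : DifferentiableAt ℝ (sg a j) z := (contDiff_sg hfr.smooth).differentiable (by simp) z
  have e : dlF a p j u = fun y => Zf a j u y - gradF a p y j * u y + sg a j y * u y := rfl
  have e' : dlF a p j (Zb a k u) z
      = Zf a j (Zb a k u) z - gradF a p z j * Zb a k u z + sg a j z * Zb a k u z := rfl
  have h23 : DifferentiableAt ℝ (fun y => gradF a p y j * u y) z := h2.mul h3
  have h43 : DifferentiableAt ℝ (fun y => sg a j y * u y) z := h4.mul h3
  have h123 : DifferentiableAt ℝ (fun y => Zf a j u y - gradF a p y j * u y) z := h1.sub h23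
  rw [e, e', Zb_add h123 h43, Zb_sub h1 h23, Zb_mul h2 h3, Zb_mul h4 h3, ← Zf_Zb_sub hfr hz hu]
  ring

end Claimed.Agent.R316.B4

end SecFrameC

/-!
# Row 316, B4-LeviF: calculus of the Levi matrix `leviF a α p` of a real function with respect to the frame

`leviF a α p z k j = Z̄_k (Z_j p) + ∑_l α_{jkl} Z_l p`.  Unfold, use `FrameA` (`gradF_add`, `gradF_comp_real`, `Zb_add`, `Zb_mul`, `Zb_cx`, `Zb_congr`) and the
`qf`-lemmas of `B6E/Wirt.lean` (`qf_add`, `qf_smul_real`, `qf_eq_sum`, `qf_rankOne`).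
Chain rule: `Z_j (χ∘s) = χ'(s) Z_j s`, `Z̄_k (χ'(s) Z_j s) = χ''(s) Z̄_k s Z_j s + χ'(s) Z̄_k Z_j s`, `Z̄_k s = \overline{Z_k s}`, so
`qf (leviF (χ∘s)) v = χ'(s) qf (leviF s) v + χ''(s) |∑_j Z_j s v_j|²`.
(To differentiate `y ↦ gradF a (χ∘s) y j` near `z` first rewrite it with `gradF_comp_real` on a neighbourhood: `Filter.EventuallyEq`, `Zb_congr`.)
-/

section SecLeviF
open scoped ContDiff ComplexOrder ComplexConjugate Topology
open Claimed.Agent.R316.B6E (IsTest IsTestForm cx L2w)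

namespace Claimed.Agent.R316.B4

variable {ι : Type} [Fintype ι] [DecidableEq ι]
variable {a : ι → ι → CE ι → ℂ} {α : ι → ι → ι → CE ι → ℂ} {z : CE ι}

theorem leviF_apply (p : CE ι → ℝ) (k j : ι) :
    leviF a α p z k j = Zb a k (fun y => gradF a p y j) z + ∑ l, α j k l z * gradF a p z l := rfl

theorem leviF_congr {p q : CE ι → ℝ} (h : p =ᶠ[𝓝 z] q) : leviF a α p z = leviF a α q z := by
  ext k j
  rw [leviF_apply, leviF_apply, gradF_congr h]
  congr 1
  refine Zb_congr ?_
  filter_upwards [h.eventually_nhds] with y hy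
  rw [gradF_congr hy]

theorem leviF_add (ha : ∀ j k, ContDiff ℝ ∞ (a j k)) {p q : CE ι → ℝ} (hp : ContDiffAt ℝ 2 p z)
    (hq : ContDiffAt ℝ 2 q z) :
    leviF a α (fun y => p y + q y) z = leviF a α p z + leviF a α q z := by
  have had : ∀ j k, DifferentiableAt ℝ (a j k) z := fun j k => (ha j k).differentiable (by simp) z
  ext k j
  rw [Matrix.add_apply, leviF_apply, leviF_apply, leviF_apply,
    gradF_add (lv_differentiableAt hp) (lv_differentiableAt hq)]
  have h : (fun y => gradF a (fun x => p x + q x) y j)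
      =ᶠ[𝓝 z] fun y => gradF a p y j + gradF a q y j := by
    filter_upwards [lv_eventually_differentiableAt_real hp, lv_eventually_differentiableAt_real hq]
      with y h1 h2
    rw [gradF_add h1 h2]
    rfl
  rw [Zb_congr h, Zb_add (differentiableAt_gradF (had j) hp) (differentiableAt_gradF (had j) hq)]
  simp only [Pi.add_apply, mul_add, Finset.sum_add_distrib]
  ring

theorem leviF_const_mul (ha : ∀ j k, ContDiff ℝ ∞ (a j k)) (c : ℝ) {p : CE ι → ℝ}
    (hp : ContDiffAt ℝ 2 p z) :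
    leviF a α (fun y => c * p y) z = ((c : ℝ) : ℂ) • leviF a α p z := by
  have had : ∀ j k, DifferentiableAt ℝ (a j k) z := fun j k => (ha j k).differentiable (by simp) z
  ext k j
  rw [Matrix.smul_apply, leviF_apply, leviF_apply, gradF_const_mul c (lv_differentiableAt hp)]
  have h : (fun y => gradF a (fun x => c * p x) y j)
      =ᶠ[𝓝 z] fun y => (c : ℂ) * gradF a p y j := by
    filter_upwards [lv_eventually_differentiableAt_real hp] with y h1
    rw [gradF_const_mul c h1]
  rw [Zb_congr h, Zb_const_mul _ (differentiableAt_gradF (had j) hp), smul_eq_mul, mul_add,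
    Finset.mul_sum]
  congr 1
  exact Finset.sum_congr rfl fun l _ => by ring

/-- chain rule, entries. -/
theorem leviF_comp_real (ha : ∀ j k, ContDiff ℝ ∞ (a j k)) (χ : ℝ → ℝ) (s : CE ι → ℝ)
    (hχ : ContDiffAt ℝ 2 χ (s z)) (hs : ContDiffAt ℝ 2 s z) (k j : ι) :
    leviF a α (fun y => χ (s y)) z k j
      = ((deriv χ (s z) : ℝ) : ℂ) * leviF a α s z k j
        + ((deriv (deriv χ) (s z) : ℝ) : ℂ) * (conj (gradF a s z k) * gradF a s z j) := by
  have had : ∀ j k, DifferentiableAt ℝ (a j k) z := fun j k => (ha j k).differentiable (by simp) z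
  have hsc : ContinuousAt s z := hs.continuousAt
  have hχev : ∀ᶠ w in 𝓝 z, DifferentiableAt ℝ χ (s w) :=
    hsc.eventually ((hχ.eventually (by simp)).mono fun _ h => h.differentiableAt (by norm_num))
  have h : (fun w => gradF a (fun y => χ (s y)) w j)
      =ᶠ[𝓝 z] fun w => ((deriv χ (s w) : ℝ) : ℂ) * gradF a s w j := by
    filter_upwards [lv_eventually_differentiableAt_real hs, hχev] with w h1 h2
    rw [gradF_comp_real χ s h2 h1]
  have hdχ : DifferentiableAt ℝ (deriv χ) (s z) := by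
    have h1 : ContDiffAt ℝ 1 (deriv χ) (s z) := by
      have := hχ.fderiv_right (m := 1) (by norm_num)
      have h2 : deriv χ = fun x => fderiv ℝ χ x 1 := by funext x; simp
      rw [h2]
      exact this.clm_apply contDiffAt_const
    exact h1.differentiableAt (by norm_num)
  have hs1 := lv_differentiableAt hs
  have hA : DifferentiableAt ℝ (fun w => ((deriv χ (s w) : ℝ) : ℂ)) z :=
    differentiableAt_ofReal (u := fun w => deriv χ (s w)) (hdχ.comp z hs1)
  have hB : Zb a k (fun w => ((deriv χ (s w) : ℝ) : ℂ)) z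
      = ((deriv (deriv χ) (s z) : ℝ) : ℂ) * conj (gradF a s z k) := by
    have := Zb_cx (a := a) (j := k) (z := z) (fun w => deriv χ (s w))
    rw [gradF_comp_real (deriv χ) s hdχ hs1, map_mul, Complex.conj_ofReal] at this
    exact this
  rw [leviF_apply, leviF_apply, Zb_congr h, Zb_mul hA (differentiableAt_gradF (had j) hs), hB,
    gradF_comp_real χ s (hχ.differentiableAt (by norm_num)) hs1, mul_add, Finset.mul_sum]
  have : ∀ l, α j k l z * (((deriv χ (s z) : ℝ) : ℂ) * gradF a s z l)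
      = ((deriv χ (s z) : ℝ) : ℂ) * (α j k l z * gradF a s z l) := fun l => by ring
  simp only [this]
  ring

/-- **chain rule.** -/
theorem qf_leviF_comp_real (ha : ∀ j k, ContDiff ℝ ∞ (a j k)) (χ : ℝ → ℝ) (s : CE ι → ℝ)
    (hχ : ContDiffAt ℝ 2 χ (s z)) (hs : ContDiffAt ℝ 2 s z) (v : ι → ℂ) :
    qf (leviF a α (fun y => χ (s y)) z) v
      = deriv χ (s z) * qf (leviF a α s z) v
        + deriv (deriv χ) (s z) * ‖∑ j, gradF a s z j * v j‖ ^ 2 := by
  have e : leviF a α (fun y => χ (s y)) z = ((deriv χ (s z) : ℝ) : ℂ) • leviF a α s z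
      + ((deriv (deriv χ) (s z) : ℝ) : ℂ) •
        (Matrix.of fun k j => conj (gradF a s z k) * gradF a s z j) := by
    ext k j
    rw [leviF_comp_real ha χ s hχ hs]
    simp
  rw [e, B6E.qf_add, B6E.qf_smul_real, B6E.qf_smul_real, B6E.qf_rankOne]

theorem contDiffOn_leviF (ha : ∀ j k, ContDiff ℝ ∞ (a j k)) {Ω : Set (CE ι)} (hΩ : IsOpen Ω)
    (hα : ∀ j k l, ContDiffOn ℝ ∞ (α j k l) Ω) {p : CE ι → ℝ} (hp : ContDiffOn ℝ ∞ p Ω) (k j : ι) :
    ContDiffOn ℝ ∞ (fun y => leviF a α p y k j) Ω := by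
  have e : (fun y => leviF a α p y k j)
      = fun y => Zb a k (fun x => gradF a p x j) y + ∑ l, α j k l y * gradF a p y l := rfl
  rw [e]
  exact (contDiffOn_Zb ha hΩ (contDiffOn_gradF ha hΩ hp)).add
    (ContDiffOn.sum fun l _ => (hα j k l).mul (contDiffOn_gradF ha hΩ hp))

/-- the flat case. -/
theorem leviF_zero (p : CE ι → ℝ) :
    leviF (fun _ _ _ => (0 : ℂ)) (fun _ _ _ _ => (0 : ℂ)) p z = levi p z := by
  ext k j
  rw [leviF_apply, Zb_zero_coef]
  simp only [zero_mul, Finset.sum_const_zero, add_zero]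
  rw [levi_eq_dzb_grad10]
  congr 1
  funext y
  exact Zf_zero_coef

end Claimed.Agent.R316.B4

end SecLeviF
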