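import Claimed.Agent.R316.Pack015_2
import Claimed.Agent.R316.B4.Frame

set_option autoImplicit false

/-!
# Row 316, B4-AlgCayley: the normalised frame of `T^{0,1}` of an almost complex structure close to `i`

`i = mulI` (multiplication by `Complex.I` as a REAL linear map of `CE ι`).  For a real linear `L` with `L + i` invertible put `𝒜 = cay L = (L + i)⁻¹ (i - L)`.
* `cay_spec`:  `(L + i) 𝒜 x = (i - L) x`, equivalently `L (x + 𝒜 x) = i (x - 𝒜 x)`  (`cay_spec'`).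
* `one_add_cay`: `x + 𝒜 x = (L + i)⁻¹ (2 i x)`; hence `1 + 𝒜` is onto (`exists_eq_add_cay`: given `v` take `x = -(i/2) (L + i) v`).
* `cay_antilinear` (needs `L² = -1`): `𝒜 (i x) = - i 𝒜 x`.  By injectivity of `L + i` it suffices that `(L + i)(- i 𝒜 x) = (i - L)(i x)`.  From `cay_spec'`: `L(x + 𝒜x) = i(x - 𝒜x)`; apply `L`:
  `-(x + 𝒜 x) = L (i (x - 𝒜 x))`, i.e. `L(i x) - L(i 𝒜 x) = - x - 𝒜 x`, which is the claim rearranged: `(L+i)(-i𝒜x) = -L(i𝒜x) + 𝒜x`, `(i-L)(ix) = -x - L(ix)`.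
* invertibility and smoothness near `i`: `mulI + mulI = 2 i` is a continuous linear equivalence; the invertible maps form an open set on which `ContinuousLinearMap.inverse` is smooth
  (`ContinuousLinearEquiv.nhds`, `contDiffAt_map_inverse`); `cay` = composition (`ContDiffAt.clm_comp`).
* `hol_of_Zb_eq_zero`: `S = {v | ℓ v + i ℓ (L v) = 0}` is a real subspace, invariant under `L` (`L² = -1`).  The hypothesis says `(1+𝒜) e_j ∈ S` (`∑_k (𝒜 e_j)_k • e_k = 𝒜 e_j`: `CE_eq_sum_complex`; `L (1+𝒜) e_j = i (1-𝒜) e_j`).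
  Then also `L (1+𝒜) e_j = i(1 - 𝒜) e_j = (1+𝒜)(i e_j) ∈ S` (antilinearity).  Every `x` is a real combination of `e_j, i e_j` (`CE_eq_sum`), so `(1+𝒜) x ∈ S` for all `x`, and `1+𝒜` is onto.
  `ℓ v + i ℓ(L v) = 0 ⇒ ℓ (L v) = i ℓ v`.
-/

section SecAlgCayley
open scoped ContDiff ComplexOrder ComplexConjugate Topology

namespace Claimed.Agent.R316.B4

variable {ι : Type} [Fintype ι]

/-- multiplication by `i` as a real linear map. -/
noncomputable def mulI : CE ι →L[ℝ] CE ι := Complex.I • ContinuousLinearMap.id ℝ (CE ι)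

/-- `𝒜 = (L + i)⁻¹ (i - L)`. -/
noncomputable def cay (L : CE ι →L[ℝ] CE ι) : CE ι →L[ℝ] CE ι :=
  (L + mulI).inverse.comp (mulI - L)

theorem mulI_apply (v : CE ι) : (mulI : CE ι →L[ℝ] CE ι) v = Complex.I • v := rfl

theorem cay_mulI : cay (mulI : CE ι →L[ℝ] CE ι) = 0 := by
  unfold cay
  simp

theorem cay_spec {L : CE ι →L[ℝ] CE ι} (hL : (L + mulI).IsInvertible) (x : CE ι) :
    L (cay L x) + Complex.I • cay L x = Complex.I • x - L x := by
  have h := hL.self_apply_inverse ((mulI - L : CE ι →L[ℝ] CE ι) x)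
  rw [add_apply, sub_apply, mulI_apply, mulI_apply] at h
  exact h

theorem cay_spec' {L : CE ι →L[ℝ] CE ι} (hL : (L + mulI).IsInvertible) (x : CE ι) :
    L (x + cay L x) = Complex.I • (x - cay L x) := by
  have h := cay_spec hL x
  rw [map_add, smul_sub]
  have h2 : L (cay L x) = Complex.I • x - L x - Complex.I • cay L x := by
    rw [← h]; abel
  rw [h2]; abel

/-- `I • I • v = -v`. -/
theorem I_smul_I_smul (v : CE ι) : Complex.I • Complex.I • v = - v := by
  rw [smul_smul, Complex.I_mul_I, neg_one_smul]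

theorem exists_eq_add_cay {L : CE ι →L[ℝ] CE ι} (hL : (L + mulI).IsInvertible) (v : CE ι) :
    ∃ x : CE ι, v = x + cay L x := by
  refine ⟨(-Complex.I / 2) • (L v + Complex.I • v), hL.injective ?_⟩
  set x : CE ι := (-Complex.I / 2) • (L v + Complex.I • v) with hx
  have h := cay_spec hL x
  rw [add_apply, add_apply, mulI_apply, mulI_apply, map_add,
    smul_add]
  have h2 : L x + L (cay L x) + (Complex.I • x + Complex.I • cay L x)
      = L x + Complex.I • x + (L (cay L x) + Complex.I • cay L x) := by abel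
  rw [h2, h]
  have h3 : L x + Complex.I • x + (Complex.I • x - L x) = (2 * Complex.I) • x := by
    rw [two_mul, add_smul]; abel
  rw [h3, hx, smul_smul]
  have h4 : 2 * Complex.I * (-Complex.I / 2) = 1 := by
    have : 2 * Complex.I * (-Complex.I / 2) = -(Complex.I * Complex.I) := by ring
    rw [this, Complex.I_mul_I]; norm_num
  rw [h4, one_smul]

theorem cay_antilinear {L : CE ι →L[ℝ] CE ι} (hL : (L + mulI).IsInvertible)
    (hsq : ∀ v, L (L v) = - v) (x : CE ι) : cay L (Complex.I • x) = - (Complex.I • cay L x) := by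
  refine hL.injective ?_
  have h1 := cay_spec hL (Complex.I • x)
  have h2 := cay_spec' hL x
  have h3 : L (Complex.I • (x - cay L x)) = - (x + cay L x) := by rw [← h2, hsq]
  rw [smul_sub, map_sub] at h3
  rw [add_apply, add_apply, mulI_apply, mulI_apply, h1,
    I_smul_I_smul, map_neg, smul_neg, I_smul_I_smul]
  have h4 : L (Complex.I • x) = L (Complex.I • cay L x) - (x + cay L x) := by
    rw [sub_eq_add_neg _ (x + cay L x), ← h3]; abel
  rw [h4]; abel

/-- `2 i` is invertible. -/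
theorem isInvertible_mulI_add_mulI :
    ((mulI : CE ι →L[ℝ] CE ι) + mulI).IsInvertible := by
  refine ContinuousLinearMap.IsInvertible.of_inverse
    (g := (-Complex.I / 2) • ContinuousLinearMap.id ℝ (CE ι)) ?_ ?_
  · ext1 v
    have h4 : Complex.I * (-Complex.I / 2) + Complex.I * (-Complex.I / 2) = 1 := by
      have : Complex.I * (-Complex.I / 2) + Complex.I * (-Complex.I / 2)
          = -(Complex.I * Complex.I) := by ring
      rw [this, Complex.I_mul_I]; norm_num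
    change Complex.I • ((-Complex.I / 2) • v) + Complex.I • ((-Complex.I / 2) • v) = v
    rw [smul_smul, ← add_smul, h4, one_smul]
  · ext1 v
    have h4 : (-Complex.I / 2) * Complex.I + (-Complex.I / 2) * Complex.I = 1 := by
      have : (-Complex.I / 2) * Complex.I + (-Complex.I / 2) * Complex.I
          = -(Complex.I * Complex.I) := by ring
      rw [this, Complex.I_mul_I]; norm_num
    change (-Complex.I / 2) • (Complex.I • v + Complex.I • v) = v
    rw [smul_add, smul_smul, ← add_smul, h4, one_smul]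

/-- invertibility and smoothness near `i`. -/
theorem exists_cay_nhds : ∃ δ : ℝ, 0 < δ ∧ ∀ L : CE ι →L[ℝ] CE ι, ‖L - mulI‖ < δ →
    (L + mulI).IsInvertible ∧ ContDiffAt ℝ ∞ (cay : (CE ι →L[ℝ] CE ι) → _) L := by
  have hopen : IsOpen {L : CE ι →L[ℝ] CE ι | (L + mulI).IsInvertible} :=
    (ContinuousLinearEquiv.isOpen (𝕜 := ℝ) (E := CE ι) (F := CE ι)).preimage
      (continuous_id.add continuous_const)
  obtain ⟨δ, hδ, hsub⟩ := Metric.isOpen_iff.1 hopen mulI isInvertible_mulI_add_mulI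
  refine ⟨δ, hδ, fun L hLδ => ?_⟩
  have hL : (L + mulI).IsInvertible := hsub (mem_ball_iff_norm.2 hLδ)
  refine ⟨hL, ?_⟩
  have h1 : ContDiffAt ℝ ∞ (fun T : CE ι →L[ℝ] CE ι => (T + mulI).inverse) L :=
    (hL.contDiffAt_map_inverse (n := ∞)).comp L (contDiffAt_id.add contDiffAt_const)
  exact h1.clm_comp (contDiffAt_const.sub contDiffAt_id)

variable [DecidableEq ι]

/-- **functions killed by the frame are holomorphic for `L`.** -/
theorem hol_of_Zb_eq_zero {L : CE ι →L[ℝ] CE ι} (hL : (L + mulI).IsInvertible)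
    (hsq : ∀ v, L (L v) = - v) {a : ι → ι → CE ι → ℂ} {z : CE ι}
    (ha : ∀ j k, a j k z = cay L (eb j) k) {w : CE ι → ℂ} (hw : ∀ j, Zb a j w z = 0) (v : CE ι) :
    fderiv ℝ w z (L v) = Complex.I * fderiv ℝ w z v := by
  set ℓ := fderiv ℝ w z with hℓ
  set Ψ : CE ι →L[ℝ] ℂ := ℓ + Complex.I • (ℓ.comp L) with hΨ
  have hΨa : ∀ u, Ψ u = ℓ u + Complex.I * ℓ (L u) := fun u => rfl
  set Ψ' : CE ι →L[ℝ] ℂ := Ψ.comp (ContinuousLinearMap.id ℝ (CE ι) + cay L) with hΨ'
  have hΨ'a : ∀ u, Ψ' u = Ψ (u + cay L u) := fun u => rfl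
  have hsum : ∀ j, ∑ k, a j k z • eb k = cay L (eb j) := fun j => by
    simp only [ha]
    exact (CE_eq_sum_complex _).symm
  have h1 : ∀ j, Ψ' (eb j) = 0 := by
    intro j
    have h := hw j
    rw [Zb_eq_fderiv, hsum, ← cay_spec' hL] at h
    rw [hΨ'a, hΨa]
    have h2 : (1 / 2 : ℂ) ≠ 0 := by norm_num
    exact (mul_eq_zero.1 h).resolve_left h2
  have hinv : ∀ u, Ψ u = 0 → Ψ (L u) = 0 := by
    intro u hu
    rw [hΨa] at hu ⊢
    rw [hsq, map_neg]
    have : ℓ (L u) + Complex.I * -ℓ u = -Complex.I * (ℓ u + Complex.I * ℓ (L u)) := by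
      have hI := Complex.I_mul_I
      linear_combination (ℓ (L u)) * hI
    rw [this, hu, mul_zero]
  have h2 : ∀ j, Ψ' (Complex.I • eb j) = 0 := by
    intro j
    rw [hΨ'a, cay_antilinear hL hsq, ← sub_eq_add_neg, ← smul_sub, ← cay_spec' hL]
    exact hinv _ (h1 j)
  have h3 : ∀ x, Ψ' x = 0 := by
    intro x
    rw [CE_eq_sum x, map_sum]
    refine Finset.sum_eq_zero fun j _ => ?_
    rw [map_add, map_smul, map_smul, h1, h2, smul_zero, smul_zero, add_zero]
  obtain ⟨x, hx⟩ := exists_eq_add_cay hL v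
  have h4 : Ψ v = 0 := by rw [hx, ← hΨ'a, h3]
  rw [hΨa] at h4
  have hI := Complex.I_mul_I
  linear_combination (-Complex.I) * h4 + (ℓ (L v)) * hI

end Claimed.Agent.R316.B4

end SecAlgCayley

/-!
# Row 316, B4-AlgComm: vanishing Nijenhuis tensor ⇒ the normalised frame commutes

`J = Jh z`, `𝒜_z = cay (Jh z)`, smooth on `U` (open), where `J + i` is invertible.  `∂_ξ` = derivative in the direction `ξ` at the fixed point `z ∈ U`.
1. Differentiate the operator identity `J (1 + 𝒜) = i (1 - 𝒜)` (`cay_spec'`, valid on the open set `U`) applied to a fixed `y`: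
   `(∂_ξ J)(y + 𝒜 y) + J (∂_ξ 𝒜) y = - i (∂_ξ 𝒜) y`, i.e. `(∂_ξ J) V_y = - (J + i) (∂_ξ 𝒜) y`, `V_y = y + 𝒜_z y`  (`dcay_identity`; `fderiv_clm_apply`, `HasFDerivAt.clm_apply`).
2. Nijenhuis (`hN`) for the vectors `v = V_x`, `w = V_y`:  `(∂_{Jv} J) w - (∂_{Jw} J) v = J ((∂_v J) w - (∂_w J) v)`.  Insert 1.:
   `- (J+i) [(∂_{Jv} 𝒜) y - (∂_{Jw} 𝒜) x] = - J (J+i) [(∂_v 𝒜) y - (∂_w 𝒜) x]`, and `J (J + i) = -1 + J i = (J + i) i` (as `J² = -1`).  Cancel the injective `J + i`: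
   `(∂_{Jv} 𝒜) y - (∂_{Jw} 𝒜) x = i [(∂_v 𝒜) y - (∂_w 𝒜) x]`; multiply by `i`:
   `(∂_v 𝒜) y + i (∂_{Jv} 𝒜) y = (∂_w 𝒜) x + i (∂_{Jw} 𝒜) x`   (`cay_comm`).
3. Components: `a j k y = (𝒜_y e_j)_k` near `z`.  By `Zb_eq_fderiv` with `e_j + ∑ a_{jk} e_k = V_{e_j}`, `i (e_j - ∑ a_{jk} e_k) = J V_{e_j}` (`cay_spec'`) and
   `fderiv ℝ (fun y => (𝒜_y e_k) l) z ξ = ((∂_ξ 𝒜) e_k) l`:   `Zb a j (a k l) z = ½ [ (∂_{V_{e_j}} 𝒜) e_k + i (∂_{J V_{e_j}} 𝒜) e_k ]_l`, symmetric in `j, k` by 2.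
-/

section SecAlgComm
open scoped ContDiff ComplexOrder ComplexConjugate Topology

namespace Claimed.Agent.R316.B4

variable {ι : Type} [Fintype ι]

theorem dcay_identity {Jh : CE ι → CE ι →L[ℝ] CE ι} {z : CE ι}
    (hJ : ContDiffAt ℝ ∞ Jh z) (hinv : ∀ᶠ y in 𝓝 z, (Jh y + mulI).IsInvertible)
    (hcay : ContDiffAt ℝ ∞ (fun y => cay (Jh y)) z) (ξ y : CE ι) :
    fderiv ℝ Jh z ξ (y + cay (Jh z) y)
      = - (Jh z (fderiv ℝ (fun x => cay (Jh x)) z ξ y)
          + Complex.I • fderiv ℝ (fun x => cay (Jh x)) z ξ y) := by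
  have dJ : HasFDerivAt Jh (fderiv ℝ Jh z) z := (hJ.differentiableAt (by simp)).hasFDerivAt
  set C : CE ι → CE ι →L[ℝ] CE ι := fun x => cay (Jh x) with hC
  have dC : HasFDerivAt C (fderiv ℝ C z) z := (hcay.differentiableAt (by simp)).hasFDerivAt
  have dCy : HasFDerivAt (fun p => C p y) ((fderiv ℝ C z).flip y) z := by
    have := dC.clm_apply (hasFDerivAt_const y z)
    simpa using this
  have du : HasFDerivAt (fun p => y + C p y) ((fderiv ℝ C z).flip y) z := dCy.const_add y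
  have dF := dJ.clm_apply du
  have dG : HasFDerivAt (fun p => Complex.I • (y - C p y))
      (Complex.I • (-((fderiv ℝ C z).flip y))) z := (dCy.const_sub y).const_smul Complex.I
  have hFG : (fun p => Jh p (y + C p y)) =ᶠ[𝓝 z] fun p => Complex.I • (y - C p y) := by
    filter_upwards [hinv] with p hp
    exact cay_spec' hp y
  have huniq := (dF.congr_of_eventuallyEq hFG.symm).unique dG
  have h := congrArg (fun T : CE ι →L[ℝ] CE ι => T ξ) huniq
  simp only [add_apply, ContinuousLinearMap.comp_apply, ContinuousLinearMap.flip_apply,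
    smul_apply, neg_apply] at h
  have h2 : fderiv ℝ Jh z ξ (y + C z y)
      = Complex.I • -(fderiv ℝ C z ξ y) - Jh z (fderiv ℝ C z ξ y) := by
    rw [← h]; abel
  rw [h2, smul_neg]; abel

theorem cay_comm {Jh : CE ι → CE ι →L[ℝ] CE ι} {z : CE ι}
    (hJ : ContDiffAt ℝ ∞ Jh z) (hinv : ∀ᶠ y in 𝓝 z, (Jh y + mulI).IsInvertible)
    (hcay : ContDiffAt ℝ ∞ (fun y => cay (Jh y)) z) (hsq : ∀ v, Jh z (Jh z v) = - v)
    (hN : ∀ v w, fderiv ℝ Jh z (Jh z v) w - fderiv ℝ Jh z (Jh z w) v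
      = Jh z (fderiv ℝ Jh z v w - fderiv ℝ Jh z w v)) (x y : CE ι) :
    fderiv ℝ (fun p => cay (Jh p)) z (x + cay (Jh z) x) y
        + Complex.I • fderiv ℝ (fun p => cay (Jh p)) z (Jh z (x + cay (Jh z) x)) y
      = fderiv ℝ (fun p => cay (Jh p)) z (y + cay (Jh z) y) x
        + Complex.I • fderiv ℝ (fun p => cay (Jh p)) z (Jh z (y + cay (Jh z) y)) x := by
  have hz : (Jh z + mulI).IsInvertible := hinv.self_of_nhds
  set J := Jh z with hJz
  set D := fderiv ℝ (fun p => cay (Jh p)) z with hD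
  set v := x + cay J x with hv
  set w := y + cay J y with hw
  have key := hN v w
  rw [dcay_identity hJ hinv hcay (J v) y, dcay_identity hJ hinv hcay (J w) x,
    dcay_identity hJ hinv hcay v y, dcay_identity hJ hinv hcay w x] at key
  -- cancel `J + i`
  have hinj : D (J v) y - D (J w) x = Complex.I • (D v y - D w x) := by
    refine hz.injective ?_
    rw [add_apply, add_apply, mulI_apply, mulI_apply, I_smul_I_smul]
    simp only [map_sub, map_neg, map_add, hsq, smul_sub, ← hD, ← hJz] at key ⊢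
    have e1 : J (D (J v) y) - J (D (J w) x) + (Complex.I • D (J v) y - Complex.I • D (J w) x)
        = -(-(J (D (J v) y) + Complex.I • D (J v) y) - -(J (D (J w) x) + Complex.I • D (J w) x)) := by
      abel
    rw [e1, key]
    abel
  have h2 := congrArg (fun u : CE ι => Complex.I • u) hinj
  simp only [smul_sub, I_smul_I_smul] at h2
  have h3 : Complex.I • D (J v) y = Complex.I • D (J w) x + (-D v y - -D w x) := by
    rw [← h2]; abel
  rw [h3]; abel

/-- evaluation `T ↦ (T e) k` as a real continuous linear map. -/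
noncomputable def evCoef (e : CE ι) (k : ι) : (CE ι →L[ℝ] CE ι) →L[ℝ] ℂ :=
  ((EuclideanSpace.proj k : CE ι →L[ℂ] ℂ).restrictScalars ℝ).comp
    (ContinuousLinearMap.apply ℝ (CE ι) e)

theorem evCoef_apply (e : CE ι) (k : ι) (T : CE ι →L[ℝ] CE ι) : evCoef e k T = T e k := rfl

variable [DecidableEq ι]

/-- **the frame commutes.** -/
theorem Zb_comm_of_nij {Jh : CE ι → CE ι →L[ℝ] CE ι} {z : CE ι}
    (hJ : ContDiffAt ℝ ∞ Jh z) (hinv : ∀ᶠ y in 𝓝 z, (Jh y + mulI).IsInvertible)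
    (hcay : ContDiffAt ℝ ∞ (fun y => cay (Jh y)) z) (hsq : ∀ v, Jh z (Jh z v) = - v)
    (hN : ∀ v w, fderiv ℝ Jh z (Jh z v) w - fderiv ℝ Jh z (Jh z w) v
      = Jh z (fderiv ℝ Jh z v w - fderiv ℝ Jh z w v))
    {a : ι → ι → CE ι → ℂ} (ha : ∀ j k, a j k =ᶠ[𝓝 z] fun y => cay (Jh y) (eb j) k) (j k l : ι) :
    Zb a j (a k l) z = Zb a k (a j l) z := by
  have hz : (Jh z + mulI).IsInvertible := hinv.self_of_nhds
  have hsum : ∀ j, ∑ m, a j m z • eb m = cay (Jh z) (eb j) := fun j => by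
    simp only [fun m => (ha j m).eq_of_nhds]
    exact (CE_eq_sum_complex _).symm
  have hfd : ∀ k l ξ, fderiv ℝ (a k l) z ξ = fderiv ℝ (fun p => cay (Jh p)) z ξ (eb k) l := by
    intro k l ξ
    rw [(ha k l).fderiv_eq]
    have h1 : (fun y => cay (Jh y) (eb k) l) = (evCoef (eb k) l) ∘ (fun p => cay (Jh p)) := rfl
    rw [h1, fderiv_comp _ (evCoef (eb k) l).differentiableAt (hcay.differentiableAt (by simp)),
      ContinuousLinearMap.fderiv]
    rfl
  have hform : ∀ j k l, Zb a j (a k l) z = (1 / 2 : ℂ) *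
      (fderiv ℝ (fun p => cay (Jh p)) z (eb j + cay (Jh z) (eb j)) (eb k)
        + Complex.I • fderiv ℝ (fun p => cay (Jh p)) z
            (Jh z (eb j + cay (Jh z) (eb j))) (eb k) : CE ι) l := by
    intro j k l
    rw [Zb_eq_fderiv, hsum, ← cay_spec' hz, hfd, hfd]
    rfl
  rw [hform, hform, cay_comm hJ hinv hcay hsq hN (eb j) (eb k)]

end Claimed.Agent.R316.B4

end SecAlgComm

/-!
# Row 316, B4-AlgFrame: from a normalised integrable almost complex structure to a commuting normalised frame (assembly)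
-/

section SecAlgFrame
set_option linter.unusedSectionVars false
open scoped ContDiff ComplexOrder ComplexConjugate Topology
open Claimed.Agent.R316.B6E (IsTest)

namespace Claimed.Agent.R316.B4

variable {ι : Type} [Fintype ι] [DecidableEq ι]

theorem frame_of_ACS {r₀ : ℝ} (hr₀ : 0 < r₀) {Jh : CE ι → CE ι →L[ℝ] CE ι} (hJ : IsACS r₀ Jh) :
    ∃ (r₁ : ℝ) (a : ι → ι → CE ι → ℂ), 0 < r₁ ∧ r₁ ≤ r₀ ∧ (∀ j k, ContDiff ℝ ∞ (a j k)) ∧
      (∀ j k, a j k 0 = 0) ∧ (∀ j k, fderiv ℝ (a j k) 0 = 0) ∧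
      (∀ z ∈ Metric.ball (0 : CE ι) r₁, ∀ j k l, Zb a j (a k l) z = Zb a k (a j l) z) ∧
      (∀ z ∈ Metric.ball (0 : CE ι) r₁, ∀ w : CE ι → ℂ, (∀ j, Zb a j w z = 0) →
        ∀ v, fderiv ℝ w z (Jh z v) = Complex.I * fderiv ℝ w z v) := by
  obtain ⟨δ, hδ, hcay⟩ := exists_cay_nhds (ι := ι)
  have hJ0 : Jh 0 = mulI := by
    ext1 v
    rw [hJ.zero v, mulI_apply]
  have h0mem : (0 : CE ι) ∈ Metric.ball (0 : CE ι) r₀ := Metric.mem_ball_self hr₀
  have hcontAt : ContinuousAt Jh 0 :=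
    (hJ.smooth.contDiffAt (Metric.isOpen_ball.mem_nhds h0mem)).continuousAt
  have hev : ∀ᶠ z in 𝓝 (0 : CE ι), ‖Jh z - mulI‖ < δ := by
    have h1 : ContinuousAt (fun z => ‖Jh z - mulI‖) 0 := (hcontAt.sub continuousAt_const).norm
    refine h1.eventually_lt continuousAt_const ?_
    simp [hJ0, hδ]
  obtain ⟨ρ, hρ, hρs⟩ := Metric.eventually_nhds_iff_ball.1 hev
  set r₂ : ℝ := min ρ r₀ with hr₂
  have hr₂pos : 0 < r₂ := lt_min hρ hr₀
  have hsub₀ : Metric.ball (0 : CE ι) r₂ ⊆ Metric.ball 0 r₀ :=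
    Metric.ball_subset_ball (min_le_right _ _)
  have hnear : ∀ z ∈ Metric.ball (0 : CE ι) r₂, ‖Jh z - mulI‖ < δ := fun z hz =>
    hρs z (Metric.ball_subset_ball (min_le_left _ _) hz)
  have hJat : ∀ z ∈ Metric.ball (0 : CE ι) r₂, ContDiffAt ℝ ∞ Jh z := fun z hz =>
    hJ.smooth.contDiffAt (Metric.isOpen_ball.mem_nhds (hsub₀ hz))
  have hcayAt : ∀ z ∈ Metric.ball (0 : CE ι) r₂, ContDiffAt ℝ ∞ (fun y => cay (Jh y)) z :=
    fun z hz => (hcay _ (hnear z hz)).2.comp z (hJat z hz)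
  -- local coefficients
  set a₀ : ι → ι → CE ι → ℂ := fun j k y => cay (Jh y) (eb j) k with ha₀
  have ha₀at : ∀ j k, ∀ z ∈ Metric.ball (0 : CE ι) r₂, ContDiffAt ℝ ∞ (a₀ j k) z := fun j k z hz =>
    (evCoef (eb j) k).contDiff.contDiffAt.comp z (hcayAt z hz)
  have ha₀on : ∀ j k, ContDiffOn ℝ ∞ (a₀ j k) (Metric.ball 0 r₂) := fun j k z hz =>
    (ha₀at j k z hz).contDiffWithinAt
  -- globalisation
  have hKsub : Metric.closedBall (0 : CE ι) (r₂ / 2) ⊆ Metric.ball 0 r₂ :=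
    Metric.closedBall_subset_ball (by linarith)
  have hex : ∀ j k, ∃ a' : CE ι → ℂ, IsTest (Metric.ball 0 r₂) a' ∧
      ∀ᶠ z in 𝓝ˢ (Metric.closedBall (0 : CE ι) (r₂ / 2)), a' z = a₀ j k z := fun j k =>
    B6E.exists_contDiff_eq_near Metric.isOpen_ball (isCompact_closedBall _ _) hKsub (ha₀on j k)
  choose a hat hae using hex
  have hloc : ∀ z ∈ Metric.ball (0 : CE ι) (r₂ / 2), ∀ j k, a j k =ᶠ[𝓝 z] a₀ j k := by
    intro z hz j k
    have h1 := hae j k
    rw [eventually_nhdsSet_iff_forall] at h1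
    exact h1 z (Metric.ball_subset_closedBall hz)
  have hsubh : Metric.ball (0 : CE ι) (r₂ / 2) ⊆ Metric.ball 0 r₂ :=
    Metric.ball_subset_ball (by linarith)
  have h0h : (0 : CE ι) ∈ Metric.ball (0 : CE ι) (r₂ / 2) := Metric.mem_ball_self (by positivity)
  have hinvev : ∀ z ∈ Metric.ball (0 : CE ι) (r₂ / 2),
      ∀ᶠ y in 𝓝 z, (Jh y + mulI).IsInvertible := fun z hz => by
    filter_upwards [Metric.isOpen_ball.mem_nhds (hsubh hz)] with y hy
    exact (hcay _ (hnear y hy)).1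
  refine ⟨r₂ / 2, a, by positivity, ?_, fun j k => (hat j k).smooth, fun j k => ?_, fun j k => ?_,
    fun z hz j k l => ?_, fun z hz w hw v => ?_⟩
  · have : r₂ ≤ r₀ := min_le_right _ _
    linarith
  · rw [(hloc 0 h0h j k).eq_of_nhds]
    simp only [ha₀, hJ0, cay_mulI]
    simp
  · rw [(hloc 0 h0h j k).fderiv_eq]
    have h1 : a₀ j k = (evCoef (eb j) k) ∘ (cay ∘ Jh) := rfl
    have hd1 : DifferentiableAt ℝ (cay : (CE ι →L[ℝ] CE ι) → _) (Jh 0) :=
      (hcay _ (hnear 0 (hsubh h0h))).2.differentiableAt (by simp)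
    have hd2 : DifferentiableAt ℝ Jh 0 := (hJat 0 (hsubh h0h)).differentiableAt (by simp)
    rw [h1, fderiv_comp _ (evCoef (eb j) k).differentiableAt (hd1.comp 0 hd2),
      fderiv_comp _ hd1 hd2, hJ.dzero]
    simp
  · exact Zb_comm_of_nij (hJat z (hsubh hz)) (hinvev z hz) (hcayAt z (hsubh hz))
      (hJ.sq z (hsub₀ (hsubh hz))) (hJ.nij z (hsub₀ (hsubh hz))) (hloc z hz) j k l
  · exact hol_of_Zb_eq_zero (hcay _ (hnear z (hsubh hz))).1 (hJ.sq z (hsub₀ (hsubh hz)))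
      (fun j k => (hloc z hz j k).eq_of_nhds) hw v

end Claimed.Agent.R316.B4

end SecAlgFrame
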