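import Claimed.Agent.R316.B4.FrameInt
import Claimed.Agent.R316.B4.Frame
import Claimed.Agent.R316.Pack031

set_option autoImplicit false

/-!
# Row 316, B4-BKH: the Bochner–Kodaira–Hörmander inequality for a commuting normalised frame (with error term)

Port of `R316/B6E/BKH.lean` (sorry-free; same structure `bkh_pair` → `bkh_identity` → `bkh_inequality`).
Notation: `δ_j = dlF a p j`, `Z̄_j = Zb a j`, everything integrated against `e^{-p}` over the whole space, `F` a test form on `Ω`.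

1. (`bkhF_pair`)  `∫ δ_j F_j \overline{δ_k F_k} e^{-p} - ∫ Z̄_k F_j \overline{Z̄_j F_k} e^{-p} = ∫ (δ_j Z̄_k F_j - Z̄_k δ_j F_j) \bar F_k e^{-p}`
   (twice `integral_dlF_mul_conj`, once conjugated; all functions are test functions by `isTest_dlF`, `isTest_Zb`).
2. `dlF_Zb_sub`:  `δ_j Z̄_k F_j - Z̄_k δ_j F_j = ∑_l α_{jkl} Z_l F_j + ∑_l β_{jkl} Z̄_l F_j + (Z̄_k Z_j p) F_j - (Z̄_k σ_j) F_j` on `Ω`.
3. `Z_l F_j = δ_l F_j + (Z_l p) F_j - σ_l F_j` and (`integral_dlF_mul_conj'` with `B = \bar α_{jkl} F_k`, a test function)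
   `∫ α (δ_l F_j) \bar F_k e^{-p} = - ∫ F_j \overline{Z̄_l(\bar α F_k)} e^{-p} = - ∫ F_j [(Z_l α) \bar F_k + α \overline{Z̄_l F_k}] e^{-p}`.
4. Sum over `j, k`:
   `∫ |∑ δ_j F_j|² e^{-p} + ∫ curlSqF e^{-p} = ∫ ∑_{jk} |Z̄_j F_k|² e^{-p} + ∫ qf (leviF a α p) F e^{-p}`
   `   + Re ∑_{jk} ∫ γ_{jk} F_j \bar F_k e^{-p} + Re ∑_{jkl} ∫ β_{jkl} (Z̄_l F_j) \bar F_k e^{-p} - Re ∑_{jkl} ∫ α_{jkl} F_j \overline{Z̄_l F_k} e^{-p}`,
   `γ = gam a α`, using the pointwise identity `curlSqF = ∑_{jk} |Z̄_j F_k|² - Re ∑_{jk} Z̄_k F_j \overline{Z̄_j F_k}`.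
5. With `|α|, |β|, |γ| ≤ M` on `Ω`, `n = card ι`, `D² = ∑ |Z̄_l F_j|²`:  `|γ-term| ≤ M n |F|²`, `|β-term| + |α-term| ≤ 2 M n^{3/2} D |F| ≤ D² + M² n³ |F|²`.
   So `C = M n + M² n³` works.
-/

section SecBKH
open scoped ContDiff ComplexOrder ComplexConjugate Topology
open MeasureTheory
open Claimed.Agent.R316.B6E (IsTest IsTestForm cx L2w)

namespace Claimed.Agent.R316.B4

variable {ι : Type} [Fintype ι] [DecidableEq ι]

/-- `C` is an admissible error constant in the BKH inequality on `Ω` (for ALL weights). -/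
def BKHConst (Ω : Set (CE ι)) (a : ι → ι → CE ι → ℂ) (α : ι → ι → ι → CE ι → ℂ) (C : ℝ) : Prop :=
  ∀ p : CE ι → ℝ, ContDiffOn ℝ ∞ p Ω → ∀ F : ι → CE ι → ℂ, IsTestForm Ω F →
    (∫ z, (qf (leviF a α p z) (fun j => F j z) - C * ∑ j, ‖F j z‖ ^ 2) * Real.exp (-p z))
      ≤ (∫ z, ‖∑ j, dlF a p j (F j) z‖ ^ 2 * Real.exp (-p z))
        + (∫ z, curlSqF a F z * Real.exp (-p z))

variable {Ω : Set (CE ι)} {a : ι → ι → CE ι → ℂ} {α β : ι → ι → ι → CE ι → ℂ}
  {p : CE ι → ℝ} {F : ι → CE ι → ℂ}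

omit [DecidableEq ι] in
/-- integrability of (test function) × (function smooth on `Ω`), up to rearrangement. -/
theorem integrable_test_mul (hΩ : IsOpen Ω) {T c f : CE ι → ℂ} (hT : IsTest Ω T)
    (hc : ContDiffOn ℝ ∞ c Ω) (h : ∀ z, f z = T z * c z) : Integrable f :=
  (hT.mul_contDiffOn hΩ hc).integrable.congr (Filter.Eventually.of_forall fun z => (h z).symm)

theorem bkhF_pair (hfr : IsFrame Ω a α β) (hΩ : IsOpen Ω) (hp : ContDiffOn ℝ ∞ p Ω)
    (hF : IsTestForm Ω F) (j k : ι) :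
    (∫ z, dlF a p j (F j) z * conj (dlF a p k (F k) z) * ((Real.exp (-p z) : ℝ) : ℂ))
        - (∫ z, Zb a k (F j) z * conj (Zb a j (F k) z) * ((Real.exp (-p z) : ℝ) : ℂ))
      = ∫ z, (dlF a p j (Zb a k (F j)) z - Zb a k (dlF a p j (F j)) z) * conj (F k z)
          * ((Real.exp (-p z) : ℝ) : ℂ) := by
  have ha := hfr.smooth
  have hE : ContDiffOn ℝ ∞ (fun z => ((Real.exp (-p z) : ℝ) : ℂ)) Ω :=
    B6E.contDiffOn_cx_exp hp.neg
  have h1 := integral_dlF_mul_conj (j := k) ha hΩ hp (hF k) (isTest_dlF ha hΩ hp (hF j) j)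
  have h1' := congrArg conj h1
  rw [← integral_conj, map_neg, ← integral_conj] at h1'
  simp only [map_mul, Complex.conj_conj, Complex.conj_ofReal] at h1'
  have h2 := integral_dlF_mul_conj (j := j) ha hΩ hp (isTest_Zb (j := k) ha (hF j)) (hF k)
  have e1 : ∀ z, dlF a p j (F j) z * conj (dlF a p k (F k) z) * ((Real.exp (-p z) : ℝ) : ℂ)
      = conj (dlF a p k (F k) z) * dlF a p j (F j) z * ((Real.exp (-p z) : ℝ) : ℂ) :=
    fun z => by ring
  have e2 : ∀ z, (dlF a p j (Zb a k (F j)) z - Zb a k (dlF a p j (F j)) z) * conj (F k z)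
        * ((Real.exp (-p z) : ℝ) : ℂ)
      = dlF a p j (Zb a k (F j)) z * conj (F k z) * ((Real.exp (-p z) : ℝ) : ℂ)
        - conj (F k z) * Zb a k (dlF a p j (F j)) z * ((Real.exp (-p z) : ℝ) : ℂ) :=
    fun z => by ring
  have I1 : Integrable (fun z => dlF a p j (Zb a k (F j)) z * conj (F k z)
      * ((Real.exp (-p z) : ℝ) : ℂ)) :=
    integrable_test_mul hΩ ((isTest_dlF ha hΩ hp (isTest_Zb (j := k) ha (hF j)) j).mul (hF k).conj)
      hE fun z => rfl
  have I2 : Integrable (fun z => conj (F k z) * Zb a k (dlF a p j (F j)) z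
      * ((Real.exp (-p z) : ℝ) : ℂ)) :=
    integrable_test_mul hΩ ((hF k).conj.mul (isTest_Zb (j := k) ha (isTest_dlF ha hΩ hp (hF j) j)))
      hE fun z => rfl
  simp only [e1, e2]
  rw [integral_sub I1 I2, h1', h2]
  ring

/-- step 3: the `α`-term after one more integration by parts. -/
theorem bkhF_alpha (hfr : IsFrame Ω a α β) (hΩ : IsOpen Ω) (hp : ContDiffOn ℝ ∞ p Ω)
    (hF : IsTestForm Ω F) (j k l : ι) :
    ∫ z, α j k l z * Zf a l (F j) z * conj (F k z) * ((Real.exp (-p z) : ℝ) : ℂ)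
      = ∫ z, (α j k l z * gradF a p z l * F j z * conj (F k z)
          - α j k l z * sg a l z * F j z * conj (F k z)
          - Zf a l (α j k l) z * F j z * conj (F k z)
          - α j k l z * F j z * conj (Zb a l (F k) z)) * ((Real.exp (-p z) : ℝ) : ℂ) := by
  have ha := hfr.smooth
  have hα := hfr.smoothα j k l
  have hE : ContDiffOn ℝ ∞ (fun z => ((Real.exp (-p z) : ℝ) : ℂ)) Ω :=
    B6E.contDiffOn_cx_exp hp.neg
  have hαc : ContDiffOn ℝ ∞ (fun z => conj (α j k l z)) Ω :=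
    Complex.conjCLE.contDiff.comp_contDiffOn hα
  have hB : ContDiffOn ℝ ∞ (fun z => conj (α j k l z) * F k z) Ω :=
    hαc.mul (hF k).smooth.contDiffOn
  have h1 := integral_dlF_mul_conj' (j := l) ha hΩ hp (hF j) hB
  have hZ : ∀ z, F j z * conj (Zb a l (fun y => conj (α j k l y) * F k y) z)
        * ((Real.exp (-p z) : ℝ) : ℂ)
      = (Zf a l (α j k l) z * F j z * conj (F k z)
          + α j k l z * F j z * conj (Zb a l (F k) z)) * ((Real.exp (-p z) : ℝ) : ℂ) := by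
    intro z
    by_cases hz : z ∈ Ω
    · rw [Zb_mul ((hαc.contDiffAt (hΩ.mem_nhds hz)).differentiableAt (by simp))
        ((hF k).differentiable z), Zb_conj]
      simp only [map_add, map_mul, Complex.conj_conj]
      ring
    · rw [(hF j).eq_zero_of_notMem hz]; simp
  simp only [hZ] at h1
  have e1 : ∀ z, α j k l z * Zf a l (F j) z * conj (F k z) * ((Real.exp (-p z) : ℝ) : ℂ)
      = dlF a p l (F j) z * conj (conj (α j k l z) * F k z) * ((Real.exp (-p z) : ℝ) : ℂ)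
        + (α j k l z * gradF a p z l * F j z * conj (F k z)
          - α j k l z * sg a l z * F j z * conj (F k z)) * ((Real.exp (-p z) : ℝ) : ℂ) := by
    intro z
    unfold dlF
    simp only [map_mul, Complex.conj_conj]
    ring
  have e2 : ∀ z, (α j k l z * gradF a p z l * F j z * conj (F k z)
          - α j k l z * sg a l z * F j z * conj (F k z)
          - Zf a l (α j k l) z * F j z * conj (F k z)
          - α j k l z * F j z * conj (Zb a l (F k) z)) * ((Real.exp (-p z) : ℝ) : ℂ)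
      = (α j k l z * gradF a p z l * F j z * conj (F k z)
          - α j k l z * sg a l z * F j z * conj (F k z)) * ((Real.exp (-p z) : ℝ) : ℂ)
        - (Zf a l (α j k l) z * F j z * conj (F k z)
          + α j k l z * F j z * conj (Zb a l (F k) z)) * ((Real.exp (-p z) : ℝ) : ℂ) :=
    fun z => by ring
  have I1 : Integrable (fun z => dlF a p l (F j) z * conj (conj (α j k l z) * F k z)
      * ((Real.exp (-p z) : ℝ) : ℂ)) :=
    integrable_test_mul hΩ ((isTest_dlF ha hΩ hp (hF j) l).mul (hF k).conj) (hα.mul hE)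
      fun z => by simp only [map_mul, Complex.conj_conj]; ring
  have I2 : Integrable (fun z => (α j k l z * gradF a p z l * F j z * conj (F k z)
      - α j k l z * sg a l z * F j z * conj (F k z)) * ((Real.exp (-p z) : ℝ) : ℂ)) :=
    integrable_test_mul hΩ ((hF j).mul (hF k).conj)
      (((hα.mul (contDiffOn_gradF ha hΩ hp)).sub (hα.mul (contDiff_sg ha).contDiffOn)).mul hE)
      fun z => by ring
  have I3 : Integrable (fun z => (Zf a l (α j k l) z * F j z * conj (F k z)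
      + α j k l z * F j z * conj (Zb a l (F k) z)) * ((Real.exp (-p z) : ℝ) : ℂ)) := by
    have J1 : Integrable (fun z => Zf a l (α j k l) z * F j z * conj (F k z)
        * ((Real.exp (-p z) : ℝ) : ℂ)) :=
      integrable_test_mul hΩ ((hF j).mul (hF k).conj) ((contDiffOn_Zf ha hΩ hα).mul hE)
        fun z => by ring
    have J2 : Integrable (fun z => α j k l z * F j z * conj (Zb a l (F k) z)
        * ((Real.exp (-p z) : ℝ) : ℂ)) :=
      integrable_test_mul hΩ ((hF j).mul (isTest_Zb (j := l) ha (hF k)).conj) (hα.mul hE)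
        fun z => by ring
    refine (J1.add J2).congr (Filter.Eventually.of_forall fun z => ?_)
    simp only [Pi.add_apply]
    ring
  simp only [e1, e2]
  rw [integral_add I1 I2, integral_sub I2 I3, h1]
  ring

/-- the integrand of the right hand side of the `(j,k)` identity. -/
noncomputable def bkhR (a : ι → ι → CE ι → ℂ) (α β : ι → ι → ι → CE ι → ℂ) (p : CE ι → ℝ)
    (F : ι → CE ι → ℂ) (j k : ι) (z : CE ι) : ℂ :=
  conj (F k z) * leviF a α p z k j * F j z + gam a α j k z * F j z * conj (F k z)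
    + ∑ l, (β j k l z * Zb a l (F j) z * conj (F k z) - α j k l z * F j z * conj (Zb a l (F k) z))

theorem contDiffOn_gam (hfr : IsFrame Ω a α β) (hΩ : IsOpen Ω) (j k : ι) :
    ContDiffOn ℝ ∞ (gam a α j k) Ω := by
  have ha := hfr.smooth
  unfold gam
  exact (((contDiff_Zb ha (contDiff_sg ha)).contDiffOn.neg).sub
    (ContDiffOn.sum fun l _ => (hfr.smoothα j k l).mul (contDiff_sg ha).contDiffOn)).sub
    (ContDiffOn.sum fun l _ => contDiffOn_Zf ha hΩ (hfr.smoothα j k l))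

theorem integrable_bkhR (hfr : IsFrame Ω a α β) (hΩ : IsOpen Ω) (hp : ContDiffOn ℝ ∞ p Ω)
    (hF : IsTestForm Ω F) (j k : ι) :
    Integrable (fun z => bkhR a α β p F j k z * ((Real.exp (-p z) : ℝ) : ℂ)) := by
  have ha := hfr.smooth
  have hE : ContDiffOn ℝ ∞ (fun z => ((Real.exp (-p z) : ℝ) : ℂ)) Ω :=
    B6E.contDiffOn_cx_exp hp.neg
  have J1 : Integrable (fun z => conj (F k z) * leviF a α p z k j * F j z
      * ((Real.exp (-p z) : ℝ) : ℂ)) :=
    integrable_test_mul hΩ ((hF j).mul (hF k).conj)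
      ((contDiffOn_leviF ha hΩ hfr.smoothα hp k j).mul hE) fun z => by ring
  have J2 : Integrable (fun z => gam a α j k z * F j z * conj (F k z)
      * ((Real.exp (-p z) : ℝ) : ℂ)) :=
    integrable_test_mul hΩ ((hF j).mul (hF k).conj) ((contDiffOn_gam hfr hΩ j k).mul hE)
      fun z => by ring
  have J3 : ∀ l, Integrable (fun z => β j k l z * Zb a l (F j) z * conj (F k z)
      * ((Real.exp (-p z) : ℝ) : ℂ)) := fun l =>
    integrable_test_mul hΩ ((isTest_Zb (j := l) ha (hF j)).mul (hF k).conj)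
      ((hfr.smoothβ j k l).mul hE) fun z => by ring
  have J4 : ∀ l, Integrable (fun z => α j k l z * F j z * conj (Zb a l (F k) z)
      * ((Real.exp (-p z) : ℝ) : ℂ)) := fun l =>
    integrable_test_mul hΩ ((hF j).mul (isTest_Zb (j := l) ha (hF k)).conj)
      ((hfr.smoothα j k l).mul hE) fun z => by ring
  refine ((J1.add J2).add (integrable_finsetSum Finset.univ fun l _ => (J3 l).sub (J4 l))).congr
    (Filter.Eventually.of_forall fun z => ?_)
  simp only [Pi.add_apply, Pi.sub_apply, bkhR, add_mul, Finset.sum_mul, sub_mul]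

/-- steps 1–3 for fixed `(j,k)`. -/
theorem bkhF_pair' (hfr : IsFrame Ω a α β) (hΩ : IsOpen Ω) (hp : ContDiffOn ℝ ∞ p Ω)
    (hF : IsTestForm Ω F) (j k : ι) :
    (∫ z, dlF a p j (F j) z * conj (dlF a p k (F k) z) * ((Real.exp (-p z) : ℝ) : ℂ))
        - (∫ z, Zb a k (F j) z * conj (Zb a j (F k) z) * ((Real.exp (-p z) : ℝ) : ℂ))
      = ∫ z, bkhR a α β p F j k z * ((Real.exp (-p z) : ℝ) : ℂ) := by
  have ha := hfr.smooth
  have hE : ContDiffOn ℝ ∞ (fun z => ((Real.exp (-p z) : ℝ) : ℂ)) Ω :=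
    B6E.contDiffOn_cx_exp hp.neg
  rw [bkhF_pair hfr hΩ hp hF j k]
  -- the commutator
  have hc : ∀ z, (dlF a p j (Zb a k (F j)) z - Zb a k (dlF a p j (F j)) z) * conj (F k z)
        * ((Real.exp (-p z) : ℝ) : ℂ)
      = (∑ l, α j k l z * Zf a l (F j) z * conj (F k z) * ((Real.exp (-p z) : ℝ) : ℂ))
        + ((∑ l, β j k l z * Zb a l (F j) z * conj (F k z))
          + Zb a k (fun y => gradF a p y j) z * F j z * conj (F k z)
          - Zb a k (sg a j) z * F j z * conj (F k z)) * ((Real.exp (-p z) : ℝ) : ℂ) := by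
    intro z
    by_cases hz : z ∈ Ω
    · rw [dlF_Zb_sub hfr hz ((hp.contDiffAt (hΩ.mem_nhds hz)).of_le (by norm_cast))
        ((hF j).smooth.contDiffAt.of_le (by norm_cast))]
      simp only [add_mul, sub_mul, Finset.sum_mul]
      ring
    · rw [(hF k).eq_zero_of_notMem hz]; simp
  have IA : ∀ l, Integrable (fun z => α j k l z * Zf a l (F j) z * conj (F k z)
      * ((Real.exp (-p z) : ℝ) : ℂ)) := fun l =>
    integrable_test_mul hΩ ((isTest_Zf (j := l) ha (hF j)).mul (hF k).conj)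
      ((hfr.smoothα j k l).mul hE) fun z => by ring
  have IB : Integrable (fun z => ((∑ l, β j k l z * Zb a l (F j) z * conj (F k z))
      + Zb a k (fun y => gradF a p y j) z * F j z * conj (F k z)
      - Zb a k (sg a j) z * F j z * conj (F k z)) * ((Real.exp (-p z) : ℝ) : ℂ)) := by
    have J3 : ∀ l, Integrable (fun z => β j k l z * Zb a l (F j) z * conj (F k z)
        * ((Real.exp (-p z) : ℝ) : ℂ)) := fun l =>
      integrable_test_mul hΩ ((isTest_Zb (j := l) ha (hF j)).mul (hF k).conj)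
        ((hfr.smoothβ j k l).mul hE) fun z => by ring
    have J1 : Integrable (fun z => Zb a k (fun y => gradF a p y j) z * F j z * conj (F k z)
        * ((Real.exp (-p z) : ℝ) : ℂ)) :=
      integrable_test_mul hΩ ((hF j).mul (hF k).conj)
        ((contDiffOn_Zb ha hΩ (contDiffOn_gradF ha hΩ hp)).mul hE) fun z => by ring
    have J2 : Integrable (fun z => Zb a k (sg a j) z * F j z * conj (F k z)
        * ((Real.exp (-p z) : ℝ) : ℂ)) :=
      integrable_test_mul hΩ ((hF j).mul (hF k).conj)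
        ((contDiff_Zb ha (contDiff_sg ha)).contDiffOn.mul hE) fun z => by ring
    refine (((integrable_finsetSum Finset.univ fun l _ => J3 l).add J1).sub J2).congr
      (Filter.Eventually.of_forall fun z => ?_)
    simp only [Pi.add_apply, Pi.sub_apply, add_mul, sub_mul, Finset.sum_mul]
  have IA' : ∀ l, Integrable (fun z => (α j k l z * gradF a p z l * F j z * conj (F k z)
          - α j k l z * sg a l z * F j z * conj (F k z)
          - Zf a l (α j k l) z * F j z * conj (F k z)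
          - α j k l z * F j z * conj (Zb a l (F k) z)) * ((Real.exp (-p z) : ℝ) : ℂ)) := by
    intro l
    have hα := hfr.smoothα j k l
    have J1 : Integrable (fun z => (α j k l z * gradF a p z l * F j z * conj (F k z)
          - α j k l z * sg a l z * F j z * conj (F k z)
          - Zf a l (α j k l) z * F j z * conj (F k z)) * ((Real.exp (-p z) : ℝ) : ℂ)) :=
      integrable_test_mul hΩ ((hF j).mul (hF k).conj)
        ((((hα.mul (contDiffOn_gradF ha hΩ hp)).sub (hα.mul (contDiff_sg ha).contDiffOn)).sub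
          (contDiffOn_Zf ha hΩ hα)).mul hE) fun z => by ring
    have J2 : Integrable (fun z => α j k l z * F j z * conj (Zb a l (F k) z)
        * ((Real.exp (-p z) : ℝ) : ℂ)) :=
      integrable_test_mul hΩ ((hF j).mul (isTest_Zb (j := l) ha (hF k)).conj) (hα.mul hE)
        fun z => by ring
    refine (J1.sub J2).congr (Filter.Eventually.of_forall fun z => ?_)
    simp only [Pi.sub_apply]
    ring
  simp only [hc]
  rw [integral_add (integrable_finsetSum Finset.univ fun l _ => IA l) IB,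
    integral_finsetSum Finset.univ fun l _ => IA l]
  simp only [bkhF_alpha hfr hΩ hp hF]
  rw [← integral_finsetSum Finset.univ fun l _ => IA' l,
    ← integral_add (integrable_finsetSum Finset.univ fun l _ => IA' l) IB]
  refine integral_congr_ae (Filter.Eventually.of_forall fun z => ?_)
  simp only [bkhR, leviF_apply, gam]
  rw [← Finset.sum_mul, ← add_mul]
  congr 1
  simp only [Finset.sum_sub_distrib, Finset.mul_sum, Finset.sum_mul, add_mul, sub_mul, mul_add,
    neg_mul]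
  have x1 : ∀ l, conj (F k z) * (α j k l z * gradF a p z l) * F j z
      = α j k l z * gradF a p z l * F j z * conj (F k z) := fun l => by ring
  simp only [x1]
  ring

theorem curlSqF_nonneg (F : ι → CE ι → ℂ) (z : CE ι) : 0 ≤ curlSqF a F z := by
  unfold curlSqF; positivity

/-- pointwise algebra for the curl. -/
theorem curlSqF_ofReal (F : ι → CE ι → ℂ) (z : CE ι) :
    ((curlSqF a F z : ℝ) : ℂ) = (((∑ j, ∑ k, ‖Zb a j (F k) z‖ ^ 2 : ℝ)) : ℂ)
      - ∑ j, ∑ k, Zb a k (F j) z * conj (Zb a j (F k) z) := by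
  set b : ι → ι → ℂ := fun j k => Zb a j (F k) z with hb
  have h1 : ∀ j k, (((‖b j k - b k j‖ ^ 2 : ℝ)) : ℂ)
      = (((‖b j k‖ ^ 2 : ℝ)) : ℂ) + (((‖b k j‖ ^ 2 : ℝ)) : ℂ)
        - b j k * conj (b k j) - b k j * conj (b j k) := by
    intro j k
    have e : ∀ x : ℂ, (((‖x‖ ^ 2 : ℝ)) : ℂ) = x * conj x := fun x => by
      rw [Complex.mul_conj, Complex.normSq_eq_norm_sq]
    rw [e, e, e, map_sub]; ring
  have h2 : ((curlSqF a F z : ℝ) : ℂ)
      = (1 / 2) * ∑ j, ∑ k, (((‖b j k - b k j‖ ^ 2 : ℝ)) : ℂ) := by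
    unfold curlSqF; push_cast; rfl
  rw [h2]
  simp only [h1, Finset.sum_sub_distrib, Finset.sum_add_distrib]
  have s1 : ∑ j, ∑ k, (((‖b k j‖ ^ 2 : ℝ)) : ℂ) = ∑ j, ∑ k, (((‖b j k‖ ^ 2 : ℝ)) : ℂ) :=
    Finset.sum_comm
  have s2 : ∑ j, ∑ k, b j k * conj (b k j) = ∑ j, ∑ k, b k j * conj (b j k) := Finset.sum_comm
  rw [s1, s2]
  push_cast
  ring

theorem integrable_sum_Zb_sq (ha : ∀ j k, ContDiff ℝ ∞ (a j k)) (hΩ : IsOpen Ω) {q : CE ι → ℝ}
    (hq : ContDiffOn ℝ ∞ q Ω) (hF : IsTestForm Ω F) :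
    Integrable (fun z => (∑ j, ∑ k, ‖Zb a j (F k) z‖ ^ 2) * Real.exp (-q z)) := by
  have h : Integrable (fun z => ∑ j, ∑ k, ‖Zb a j (F k) z‖ ^ 2 * Real.exp (-q z)) :=
    integrable_finsetSum _ fun j _ => integrable_finsetSum _ fun k _ =>
      B6E.integrable_normSq_test hΩ hq (isTest_Zb (j := j) ha (hF k))
  refine h.congr (Filter.Eventually.of_forall fun z => ?_)
  simp only [Finset.sum_mul]

theorem integrable_divF_sq (ha : ∀ j k, ContDiff ℝ ∞ (a j k)) (hΩ : IsOpen Ω)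
    (hp : ContDiffOn ℝ ∞ p Ω) {q : CE ι → ℝ} (hq : ContDiffOn ℝ ∞ q Ω) (hF : IsTestForm Ω F) :
    Integrable (fun z => ‖∑ j, dlF a p j (F j) z‖ ^ 2 * Real.exp (-q z)) :=
  B6E.integrable_normSq_test hΩ hq (IsTest.sum _ fun j _ => isTest_dlF ha hΩ hp (hF j) j)

theorem integrable_curlSqF (ha : ∀ j k, ContDiff ℝ ∞ (a j k)) (hΩ : IsOpen Ω) {q : CE ι → ℝ}
    (hq : ContDiffOn ℝ ∞ q Ω) (hF : IsTestForm Ω F) :
    Integrable (fun z => curlSqF a F z * Real.exp (-q z)) := by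
  have h : Integrable (fun z => (1 / 2 : ℝ) * ∑ j, ∑ k,
      ‖Zb a j (F k) z - Zb a k (F j) z‖ ^ 2 * Real.exp (-q z)) :=
    (integrable_finsetSum _ fun j _ => integrable_finsetSum _ fun k _ =>
      B6E.integrable_normSq_test hΩ hq
        ((isTest_Zb (j := j) ha (hF k)).sub (isTest_Zb (j := k) ha (hF j)))).const_mul _
  refine h.congr (Filter.Eventually.of_forall fun z => ?_)
  simp only [curlSqF, Finset.sum_mul, mul_assoc]

theorem integrable_qf_leviF (ha : ∀ j k, ContDiff ℝ ∞ (a j k)) (hΩ : IsOpen Ω)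
    (hα : ∀ j k l, ContDiffOn ℝ ∞ (α j k l) Ω) (hp : ContDiffOn ℝ ∞ p Ω) {q : CE ι → ℝ}
    (hq : ContDiffOn ℝ ∞ q Ω) (hF : IsTestForm Ω F) :
    Integrable (fun z => qf (leviF a α p z) (fun j => F j z) * Real.exp (-q z)) := by
  have h : IsTest Ω (fun z => ∑ j, ∑ k, (conj (F j z) * F k z)
      * (leviF a α p z j k * ((Real.exp (-q z) : ℝ) : ℂ))) :=
    IsTest.sum _ fun j _ => IsTest.sum _ fun k _ =>
      ((hF j).conj.mul (hF k)).mul_contDiffOn hΩ
        ((contDiffOn_leviF ha hΩ hα hp j k).mul (B6E.contDiffOn_cx_exp hq.neg))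
  refine h.integrable.re.congr (Filter.Eventually.of_forall fun z => ?_)
  show (∑ j, ∑ k, (conj (F j z) * F k z)
      * (leviF a α p z j k * ((Real.exp (-q z) : ℝ) : ℂ))).re
    = qf (leviF a α p z) (fun j => F j z) * Real.exp (-q z)
  rw [B6E.qf_eq_sum, ← Complex.re_mul_ofReal]
  congr 1
  rw [Finset.sum_mul]
  refine Finset.sum_congr rfl fun j _ => ?_
  rw [Finset.sum_mul]
  refine Finset.sum_congr rfl fun k _ => ?_
  ring

/-- **BKH identity with error terms.** -/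
theorem bkhF_identity (hfr : IsFrame Ω a α β) (hΩ : IsOpen Ω) (hp : ContDiffOn ℝ ∞ p Ω)
    (hF : IsTestForm Ω F) :
    (∫ z, ‖∑ j, dlF a p j (F j) z‖ ^ 2 * Real.exp (-p z))
        + (∫ z, curlSqF a F z * Real.exp (-p z))
      = (∫ z, (∑ j, ∑ k, ‖Zb a j (F k) z‖ ^ 2) * Real.exp (-p z))
        + (∫ z, qf (leviF a α p z) (fun j => F j z) * Real.exp (-p z))
        + (∫ z, (∑ j, ∑ k, (gam a α j k z * F j z * conj (F k z)
            + ∑ l, (β j k l z * Zb a l (F j) z * conj (F k z)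
              - α j k l z * F j z * conj (Zb a l (F k) z)))).re * Real.exp (-p z)) := by
  have ha := hfr.smooth
  have hE : ContDiffOn ℝ ∞ (fun z => ((Real.exp (-p z) : ℝ) : ℂ)) Ω :=
    B6E.contDiffOn_cx_exp hp.neg
  set X : ℂ := ∑ j, ∑ k, ∫ z, Zb a k (F j) z * conj (Zb a j (F k) z) * ((Real.exp (-p z) : ℝ) : ℂ)
    with hX
  set Y : ℂ := ∑ j, ∑ k, ∫ z, bkhR a α β p F j k z * ((Real.exp (-p z) : ℝ) : ℂ) with hY
  have hIX : ∀ j k, Integrable (fun z => Zb a k (F j) z * conj (Zb a j (F k) z)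
      * ((Real.exp (-p z) : ℝ) : ℂ)) := fun j k =>
    integrable_test_mul hΩ ((isTest_Zb (j := k) ha (hF j)).mul (isTest_Zb (j := j) ha (hF k)).conj)
      hE fun z => rfl
  have hIY := integrable_bkhR hfr hΩ hp hF
  have hID : ∀ j k, Integrable (fun z => dlF a p j (F j) z * conj (dlF a p k (F k) z)
      * ((Real.exp (-p z) : ℝ) : ℂ)) := fun j k =>
    integrable_test_mul hΩ ((isTest_dlF ha hΩ hp (hF j) j).mul (isTest_dlF ha hΩ hp (hF k) k).conj)
      hE fun z => rfl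
  -- divergence term
  have hD : (((∫ z, ‖∑ j, dlF a p j (F j) z‖ ^ 2 * Real.exp (-p z) : ℝ)) : ℂ) = X + Y := by
    rw [← integral_complex_ofReal]
    have e : ∀ z, (((‖∑ j, dlF a p j (F j) z‖ ^ 2 * Real.exp (-p z) : ℝ)) : ℂ)
        = ∑ j, ∑ k, dlF a p j (F j) z * conj (dlF a p k (F k) z)
          * ((Real.exp (-p z) : ℝ) : ℂ) := by
      intro z
      have e0 : ∀ x : ℂ, (((‖x‖ ^ 2 : ℝ)) : ℂ) = x * conj x := fun x => by
        rw [Complex.mul_conj, Complex.normSq_eq_norm_sq]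
      rw [Complex.ofReal_mul, e0, map_sum, Finset.sum_mul_sum, Finset.sum_mul]
      refine Finset.sum_congr rfl fun j _ => ?_
      rw [Finset.sum_mul]
    simp only [e]
    rw [integral_finsetSum _ fun j _ => integrable_finsetSum _ fun k _ => hID j k]
    simp only [integral_finsetSum _ fun k _ => hID _ k]
    rw [hX, hY, ← Finset.sum_add_distrib]
    refine Finset.sum_congr rfl fun j _ => ?_
    rw [← Finset.sum_add_distrib]
    refine Finset.sum_congr rfl fun k _ => ?_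
    rw [← bkhF_pair' hfr hΩ hp hF j k]
    ring
  -- curl term
  have hC : (((∫ z, curlSqF a F z * Real.exp (-p z) : ℝ)) : ℂ)
      = (((∫ z, (∑ j, ∑ k, ‖Zb a j (F k) z‖ ^ 2) * Real.exp (-p z) : ℝ)) : ℂ) - X := by
    rw [← integral_complex_ofReal, ← integral_complex_ofReal]
    have e : ∀ z, (((curlSqF a F z * Real.exp (-p z) : ℝ)) : ℂ)
        = ((((∑ j, ∑ k, ‖Zb a j (F k) z‖ ^ 2) * Real.exp (-p z) : ℝ)) : ℂ)
          - ∑ j, ∑ k, Zb a k (F j) z * conj (Zb a j (F k) z) * ((Real.exp (-p z) : ℝ) : ℂ) := by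
      intro z
      rw [Complex.ofReal_mul, curlSqF_ofReal, sub_mul, Complex.ofReal_mul, Finset.sum_mul]
      congr 1
      refine Finset.sum_congr rfl fun j _ => ?_
      rw [Finset.sum_mul]
    simp only [e]
    have hS : Integrable
        (fun z => ((((∑ j, ∑ k, ‖Zb a j (F k) z‖ ^ 2) * Real.exp (-p z) : ℝ)) : ℂ)) :=
      (integrable_sum_Zb_sq ha hΩ hp hF).ofReal
    have hXX : Integrable (fun z => ∑ j, ∑ k, Zb a k (F j) z * conj (Zb a j (F k) z)
        * ((Real.exp (-p z) : ℝ) : ℂ)) :=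
      integrable_finsetSum _ fun j _ => integrable_finsetSum _ fun k _ => hIX j k
    rw [integral_sub hS hXX,
      integral_finsetSum _ fun j _ => integrable_finsetSum _ fun k _ => hIX j k]
    simp only [integral_finsetSum _ fun k _ => hIX _ k]
    rfl
  -- the real part of `Y`
  have hYsum : Y = ∫ z, (∑ j, ∑ k, bkhR a α β p F j k z) * ((Real.exp (-p z) : ℝ) : ℂ) := by
    rw [hY]
    simp only [Finset.sum_mul]
    rw [integral_finsetSum _ fun j _ => integrable_finsetSum _ fun k _ => hIY j k]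
    simp only [integral_finsetSum _ fun k _ => hIY _ k]
  have hYI : Integrable (fun z => (∑ j, ∑ k, bkhR a α β p F j k z)
      * ((Real.exp (-p z) : ℝ) : ℂ)) := by
    simp only [Finset.sum_mul]
    exact integrable_finsetSum _ fun j _ => integrable_finsetSum _ fun k _ => hIY j k
  have hQI := integrable_qf_leviF ha hΩ hfr.smoothα hp hp hF
  have hYre : Y.re = (∫ z, qf (leviF a α p z) (fun j => F j z) * Real.exp (-p z))
        + (∫ z, (∑ j, ∑ k, (gam a α j k z * F j z * conj (F k z)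
            + ∑ l, (β j k l z * Zb a l (F j) z * conj (F k z)
              - α j k l z * F j z * conj (Zb a l (F k) z)))).re * Real.exp (-p z)) := by
    have e : ∀ z, ((∑ j, ∑ k, bkhR a α β p F j k z) * ((Real.exp (-p z) : ℝ) : ℂ)).re
        = qf (leviF a α p z) (fun j => F j z) * Real.exp (-p z)
          + (∑ j, ∑ k, (gam a α j k z * F j z * conj (F k z)
            + ∑ l, (β j k l z * Zb a l (F j) z * conj (F k z)
              - α j k l z * F j z * conj (Zb a l (F k) z)))).re * Real.exp (-p z) := by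
      intro z
      rw [Complex.re_mul_ofReal, ← add_mul, B6E.qf_eq_sum, ← Complex.add_re]
      congr 2
      have q : ∑ j, ∑ k, conj (F j z) * leviF a α p z j k * F k z
          = ∑ j, ∑ k, conj (F k z) * leviF a α p z k j * F j z := Finset.sum_comm
      rw [q, ← Finset.sum_add_distrib]
      refine Finset.sum_congr rfl fun j _ => ?_
      rw [← Finset.sum_add_distrib]
      refine Finset.sum_congr rfl fun k _ => ?_
      unfold bkhR
      ring
    have hEI : Integrable (fun z => (∑ j, ∑ k, (gam a α j k z * F j z * conj (F k z)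
            + ∑ l, (β j k l z * Zb a l (F j) z * conj (F k z)
              - α j k l z * F j z * conj (Zb a l (F k) z)))).re * Real.exp (-p z)) := by
      have := hYI.re.sub hQI
      refine this.congr (Filter.Eventually.of_forall fun z => ?_)
      simp only [Pi.sub_apply]
      have := e z
      simp only [RCLike.re_to_complex] at *
      linarith
    rw [hYsum, ← integral_add hQI hEI]
    have := integral_re hYI
    simp only [RCLike.re_to_complex] at this
    rw [← this]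
    exact integral_congr_ae (Filter.Eventually.of_forall e)
  have hfin : (((∫ z, ‖∑ j, dlF a p j (F j) z‖ ^ 2 * Real.exp (-p z) : ℝ)) : ℂ)
      + (((∫ z, curlSqF a F z * Real.exp (-p z) : ℝ)) : ℂ)
      = (((∫ z, (∑ j, ∑ k, ‖Zb a j (F k) z‖ ^ 2) * Real.exp (-p z) : ℝ)) : ℂ) + Y := by
    rw [hD, hC]; ring
  have := congrArg Complex.re hfin
  simp only [Complex.add_re, Complex.ofReal_re] at this
  rw [this, hYre]
  ring

theorem integrable_bkhErr (hfr : IsFrame Ω a α β) (hΩ : IsOpen Ω) (hp : ContDiffOn ℝ ∞ p Ω)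
    (hF : IsTestForm Ω F) :
    Integrable (fun z => (∑ j, ∑ k, (gam a α j k z * F j z * conj (F k z)
            + ∑ l, (β j k l z * Zb a l (F j) z * conj (F k z)
              - α j k l z * F j z * conj (Zb a l (F k) z)))).re * Real.exp (-p z)) := by
  have ha := hfr.smooth
  have hE : ContDiffOn ℝ ∞ (fun z => ((Real.exp (-p z) : ℝ) : ℂ)) Ω :=
    B6E.contDiffOn_cx_exp hp.neg
  have J2 : ∀ j k, Integrable (fun z => gam a α j k z * F j z * conj (F k z)
      * ((Real.exp (-p z) : ℝ) : ℂ)) := fun j k =>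
    integrable_test_mul hΩ ((hF j).mul (hF k).conj) ((contDiffOn_gam hfr hΩ j k).mul hE)
      fun z => by ring
  have J3 : ∀ j k l, Integrable (fun z => β j k l z * Zb a l (F j) z * conj (F k z)
      * ((Real.exp (-p z) : ℝ) : ℂ)) := fun j k l =>
    integrable_test_mul hΩ ((isTest_Zb (j := l) ha (hF j)).mul (hF k).conj)
      ((hfr.smoothβ j k l).mul hE) fun z => by ring
  have J4 : ∀ j k l, Integrable (fun z => α j k l z * F j z * conj (Zb a l (F k) z)
      * ((Real.exp (-p z) : ℝ) : ℂ)) := fun j k l =>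
    integrable_test_mul hΩ ((hF j).mul (isTest_Zb (j := l) ha (hF k)).conj)
      ((hfr.smoothα j k l).mul hE) fun z => by ring
  have J : Integrable (fun z => ∑ j, ∑ k, (gam a α j k z * F j z * conj (F k z)
      * ((Real.exp (-p z) : ℝ) : ℂ) + ∑ l, (β j k l z * Zb a l (F j) z * conj (F k z)
      * ((Real.exp (-p z) : ℝ) : ℂ) - α j k l z * F j z * conj (Zb a l (F k) z)
      * ((Real.exp (-p z) : ℝ) : ℂ)))) :=
    integrable_finsetSum _ fun j _ => integrable_finsetSum _ fun k _ =>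
      (J2 j k).add (integrable_finsetSum _ fun l _ => (J3 j k l).sub (J4 j k l))
  refine J.re.congr (Filter.Eventually.of_forall fun z => ?_)
  simp only [RCLike.re_to_complex]
  rw [← Complex.re_mul_ofReal]
  congr 1
  simp only [Finset.sum_mul, add_mul, sub_mul]

omit [DecidableEq ι] in
/-- pointwise bound of the error terms (pure algebra). -/
theorem bkh_err_bound {M : ℝ} (hM : 0 ≤ M) (γ : ι → ι → ℂ) (α β : ι → ι → ι → ℂ) (f : ι → ℂ)
    (d : ι → ι → ℂ) (hγ : ∀ j k, ‖γ j k‖ ≤ M) (hα : ∀ j k l, ‖α j k l‖ ≤ M)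
    (hβ : ∀ j k l, ‖β j k l‖ ≤ M) :
    0 ≤ (∑ j, ∑ k, ‖d j k‖ ^ 2)
      + (∑ j, ∑ k, (γ j k * f j * conj (f k)
          + ∑ l, (β j k l * d l j * conj (f k) - α j k l * f j * conj (d l k)))).re
      + (M * (Fintype.card ι : ℝ) + M ^ 2 * (Fintype.card ι : ℝ) ^ 3) * ∑ j, ‖f j‖ ^ 2 := by
  rcases isEmpty_or_nonempty ι with hι | hι
  · simp
  set N : ℝ := (Fintype.card ι : ℝ) with hN
  have hN0 : 0 < N := by
    rw [hN]
    exact_mod_cast Fintype.card_pos
  set D2 : ℝ := ∑ j, ∑ k, ‖d j k‖ ^ 2 with hD2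
  set F2 : ℝ := ∑ j, ‖f j‖ ^ 2 with hF2
  set S : ℂ := ∑ j, ∑ k, (γ j k * f j * conj (f k)
          + ∑ l, (β j k l * d l j * conj (f k) - α j k l * f j * conj (d l k))) with hS
  have key : ∀ x y : ℝ, 0 ≤ x → 0 ≤ y → M * x * y ≤ (1 / (2 * N)) * x ^ 2 + (N * M ^ 2 / 2) * y ^ 2 := by
    intro x y _ _
    have h := sq_nonneg (x - N * M * y)
    have e : (1 / (2 * N)) * x ^ 2 + (N * M ^ 2 / 2) * y ^ 2 - M * x * y
        = (1 / (2 * N)) * (x - N * M * y) ^ 2 := by
      field_simp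
      ring
    have : 0 ≤ (1 / (2 * N)) * (x - N * M * y) ^ 2 := by positivity
    linarith
  have t1 : ∀ j k, ‖γ j k * f j * conj (f k)‖ ≤ (M / 2) * ‖f j‖ ^ 2 + (M / 2) * ‖f k‖ ^ 2 := by
    intro j k
    rw [norm_mul, norm_mul, RCLike.norm_conj]
    have h1 : ‖γ j k‖ * ‖f j‖ * ‖f k‖ ≤ M * ‖f j‖ * ‖f k‖ := by
      gcongr
      exact hγ j k
    have h2 := sq_nonneg (‖f j‖ - ‖f k‖)
    nlinarith
  have t2 : ∀ j k l, ‖β j k l * d l j * conj (f k)‖
      ≤ (1 / (2 * N)) * ‖d l j‖ ^ 2 + (N * M ^ 2 / 2) * ‖f k‖ ^ 2 := by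
    intro j k l
    rw [norm_mul, norm_mul, RCLike.norm_conj]
    refine le_trans ?_ (key _ _ (norm_nonneg _) (norm_nonneg _))
    gcongr
    exact hβ j k l
  have t3 : ∀ j k l, ‖α j k l * f j * conj (d l k)‖
      ≤ (1 / (2 * N)) * ‖d l k‖ ^ 2 + (N * M ^ 2 / 2) * ‖f j‖ ^ 2 := by
    intro j k l
    rw [norm_mul, norm_mul, RCLike.norm_conj]
    refine le_trans ?_ (key _ _ (norm_nonneg _) (norm_nonneg _))
    have : ‖α j k l‖ * ‖f j‖ * ‖d l k‖ ≤ M * ‖f j‖ * ‖d l k‖ := by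
      gcongr
      exact hα j k l
    linarith
  have s1 : ∑ j : ι, ∑ _k : ι, ‖f j‖ ^ 2 = N * F2 := by
    simp only [Finset.sum_const, Finset.card_univ, nsmul_eq_mul, ← Finset.mul_sum]
    rfl
  have s2 : ∑ _j : ι, ∑ k : ι, ‖f k‖ ^ 2 = N * F2 := by
    simp only [Finset.sum_const, Finset.card_univ, nsmul_eq_mul]
    rfl
  have s3 : ∑ j : ι, ∑ _k : ι, ∑ l : ι, ‖d l j‖ ^ 2 = N * D2 := by
    simp only [Finset.sum_const, Finset.card_univ, nsmul_eq_mul, ← Finset.mul_sum]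
    rw [Finset.sum_comm]
  have s4 : ∑ _j : ι, ∑ k : ι, ∑ _l : ι, ‖f k‖ ^ 2 = N * (N * F2) := by
    simp only [Finset.sum_const, Finset.card_univ, nsmul_eq_mul, ← Finset.mul_sum]
    rfl
  have s5 : ∑ _j : ι, ∑ k : ι, ∑ l : ι, ‖d l k‖ ^ 2 = N * D2 := by
    simp only [Finset.sum_const, Finset.card_univ, nsmul_eq_mul]
    rw [Finset.sum_comm]
  have s6 : ∑ j : ι, ∑ _k : ι, ∑ _l : ι, ‖f j‖ ^ 2 = N * (N * F2) := by
    simp only [Finset.sum_const, Finset.card_univ, nsmul_eq_mul, ← Finset.mul_sum]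
    rfl
  have hSn : ‖S‖ ≤ ∑ j, ∑ k, ((M / 2) * ‖f j‖ ^ 2 + (M / 2) * ‖f k‖ ^ 2
      + ∑ l, (((1 / (2 * N)) * ‖d l j‖ ^ 2 + (N * M ^ 2 / 2) * ‖f k‖ ^ 2)
        + ((1 / (2 * N)) * ‖d l k‖ ^ 2 + (N * M ^ 2 / 2) * ‖f j‖ ^ 2))) := by
    refine (norm_sum_le _ _).trans (Finset.sum_le_sum fun j _ => ?_)
    refine (norm_sum_le _ _).trans (Finset.sum_le_sum fun k _ => ?_)
    refine (norm_add_le _ _).trans (add_le_add (t1 j k) ?_)
    refine (norm_sum_le _ _).trans (Finset.sum_le_sum fun l _ => ?_)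
    exact (norm_sub_le _ _).trans (add_le_add (t2 j k l) (t3 j k l))
  simp only [Finset.sum_add_distrib, ← Finset.mul_sum] at hSn
  rw [s3, s4, s5, s6, s1, s2] at hSn
  have hre : -‖S‖ ≤ S.re := by
    have := Complex.abs_re_le_norm S
    exact neg_le_of_abs_le this
  have e : M / 2 * (N * F2) + M / 2 * (N * F2)
      + (1 / (2 * N) * (N * D2) + N * M ^ 2 / 2 * (N * (N * F2))
        + (1 / (2 * N) * (N * D2) + N * M ^ 2 / 2 * (N * (N * F2))))
      = D2 + (M * N + M ^ 2 * N ^ 3) * F2 := by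
    field_simp
    ring
  rw [e] at hSn
  linarith

/-- **BKH inequality**: the error constant depends only on the bound `M` (and on `card ι`). -/
theorem exists_bkhConst (ι : Type) [Fintype ι] [DecidableEq ι] (M : ℝ) :
    ∃ C : ℝ, 0 ≤ C ∧ ∀ (Ω : Set (CE ι)) (a : ι → ι → CE ι → ℂ) (α β : ι → ι → ι → CE ι → ℂ),
      IsOpen Ω → IsFrame Ω a α β → FrameBd Ω a α β M → BKHConst Ω a α C := by
  refine ⟨|M| * (Fintype.card ι : ℝ) + |M| ^ 2 * (Fintype.card ι : ℝ) ^ 3, by positivity, ?_⟩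
  intro Ω a α β hΩ hfr hbd p hp F hF
  set C : ℝ := |M| * (Fintype.card ι : ℝ) + |M| ^ 2 * (Fintype.card ι : ℝ) ^ 3 with hC
  have ha := hfr.smooth
  rw [bkhF_identity hfr hΩ hp hF]
  have ID := integrable_sum_Zb_sq ha hΩ hp hF
  have IQ := integrable_qf_leviF ha hΩ hfr.smoothα hp hp hF
  have IE := integrable_bkhErr hfr hΩ hp hF
  have IF : Integrable (fun z => (C * ∑ j, ‖F j z‖ ^ 2) * Real.exp (-p z)) := by
    have h : Integrable (fun z => C * ∑ j, ‖F j z‖ ^ 2 * Real.exp (-p z)) :=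
      (integrable_finsetSum _ fun j _ => B6E.integrable_normSq_test hΩ hp (hF j)).const_mul C
    refine h.congr (Filter.Eventually.of_forall fun z => ?_)
    simp only [Finset.sum_mul, Finset.mul_sum, mul_assoc]
  have e : ∀ z, (qf (leviF a α p z) (fun j => F j z) - C * ∑ j, ‖F j z‖ ^ 2) * Real.exp (-p z)
      = qf (leviF a α p z) (fun j => F j z) * Real.exp (-p z)
        - (C * ∑ j, ‖F j z‖ ^ 2) * Real.exp (-p z) := fun z => by ring
  simp only [e]
  rw [integral_sub IQ IF]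
  have hpos : 0 ≤ ∫ z, ((∑ j, ∑ k, ‖Zb a j (F k) z‖ ^ 2) * Real.exp (-p z)
      + (∑ j, ∑ k, (gam a α j k z * F j z * conj (F k z)
            + ∑ l, (β j k l z * Zb a l (F j) z * conj (F k z)
              - α j k l z * F j z * conj (Zb a l (F k) z)))).re * Real.exp (-p z)
      + (C * ∑ j, ‖F j z‖ ^ 2) * Real.exp (-p z)) := by
    refine integral_nonneg fun z => ?_
    show 0 ≤ _
    rw [← add_mul, ← add_mul]
    refine mul_nonneg ?_ (Real.exp_pos _).le
    by_cases hz : z ∈ Ω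
    · exact bkh_err_bound (abs_nonneg M) (fun j k => gam a α j k z) (fun j k l => α j k l z)
        (fun j k l => β j k l z) (fun j => F j z) (fun l j => Zb a l (F j) z)
        (fun j k => (hbd.γ_le z hz j k).trans (le_abs_self M))
        (fun j k l => (hbd.α_le z hz j k l).trans (le_abs_self M))
        (fun j k l => (hbd.β_le z hz j k l).trans (le_abs_self M))
    · have h0 : ∀ j, F j z = 0 := fun j => (hF j).eq_zero_of_notMem hz
      have h1 : ∀ l j, Zb a l (F j) z = 0 := fun l j =>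
        (isTest_Zb (j := l) ha (hF j)).eq_zero_of_notMem hz
      simp [h0, h1]
  have h1 := integral_add (ID.add IE) IF
  have h2 := integral_add ID IE
  simp only [Pi.add_apply] at h1
  rw [h1, h2] at hpos
  linarith

end Claimed.Agent.R316.B4

end SecBKH

/-!
# Row 316, B4-BasicEst: the basic estimate for test forms (three weights, frame version)

Port of `R316/B6E/BKH.lean`, section `SecBasicEst` (sorry-free: `curvature_le`, `basic_estimate`; reuse `norm_add_sq_le_eps`, `exists_compact_testForm`, `sq_integral_le_of_sq_le` from there).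
Weights `p₃ = p = φ + q`, `p₂ = p - ψ`, `p₁ = p - 2ψ`.  `E(z) v := qf (leviF a α φ z) v - C ∑ |v_j|²` replaces `qf (levi φ z) v`.  For a test form `F` on `Ω`:
1. pointwise `‖∑ g_j \bar F_j‖ e^{-p+ψ} ≤ √(H e^{-p+2ψ}) √(E(F) e^{-p})`  (`hdom`; note `hdom` with `H ≥ 0` … if `E(z) v < 0` then `hdom` forces `H z = 0` or is contradictory, so
   use `hpos`); Cauchy–Schwarz `sq_integral_le_of_sq_le`; `∫_Ω H e^{-p+2ψ} ≤ ∫_Ω H e^{-φ}` by `2ψ ≤ q`.
2. `leviF p = leviF φ + leviF q` on `Ω` (`leviF_add`), so `E(F) ≤ qf (leviF p) F - C|F|² - (1+1/ε) ‖∑ Z_jψ F_j‖²`.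
3. `hC : BKHConst Ω a α C` for the weight `p`.
4. `∑ δ^p_j F_j = - e^{ψ} T^*F - ∑ Z_jψ F_j` (`gradF_sub`), `‖x+y‖² ≤ (1+ε)‖x‖² + (1+1/ε)‖y‖²`.
-/

section SecBasicEst
open scoped ContDiff ComplexOrder ComplexConjugate Topology
open MeasureTheory
open Claimed.Agent.R316.B6E (IsTest IsTestForm cx L2w)

namespace Claimed.Agent.R316.B4

variable {ι : Type} [Fintype ι] [DecidableEq ι]

theorem dlF_eq_zero_of_notMem {Ω : Set (CE ι)} {a : ι → ι → CE ι → ℂ} {w : CE ι → ℂ}
    (hw : IsTest Ω w) (p : CE ι → ℝ) (j : ι) {z : CE ι} (hz : z ∉ Ω) : dlF a p j w z = 0 := by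
  unfold dlF
  rw [hw.eq_zero_of_notMem hz, Zf_eq_zero_of_notMem_tsupport fun h => hz (hw.supp h)]
  simp

theorem integrable_curvF {Ω : Set (CE ι)} (hΩ : IsOpen Ω) {a : ι → ι → CE ι → ℂ}
    {α : ι → ι → ι → CE ι → ℂ} (ha : ∀ j k, ContDiff ℝ ∞ (a j k))
    (hα : ∀ j k l, ContDiffOn ℝ ∞ (α j k l) Ω) (C : ℝ) {p q : CE ι → ℝ}
    (hp : ContDiffOn ℝ ∞ p Ω) (hq : ContDiffOn ℝ ∞ q Ω) {F : ι → CE ι → ℂ}
    (hF : IsTestForm Ω F) :
    Integrable (fun z => (qf (leviF a α p z) (fun j => F j z) - C * ∑ j, ‖F j z‖ ^ 2)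
      * Real.exp (-q z)) := by
  have IQ := integrable_qf_leviF ha hΩ hα hp hq hF
  have IF : Integrable (fun z => C * ∑ j, ‖F j z‖ ^ 2 * Real.exp (-q z)) :=
    (integrable_finsetSum _ fun j _ => B6E.integrable_normSq_test hΩ hq (hF j)).const_mul C
  refine (IQ.sub IF).congr (Filter.Eventually.of_forall fun z => ?_)
  simp only [Pi.sub_apply, sub_mul, Finset.sum_mul, Finset.mul_sum, mul_assoc]

/-- steps 2–4: the curvature term is controlled. -/
theorem curvatureF_le {Ω : Set (CE ι)} (hΩ : IsOpen Ω) {a : ι → ι → CE ι → ℂ}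
    {α : ι → ι → ι → CE ι → ℂ} (ha : ∀ j k, ContDiff ℝ ∞ (a j k))
    (hα : ∀ j k l, ContDiffOn ℝ ∞ (α j k l) Ω) {C : ℝ} (hC : BKHConst Ω a α C)
    {φ q ψ : CE ι → ℝ}
    (hφ : ContDiffOn ℝ ∞ φ Ω) (hq : ContDiffOn ℝ ∞ q Ω) (hψ : ContDiffOn ℝ ∞ ψ Ω)
    {ε : ℝ} (hε : 0 < ε)
    (hqψ : ∀ z ∈ Ω, ∀ v : ι → ℂ,
      (1 + 1 / ε) * ‖∑ j, gradF a ψ z j * v j‖ ^ 2 ≤ qf (leviF a α q z) v)
    {F : ι → CE ι → ℂ} (hF : IsTestForm Ω F) :
    (∫ z, (qf (leviF a α φ z) (fun j => F j z) - C * ∑ j, ‖F j z‖ ^ 2) * Real.exp (-(φ z + q z)))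
      ≤ (1 + ε) * (∫ z, ‖TstF a (fun y => φ y + q y) ψ F z‖ ^ 2
            * Real.exp (-(φ z + q z - 2 * ψ z)))
        + (∫ z, curlSqF a F z * Real.exp (-(φ z + q z))) := by
  set p : CE ι → ℝ := fun y => φ y + q y with hpdef
  have hp : ContDiffOn ℝ ∞ p Ω := hφ.add hq
  have hbkh := hC p hp F hF
  have hGt : IsTest Ω (fun z => ∑ j, gradF a ψ z j * F j z) := by
    refine IsTest.sum _ fun j _ => ?_
    have := (hF j).mul_contDiffOn hΩ (contDiffOn_gradF (j := j) ha hΩ hψ)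
    simpa only [mul_comm] using this
  have iB : Integrable (fun z => ‖∑ j, gradF a ψ z j * F j z‖ ^ 2 * Real.exp (-p z)) :=
    B6E.integrable_normSq_test hΩ hp hGt
  have iQφ := integrable_curvF hΩ ha hα C hφ hp hF
  have iQp := integrable_curvF hΩ ha hα C hp hp hF
  have iD := integrable_divF_sq ha hΩ hp hp hF
  have iT : Integrable (fun z => ‖TstF a p ψ F z‖ ^ 2 * Real.exp (-(p z - 2 * ψ z))) :=
    B6E.integrable_normSq_test hΩ (hp.sub (contDiffOn_const.mul hψ)) (isTest_TstF ha hΩ hp hψ hF)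
  -- (P1)
  have P1 : (∫ z, (qf (leviF a α φ z) (fun j => F j z) - C * ∑ j, ‖F j z‖ ^ 2) * Real.exp (-p z))
      + (1 + 1 / ε) * (∫ z, ‖∑ j, gradF a ψ z j * F j z‖ ^ 2 * Real.exp (-p z))
      ≤ ∫ z, (qf (leviF a α p z) (fun j => F j z) - C * ∑ j, ‖F j z‖ ^ 2) * Real.exp (-p z) := by
    rw [← integral_const_mul, ← integral_add iQφ (iB.const_mul _)]
    refine integral_mono (iQφ.add (iB.const_mul _)) iQp fun z => ?_
    by_cases hz : z ∈ Ω
    · have h2 : ∀ {f : CE ι → ℝ}, ContDiffOn ℝ ∞ f Ω → ContDiffAt ℝ 2 f z := fun hf =>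
        (hf.contDiffAt (hΩ.mem_nhds hz)).of_le (by norm_cast)
      have hl : leviF a α p z = leviF a α φ z + leviF a α q z := leviF_add ha (h2 hφ) (h2 hq)
      have := hqψ z hz (fun j => F j z)
      have he := (Real.exp_pos (-p z)).le
      simp only [hl, B6E.qf_add]
      nlinarith
    · have h0 : (fun j => F j z) = fun _ => 0 := funext fun j => (hF j).eq_zero_of_notMem hz
      simp [B6E.qf_zero_vec, (hF _).eq_zero_of_notMem hz]
  -- (P2)
  have P2 : (∫ z, ‖∑ j, dlF a p j (F j) z‖ ^ 2 * Real.exp (-p z))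
      ≤ (1 + ε) * (∫ z, ‖TstF a p ψ F z‖ ^ 2 * Real.exp (-(p z - 2 * ψ z)))
        + (1 + 1 / ε) * (∫ z, ‖∑ j, gradF a ψ z j * F j z‖ ^ 2 * Real.exp (-p z)) := by
    rw [← integral_const_mul, ← integral_const_mul, ← integral_add (iT.const_mul _) (iB.const_mul _)]
    refine integral_mono iD ((iT.const_mul _).add (iB.const_mul _)) fun z => ?_
    by_cases hz : z ∈ Ω
    · have hd : ∀ {f : CE ι → ℝ}, ContDiffOn ℝ ∞ f Ω → DifferentiableAt ℝ f z := fun hf =>
        (hf.contDiffAt (hΩ.mem_nhds hz)).differentiableAt (by simp)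
      have hg : gradF a (fun y => p y - ψ y) z = gradF a p z - gradF a ψ z :=
        gradF_sub (hd hp) (hd hψ)
      have hsum : ∑ j, dlF a p j (F j) z
          = - ((Real.exp (ψ z) : ℝ) : ℂ) * TstF a p ψ F z + - ∑ j, gradF a ψ z j * F j z := by
        unfold TstF dlF
        rw [hg]
        have he : ((Real.exp (ψ z) : ℝ) : ℂ) * ((Real.exp (-ψ z) : ℝ) : ℂ) = 1 := by
          rw [← Complex.ofReal_mul, ← Real.exp_add]; simp
        have : - ((Real.exp (ψ z) : ℝ) : ℂ) * (- ((Real.exp (-ψ z) : ℝ) : ℂ) *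
            ∑ j, (Zf a j (F j) z - (gradF a p z - gradF a ψ z) j * F j z + sg a j z * F j z))
            = ∑ j, (Zf a j (F j) z - (gradF a p z - gradF a ψ z) j * F j z
              + sg a j z * F j z) := by
          rw [neg_mul, neg_mul, mul_neg, neg_neg, ← mul_assoc, he, one_mul]
        rw [this, ← Finset.sum_neg_distrib, ← Finset.sum_add_distrib]
        refine Finset.sum_congr rfl fun j _ => ?_
        simp only [Pi.sub_apply]; ring
      have h1 := B6E.norm_add_sq_le_eps hε (- ((Real.exp (ψ z) : ℝ) : ℂ) * TstF a p ψ F z)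
        (- ∑ j, gradF a ψ z j * F j z)
      rw [← hsum, norm_neg, norm_mul, norm_neg, Complex.norm_real, Real.norm_eq_abs,
        abs_of_pos (Real.exp_pos _)] at h1
      have he2 : Real.exp (-(p z - 2 * ψ z)) = Real.exp (ψ z) ^ 2 * Real.exp (-p z) := by
        rw [← Real.exp_nat_mul, ← Real.exp_add]; congr 1; push_cast; ring
      have he := (Real.exp_pos (-p z)).le
      simp only [he2]
      calc ‖∑ j, dlF a p j (F j) z‖ ^ 2 * Real.exp (-p z)
          ≤ ((1 + ε) * (Real.exp (ψ z) * ‖TstF a p ψ F z‖) ^ 2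
            + (1 + 1 / ε) * ‖∑ j, gradF a ψ z j * F j z‖ ^ 2) * Real.exp (-p z) := by gcongr
        _ = _ := by ring
    · have h0 : ∑ j, dlF a p j (F j) z = 0 :=
        Finset.sum_eq_zero fun j _ => dlF_eq_zero_of_notMem (hF j) p j hz
      have h1 : (0:ℝ) < 1 + 1 / ε := by positivity
      have h2 : (0:ℝ) < 1 + ε := by positivity
      show ‖∑ j, dlF a p j (F j) z‖ ^ 2 * Real.exp (-p z)
        ≤ (1 + ε) * (‖TstF a p ψ F z‖ ^ 2 * Real.exp (-(p z - 2 * ψ z)))
          + (1 + 1 / ε) * (‖∑ j, gradF a ψ z j * F j z‖ ^ 2 * Real.exp (-p z))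
      rw [h0, norm_zero, zero_pow two_ne_zero, zero_mul]
      positivity
  linarith


/-- **basic estimate**. -/
theorem basic_estimateF {Ω : Set (CE ι)} (hΩ : IsOpen Ω) {a : ι → ι → CE ι → ℂ}
    {α : ι → ι → ι → CE ι → ℂ} (ha : ∀ j k, ContDiff ℝ ∞ (a j k))
    (hα : ∀ j k l, ContDiffOn ℝ ∞ (α j k l) Ω) {C : ℝ} (hC : BKHConst Ω a α C)
    {φ q ψ : CE ι → ℝ}
    (hφ : ContDiffOn ℝ ∞ φ Ω) (hq : ContDiffOn ℝ ∞ q Ω) (hψ : ContDiffOn ℝ ∞ ψ Ω)
    {ε : ℝ} (hε : 0 < ε)
    (hqψ : ∀ z ∈ Ω, ∀ v : ι → ℂ,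
      (1 + 1 / ε) * ‖∑ j, gradF a ψ z j * v j‖ ^ 2 ≤ qf (leviF a α q z) v)
    (h2 : ∀ z ∈ Ω, 2 * ψ z ≤ q z)
    (hpos : ∀ z ∈ Ω, ∀ v : ι → ℂ, 0 ≤ qf (leviF a α φ z) v - C * ∑ j, ‖v j‖ ^ 2)
    {g : ι → CE ι → ℂ} (hg : ∀ j, ContinuousOn (g j) Ω)
    {H : CE ι → ℝ} (hH0 : ∀ z ∈ Ω, 0 ≤ H z)
    (hHint : IntegrableOn (fun z => H z * Real.exp (-φ z)) Ω)
    (hdom : ∀ z ∈ Ω, ∀ v : ι → ℂ,
      ‖∑ j, g j z * conj (v j)‖ ^ 2 ≤ H z * (qf (leviF a α φ z) v - C * ∑ j, ‖v j‖ ^ 2))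
    {F : ι → CE ι → ℂ} (hF : IsTestForm Ω F) :
    ‖∫ z, (∑ j, g j z * conj (F j z)) * ((Real.exp (-(φ z + q z - ψ z)) : ℝ) : ℂ)‖ ^ 2
      ≤ (∫ z in Ω, H z * Real.exp (-φ z)) *
        ((1 + ε) * (∫ z, ‖TstF a (fun y => φ y + q y) ψ F z‖ ^ 2
              * Real.exp (-(φ z + q z - 2 * ψ z)))
          + (∫ z, curlSqF a F z * Real.exp (-(φ z + q z)))) := by
  have hcurv := curvatureF_le hΩ ha hα hC hφ hq hψ hε hqψ hF
  have hI0 : 0 ≤ ∫ z in Ω, H z * Real.exp (-φ z) :=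
    setIntegral_nonneg hΩ.measurableSet fun z hz => mul_nonneg (hH0 z hz) (Real.exp_pos _).le
  refine le_trans ?_ (mul_le_mul_of_nonneg_left hcurv hI0)
  obtain ⟨K, hK, hKΩ, -, hK0⟩ := B6E.exists_compact_testForm hF
  set G : CE ι → ℂ := fun z => (∑ j, g j z * conj (F j z))
    * ((Real.exp (-(φ z + q z - ψ z)) : ℝ) : ℂ) with hGdef
  have hGc : ContinuousOn G Ω := by
    refine ContinuousOn.mul (continuousOn_finsetSum _ fun j _ =>
      (hg j).mul (hF j).conj.continuous.continuousOn) ?_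
    exact (B6E.contDiffOn_cx_exp ((hφ.add hq).sub hψ).neg).continuousOn
  have hG0 : ∀ z, z ∉ K → G z = 0 := fun z hz => by
    simp [hGdef, hK0 z hz]
  have hGi : Integrable G := B6E.integrable_of_continuousOn_of_compact hΩ hK hKΩ hGc hG0
  have iQ := integrable_curvF hΩ ha hα C hφ (hφ.add hq) hF
  have hQset : ∫ z, (qf (leviF a α φ z) (fun j => F j z) - C * ∑ j, ‖F j z‖ ^ 2)
        * Real.exp (-(φ z + q z))
      = ∫ z in Ω, (qf (leviF a α φ z) (fun j => F j z) - C * ∑ j, ‖F j z‖ ^ 2)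
        * Real.exp (-(φ z + q z)) := by
    refine (setIntegral_eq_integral_of_forall_compl_eq_zero fun z hz => ?_).symm
    have h0 : (fun j => F j z) = fun _ => 0 := funext fun j => (hF j).eq_zero_of_notMem hz
    rw [h0, B6E.qf_zero_vec]
    simp [(hF _).eq_zero_of_notMem hz]
  have hGset : ∫ z, ‖G z‖ = ∫ z in Ω, ‖G z‖ := by
    refine (setIntegral_eq_integral_of_forall_compl_eq_zero fun z hz => ?_).symm
    rw [hG0 z fun h => hz (hKΩ h), norm_zero]
  have h1 : ‖∫ z, G z‖ ^ 2 ≤ (∫ z, ‖G z‖) ^ 2 := by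
    gcongr; exact norm_integral_le_integral_norm G
  refine h1.trans ?_
  rw [hGset, hQset]
  refine B6E.sq_integral_le_of_sq_le hGi.norm.integrableOn hHint iQ.integrableOn ?_ ?_ ?_
  · exact (ae_restrict_iff' hΩ.measurableSet).2 (Filter.Eventually.of_forall fun z hz =>
      mul_nonneg (hH0 z hz) (Real.exp_pos _).le)
  · exact (ae_restrict_iff' hΩ.measurableSet).2 (Filter.Eventually.of_forall fun z hz =>
      mul_nonneg (hpos z hz _) (Real.exp_pos _).le)
  · refine (ae_restrict_iff' hΩ.measurableSet).2 (Filter.Eventually.of_forall fun z hz => ?_)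
    have hd := hdom z hz (fun j => F j z)
    have hq0 := hpos z hz (fun j => F j z)
    set Q : ℝ := qf (leviF a α φ z) (fun j => F j z) - C * ∑ j, ‖F j z‖ ^ 2 with hQ
    have hn : ‖G z‖ ^ 2 = ‖∑ j, g j z * conj (F j z)‖ ^ 2 * Real.exp (-(φ z + q z - ψ z)) ^ 2 := by
      rw [hGdef]
      simp only [norm_mul, Complex.norm_real, Real.norm_eq_abs, abs_of_pos (Real.exp_pos _), mul_pow]
    have he : Real.exp (-(φ z + q z - ψ z)) ^ 2
        = Real.exp (-φ z) * Real.exp (-(φ z + q z)) * Real.exp (-(q z - 2 * ψ z)) := by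
      rw [← Real.exp_nat_mul, ← Real.exp_add, ← Real.exp_add]; congr 1; push_cast; ring
    have he1 : Real.exp (-(q z - 2 * ψ z)) ≤ 1 := by
      rw [Real.exp_le_one_iff]; linarith [h2 z hz]
    rw [hn, he]
    have hpos' : 0 ≤ H z * Q * (Real.exp (-φ z) * Real.exp (-(φ z + q z))) := by
      have := hH0 z hz
      positivity
    calc ‖∑ j, g j z * conj (F j z)‖ ^ 2
          * (Real.exp (-φ z) * Real.exp (-(φ z + q z)) * Real.exp (-(q z - 2 * ψ z)))
        ≤ (H z * Q)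
          * (Real.exp (-φ z) * Real.exp (-(φ z + q z)) * Real.exp (-(q z - 2 * ψ z))) := by
          gcongr
      _ = (H z * Q * (Real.exp (-φ z)
            * Real.exp (-(φ z + q z)))) * Real.exp (-(q z - 2 * ψ z)) := by ring
      _ ≤ (H z * Q * (Real.exp (-φ z)
            * Real.exp (-(φ z + q z)))) * 1 := by gcongr
      _ = _ := by ring

end Claimed.Agent.R316.B4

end SecBasicEst
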