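import Claimed.Agent.R316.B4.Frame
import Claimed.Agent.R316.Pack014_2

set_option autoImplicit false

/-!
# Row 316, B4-FrameB: the frame operators on test functions, integration by parts, weak identities for smooth data

Port of `R316/B6E/Wirt.lean`, section `SecWirtB` (sorry-free; copy its proofs and replace `dzb j` by `Zb a j`, `dl` by `dlF`, `Tst` by `TstF`).
* `Zb a j w = dzb j w + ∑ a_{jk} dz k w` is a test function (`IsTest.dzb`, `IsTest.dz`, `IsTest.mul_contDiffOn`, `IsTest.sum`).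
* `integral_Zb_mul`: `∫ (a_{jk} ∂_k u) w = - ∫ u ∂_k (a_{jk} w) = - ∫ u (a_{jk} ∂_k w + (∂_k a_{jk}) w)` (`integral_dz_mul`), and `∑_k ∂_k a_{jk} = \bar σ_j` (`dz_conj`).
* `integral_dlF_mul_conj`: apply `integral_Zf_mul` with `w = \bar b e^{-p}`; `Z̄_j(\bar b e^{-p}) = (\overline{Z_j b} - \bar b \overline{Z_j p}) e^{-p}`
  (`Zb_mul`, `Zb_conj`, `Zb_exp_neg`).
* `TstF_of_dual`: `δ_j^{(p₂)}(\bar Φ_j e^{p₂}) = (\overline{Z̄_j Φ_j} + σ_j \bar Φ_j) e^{p₂} = - \overline{Z̄_j^t Φ_j} e^{p₂}`.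
-/

section SecFrameB
open scoped ContDiff ComplexOrder ComplexConjugate Topology
open MeasureTheory
open Claimed.Agent.R316.B6E (IsTest IsTestForm cx L2w)

namespace Claimed.Agent.R316.B4

variable {ι : Type} [Fintype ι] [DecidableEq ι]
variable {a : ι → ι → CE ι → ℂ} {j k : ι} {Ω : Set (CE ι)} {w : CE ι → ℂ}

omit [DecidableEq ι] in
theorem IsTest.contDiff_mul {c : CE ι → ℂ} (hc : ContDiff ℝ ∞ c) (hw : IsTest Ω w) :
    IsTest Ω (fun z => c z * w z) :=
  ⟨hc.mul hw.smooth, hw.compact.mul_left,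
    (tsupport_mul_subset_right (f := c) (g := w)).trans hw.supp⟩

theorem isTest_Zb (ha : ∀ j k, ContDiff ℝ ∞ (a j k)) (hw : IsTest Ω w) : IsTest Ω (Zb a j w) :=
  ⟨contDiff_Zb ha hw.smooth, hw.compact.of_isClosed_subset (isClosed_tsupport _) tsupport_Zb_subset,
    tsupport_Zb_subset.trans hw.supp⟩

theorem isTest_Zf (ha : ∀ j k, ContDiff ℝ ∞ (a j k)) (hw : IsTest Ω w) : IsTest Ω (Zf a j w) :=
  ⟨contDiff_Zf ha hw.smooth, hw.compact.of_isClosed_subset (isClosed_tsupport _) tsupport_Zf_subset,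
    tsupport_Zf_subset.trans hw.supp⟩

theorem isTest_Zbt (ha : ∀ j k, ContDiff ℝ ∞ (a j k)) (hw : IsTest Ω w) : IsTest Ω (Zbt a j w) :=
  ((isTest_Zb ha hw).add
    (IsTest.contDiff_mul (Complex.conjCLE.contDiff.comp (contDiff_sg ha)) hw)).neg

theorem isTest_Zft (ha : ∀ j k, ContDiff ℝ ∞ (a j k)) (hw : IsTest Ω w) : IsTest Ω (Zft a j w) :=
  ((isTest_Zf ha hw).add (IsTest.contDiff_mul (contDiff_sg ha) hw)).neg

theorem isTest_dlF (ha : ∀ j k, ContDiff ℝ ∞ (a j k)) (hΩ : IsOpen Ω) {p : CE ι → ℝ}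
    (hp : ContDiffOn ℝ ∞ p Ω) (hw : IsTest Ω w) (j : ι) : IsTest Ω (dlF a p j w) := by
  have : dlF a p j w = fun z => Zf a j w z - w z * gradF a p z j + sg a j z * w z := by
    funext z; unfold dlF; ring
  rw [this]
  exact ((isTest_Zf ha hw).sub (hw.mul_contDiffOn hΩ (contDiffOn_gradF ha hΩ hp))).add
    (IsTest.contDiff_mul (contDiff_sg ha) hw)

theorem isTest_TstF (ha : ∀ j k, ContDiff ℝ ∞ (a j k)) (hΩ : IsOpen Ω) {p ψ : CE ι → ℝ}
    (hp : ContDiffOn ℝ ∞ p Ω) (hψ : ContDiffOn ℝ ∞ ψ Ω) {F : ι → CE ι → ℂ} (hF : IsTestForm Ω F) :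
    IsTest Ω (TstF a p ψ F) := by
  have : TstF a p ψ F = fun z => (∑ j, dlF a (fun y => p y - ψ y) j (F j) z)
      * (- ((Real.exp (-ψ z) : ℝ) : ℂ)) := by
    funext z; unfold TstF; ring
  rw [this]
  exact (IsTest.sum Finset.univ fun j _ => isTest_dlF ha hΩ (hp.sub hψ) (hF j) j).mul_contDiffOn hΩ
    (B6E.contDiffOn_cx_exp hψ.neg).neg

theorem conj_sg (z : CE ι) : conj (sg a j z) = ∑ k, dz k (a j k) z := by
  unfold sg
  rw [map_sum]
  refine Finset.sum_congr rfl fun k _ => ?_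
  rw [dzb_conj, Complex.conj_conj]

/-- `∫ (Z̄_j u) w = ∫ u (Z̄_j^t w)`. -/
theorem integral_Zb_mul (ha : ∀ j k, ContDiff ℝ ∞ (a j k)) (hΩ : IsOpen Ω) (hw : IsTest Ω w)
    {u : CE ι → ℂ} (hu : ContDiffOn ℝ ∞ u Ω) :
    ∫ z, Zb a j u z * w z = ∫ z, u z * Zbt a j w z := by
  have hT : ∀ k, IsTest Ω (fun y => a j k y * w y) := fun k => IsTest.contDiff_mul (ha j k) hw
  have h0 := B6E.integral_dzb_mul (j := j) hΩ hw hu
  have hk : ∀ k, ∫ z, dz k (fun y => a j k y * w y) z * u z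
      = - ∫ z, (a j k z * w z) * dz k u z := fun k => B6E.integral_dz_mul (j := k) hΩ (hT k) hu
  have I0 : Integrable (fun z => w z * dzb j u z) :=
    (hw.mul_contDiffOn hΩ (contDiffOn_dzb hΩ hu)).integrable
  have Ik : ∀ k, Integrable (fun z => (a j k z * w z) * dz k u z) := fun k =>
    ((hT k).mul_contDiffOn hΩ (contDiffOn_dz hΩ hu)).integrable
  have J0 : Integrable (fun z => dzb j w z * u z) :=
    ((hw.dzb (j := j)).mul_contDiffOn hΩ hu).integrable
  have Jk : ∀ k, Integrable (fun z => dz k (fun y => a j k y * w y) z * u z) := fun k =>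
    (((hT k).dz (j := k)).mul_contDiffOn hΩ hu).integrable
  have L : ∀ z, Zb a j u z * w z = w z * dzb j u z + ∑ k, (a j k z * w z) * dz k u z := by
    intro z
    unfold Zb
    rw [add_mul, Finset.sum_mul]
    congr 1
    · ring
    · exact Finset.sum_congr rfl fun k _ => by ring
  have R : ∀ z, u z * Zbt a j w z
      = - (dzb j w z * u z + ∑ k, dz k (fun y => a j k y * w y) z * u z) := by
    intro z
    have hd : ∀ k, dz k (fun y => a j k y * w y) z
        = dz k (a j k) z * w z + a j k z * dz k w z := fun k =>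
      dz_mul ((ha j k).differentiable (by simp) z) (hw.differentiable z)
    unfold Zbt Zb
    rw [conj_sg]
    simp only [hd, add_mul, Finset.sum_add_distrib, Finset.sum_mul]
    have e1 : ∀ k, a j k z * dz k w z * u z = u z * (a j k z * dz k w z) := fun k => by ring
    have e2 : ∀ k, dz k (a j k) z * w z * u z = u z * (dz k (a j k) z * w z) := fun k => by ring
    simp only [e1, e2, ← Finset.mul_sum]
    ring
  simp only [L, R]
  rw [integral_add I0 (integrable_finsetSum _ fun k _ => Ik k), integral_finsetSum _ fun k _ => Ik k,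
    integral_neg, integral_add J0 (integrable_finsetSum _ fun k _ => Jk k),
    integral_finsetSum _ fun k _ => Jk k, h0]
  simp only [hk, Finset.sum_neg_distrib]
  ring

theorem conj_Zbt_conj (z : CE ι) : conj (Zbt a j (fun y => conj (w y)) z) = Zft a j w z := by
  unfold Zbt Zft
  rw [Zb_conj]
  simp only [map_neg, map_add, map_mul, Complex.conj_conj]

theorem integral_Zf_mul (ha : ∀ j k, ContDiff ℝ ∞ (a j k)) (hΩ : IsOpen Ω) (hw : IsTest Ω w)
    {u : CE ι → ℂ} (hu : ContDiffOn ℝ ∞ u Ω) :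
    ∫ z, Zf a j u z * w z = ∫ z, u z * Zft a j w z := by
  have h := integral_Zb_mul (j := j) ha hΩ hw.conj (Complex.conjCLE.contDiff.comp_contDiffOn hu)
  have h' := congrArg conj h
  rw [← integral_conj, ← integral_conj] at h'
  have e1 : ∀ z, conj (Zb a j (⇑Complex.conjCLE ∘ u) z * conj (w z)) = Zf a j u z * w z := by
    intro z
    have : Zb a j (⇑Complex.conjCLE ∘ u) z = conj (Zf a j u z) := Zb_conj
    rw [this]
    simp only [map_mul, Complex.conj_conj]
  have e2 : ∀ z, conj ((⇑Complex.conjCLE ∘ u) z * Zbt a j (fun y => conj (w y)) z)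
      = u z * Zft a j w z := by
    intro z
    rw [map_mul, conj_Zbt_conj]
    simp
  simp only [e1, e2] at h'
  exact h'

theorem Zf_exp_pos {p : CE ι → ℝ} {z : CE ι} (hp : DifferentiableAt ℝ p z) :
    Zf a j (fun y => ((Real.exp (p y) : ℝ) : ℂ)) z
      = ((Real.exp (p z) : ℝ) : ℂ) * gradF a p z j := by
  have h := congrFun (gradF_comp_real (a := a) Real.exp p (z := z)
    Real.differentiableAt_exp hp) j
  rw [Real.deriv_exp] at h
  exact h

/-- the same with a merely smooth second factor. -/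
theorem integral_dlF_mul_conj' (ha : ∀ j k, ContDiff ℝ ∞ (a j k)) (hΩ : IsOpen Ω) {p : CE ι → ℝ}
    (hp : ContDiffOn ℝ ∞ p Ω) {A B : CE ι → ℂ} (hA : IsTest Ω A) (hB : ContDiffOn ℝ ∞ B Ω) :
    ∫ z, dlF a p j A z * conj (B z) * ((Real.exp (-p z) : ℝ) : ℂ)
      = - ∫ z, A z * conj (Zb a j B z) * ((Real.exp (-p z) : ℝ) : ℂ) := by
  have hE : ContDiffOn ℝ ∞ (fun z => ((Real.exp (-p z) : ℝ) : ℂ)) Ω :=
    B6E.contDiffOn_cx_exp hp.neg
  have hBc : ContDiffOn ℝ ∞ (fun z => conj (B z)) Ω := Complex.conjCLE.contDiff.comp_contDiffOn hB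
  have hBE : ContDiffOn ℝ ∞ (fun z => conj (B z) * ((Real.exp (-p z) : ℝ) : ℂ)) Ω := hBc.mul hE
  have h1 := integral_Zf_mul (j := j) ha hΩ hA hBE
  have hZB : ContDiffOn ℝ ∞ (fun z => conj (Zb a j B z)) Ω :=
    Complex.conjCLE.contDiff.comp_contDiffOn (contDiffOn_Zb ha hΩ hB)
  have hT2 : Integrable (fun z => A z * (conj (Zb a j B z) * ((Real.exp (-p z) : ℝ) : ℂ))) :=
    (hA.mul_contDiffOn hΩ (hZB.mul hE)).integrable
  have hT3 : Integrable (fun z => A z * (conj (B z) * ((Real.exp (-p z) : ℝ) : ℂ)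
      * gradF a p z j)) :=
    (hA.mul_contDiffOn hΩ (hBE.mul (contDiffOn_gradF ha hΩ hp))).integrable
  have h2 : ∀ z, Zf a j (fun y => conj (B y) * ((Real.exp (-p y) : ℝ) : ℂ)) z * A z
      = A z * (conj (Zb a j B z) * ((Real.exp (-p z) : ℝ) : ℂ))
        - A z * (conj (B z) * ((Real.exp (-p z) : ℝ) : ℂ) * gradF a p z j) := by
    intro z
    by_cases hz : z ∈ Ω
    · have hpz : DifferentiableAt ℝ p z :=
        (hp.contDiffAt (hΩ.mem_nhds hz)).differentiableAt (by simp)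
      rw [Zf_mul ((hBc.contDiffAt (hΩ.mem_nhds hz)).differentiableAt (by simp))
        ((hE.contDiffAt (hΩ.mem_nhds hz)).differentiableAt (by simp)), Zf_conj, Zf_exp_neg hpz]
      ring
    · rw [hA.eq_zero_of_notMem hz]; simp
  simp only [h2] at h1
  rw [integral_sub hT2 hT3] at h1
  have h3 : ∀ z, dlF a p j A z * conj (B z) * ((Real.exp (-p z) : ℝ) : ℂ)
      = - (conj (B z) * ((Real.exp (-p z) : ℝ) : ℂ) * Zft a j A z)
        - A z * (conj (B z) * ((Real.exp (-p z) : ℝ) : ℂ) * gradF a p z j) := by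
    intro z; unfold dlF Zft; ring
  have hT1 : Integrable (fun z => conj (B z) * ((Real.exp (-p z) : ℝ) : ℂ) * Zft a j A z) := by
    have := ((isTest_Zft (j := j) ha hA).mul_contDiffOn hΩ hBE).integrable
    simpa only [mul_comm] using this
  have hT1n : Integrable
      (fun z => - (conj (B z) * ((Real.exp (-p z) : ℝ) : ℂ) * Zft a j A z)) := hT1.neg
  simp only [h3]
  rw [integral_sub hT1n hT3, integral_neg, ← h1]
  have h4 : ∀ z, A z * conj (Zb a j B z) * ((Real.exp (-p z) : ℝ) : ℂ)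
      = A z * (conj (Zb a j B z) * ((Real.exp (-p z) : ℝ) : ℂ)) := fun z => by ring
  simp only [h4]
  ring

/-- `∫ δ_j A \bar B e^{-p} = - ∫ A \overline{Z̄_j B} e^{-p}`. -/
theorem integral_dlF_mul_conj (ha : ∀ j k, ContDiff ℝ ∞ (a j k)) (hΩ : IsOpen Ω) {p : CE ι → ℝ}
    (hp : ContDiffOn ℝ ∞ p Ω) {A B : CE ι → ℂ} (hA : IsTest Ω A) (hB : IsTest Ω B) :
    ∫ z, dlF a p j A z * conj (B z) * ((Real.exp (-p z) : ℝ) : ℂ)
      = - ∫ z, A z * conj (Zb a j B z) * ((Real.exp (-p z) : ℝ) : ℂ) :=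
  integral_dlF_mul_conj' ha hΩ hp hA hB.smooth.contDiffOn

theorem weakZb_of_Zb (ha : ∀ j k, ContDiff ℝ ∞ (a j k)) (hΩ : IsOpen Ω) {u : CE ι → ℂ}
    (hu : ContDiffOn ℝ ∞ u Ω) : WeakZb Ω a u (fun j => Zb a j u) :=
  fun _ hw _ => (integral_Zb_mul ha hΩ hw hu).symm

theorem weakClosedF_of_closed (ha : ∀ j k, ContDiff ℝ ∞ (a j k)) (hΩ : IsOpen Ω)
    {g : ι → CE ι → ℂ} (hg : ∀ j, ContDiffOn ℝ ∞ (g j) Ω)
    (h : ∀ z ∈ Ω, ∀ j k, Zb a j (g k) z = Zb a k (g j) z) : WeakClosedF Ω a g := by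
  intro w hw j k
  have I : ∀ j k, Integrable (fun z => g k z * Zbt a j w z) := fun j k => by
    have := ((isTest_Zbt (j := j) ha hw).mul_contDiffOn hΩ (hg k)).integrable
    simpa only [mul_comm] using this
  rw [integral_sub (I j k) (I k j), ← integral_Zb_mul ha hΩ hw (hg k),
    ← integral_Zb_mul ha hΩ hw (hg j)]
  have h3 : ∀ z, Zb a j (g k) z * w z = Zb a k (g j) z * w z := by
    intro z
    by_cases hz : z ∈ Ω
    · rw [h z hz j k]
    · rw [hw.eq_zero_of_notMem hz]; simp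
  simp only [h3]
  ring

/-- `S T = 0`: `T` of a test function is weakly closed (uses that the frame commutes on `Ω`). -/
theorem weakClosedF_Zb {α β : ι → ι → ι → CE ι → ℂ} (hfr : IsFrame Ω a α β) (hΩ : IsOpen Ω)
    (hw : IsTest Ω w) : WeakClosedF Ω a (fun j => Zb a j w) :=
  weakClosedF_of_closed hfr.smooth hΩ (fun _ => (contDiff_Zb hfr.smooth hw.smooth).contDiffOn)
    fun _ hz _ _ => Zb_Zb_comm hfr hz (hw.smooth.contDiffAt.of_le (by norm_cast))

/-- the formal adjoint is the weak adjoint on test forms. -/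
theorem weakAdjF_test (ha : ∀ j k, ContDiff ℝ ∞ (a j k)) (hΩ : IsOpen Ω) {p ψ : CE ι → ℝ}
    (hp : ContDiffOn ℝ ∞ p Ω) (hψ : ContDiffOn ℝ ∞ ψ Ω) {F : ι → CE ι → ℂ} (hF : IsTestForm Ω F) :
    WeakAdjF Ω a p ψ F (TstF a p ψ F) := by
  intro u hu
  have hp2 : ContDiffOn ℝ ∞ (fun y => p y - ψ y) Ω := hp.sub hψ
  have hE : ContDiffOn ℝ ∞ (fun z => ((Real.exp (-(p z - ψ z)) : ℝ) : ℂ)) Ω :=
    B6E.contDiffOn_cx_exp hp2.neg
  have key : ∀ j, ∫ z, Zb a j u z * conj (F j z) * ((Real.exp (-(p z - ψ z)) : ℝ) : ℂ)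
      = - ∫ z, u z * conj (dlF a (fun y => p y - ψ y) j (F j) z)
          * ((Real.exp (-(p z - ψ z)) : ℝ) : ℂ) := by
    intro j
    have h := integral_dlF_mul_conj (j := j) ha hΩ hp2 (hF j) hu
    have h' := congrArg conj h
    rw [← integral_conj, map_neg, ← integral_conj] at h'
    simp only [map_mul, Complex.conj_conj, Complex.conj_ofReal] at h'
    have e1 : ∀ z, Zb a j u z * conj (F j z) * ((Real.exp (-(p z - ψ z)) : ℝ) : ℂ)
        = conj (F j z) * Zb a j u z * ((Real.exp (-(p z - ψ z)) : ℝ) : ℂ) := fun z => by ring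
    have e2 : ∀ z, u z * conj (dlF a (fun y => p y - ψ y) j (F j) z)
          * ((Real.exp (-(p z - ψ z)) : ℝ) : ℂ)
        = conj (dlF a (fun y => p y - ψ y) j (F j) z) * u z
          * ((Real.exp (-(p z - ψ z)) : ℝ) : ℂ) := fun z => by ring
    simp only [e1, e2]
    rw [h', neg_neg]
  have hI1 : ∀ j, Integrable (fun z => Zb a j u z * conj (F j z)
      * ((Real.exp (-(p z - ψ z)) : ℝ) : ℂ)) := fun j =>
    (((isTest_Zb (j := j) ha hu).mul (hF j).conj).mul_contDiffOn hΩ hE).integrable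
  have hI2 : ∀ j, Integrable (fun z => u z * conj (dlF a (fun y => p y - ψ y) j (F j) z)
      * ((Real.exp (-(p z - ψ z)) : ℝ) : ℂ)) := fun j =>
    ((hu.mul (isTest_dlF ha hΩ hp2 (hF j) j).conj).mul_contDiffOn hΩ hE).integrable
  have L : ∀ z, (∑ j, Zb a j u z * conj (F j z)) * ((Real.exp (-(p z - ψ z)) : ℝ) : ℂ)
      = ∑ j, Zb a j u z * conj (F j z) * ((Real.exp (-(p z - ψ z)) : ℝ) : ℂ) := fun z => by
    rw [Finset.sum_mul]
  have R : ∀ z, u z * conj (TstF a p ψ F z) * ((Real.exp (-(p z - 2 * ψ z)) : ℝ) : ℂ)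
      = - ∑ j, (u z * conj (dlF a (fun y => p y - ψ y) j (F j) z)
          * ((Real.exp (-(p z - ψ z)) : ℝ) : ℂ)) := fun z => by
    have hexp : ((Real.exp (-(p z - ψ z)) : ℝ) : ℂ)
        = ((Real.exp (-ψ z) : ℝ) : ℂ) * ((Real.exp (-(p z - 2 * ψ z)) : ℝ) : ℂ) := by
      rw [← Complex.ofReal_mul, ← Real.exp_add]; congr 2; ring
    unfold TstF
    rw [hexp]
    simp only [map_mul, map_neg, map_sum, Complex.conj_ofReal]
    rw [← Finset.sum_mul, ← Finset.mul_sum]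
    ring
  simp only [L, R]
  rw [integral_finsetSum _ fun j _ => hI1 j, integral_neg, integral_finsetSum _ fun j _ => hI2 j,
    ← Finset.sum_neg_distrib]
  exact Finset.sum_congr rfl fun j _ => key j

theorem TstF_of_dual (ha : ∀ j k, ContDiff ℝ ∞ (a j k)) (hΩ : IsOpen Ω) {p ψ : CE ι → ℝ}
    (hp : ContDiffOn ℝ ∞ p Ω) (hψ : ContDiffOn ℝ ∞ ψ Ω) {Φ : ι → CE ι → ℂ} (hΦ : IsTestForm Ω Φ)
    {z : CE ι} (hz : z ∈ Ω) :
    TstF a p ψ (fun j y => conj (Φ j y) * ((Real.exp (p y - ψ y) : ℝ) : ℂ)) z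
      = ((Real.exp (p z - 2 * ψ z) : ℝ) : ℂ) * conj (∑ j, Zbt a j (Φ j) z) := by
  have hp2 : DifferentiableAt ℝ (fun y => p y - ψ y) z :=
    ((hp.sub hψ).contDiffAt (hΩ.mem_nhds hz)).differentiableAt (by simp)
  have hE : DifferentiableAt ℝ (fun y => ((Real.exp (p y - ψ y) : ℝ) : ℂ)) z :=
    ((B6E.contDiffOn_cx_exp (hp.sub hψ)).contDiffAt (hΩ.mem_nhds hz)).differentiableAt (by simp)
  have h1 : ∀ j, dlF a (fun y => p y - ψ y) j
      (fun y => conj (Φ j y) * ((Real.exp (p y - ψ y) : ℝ) : ℂ)) z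
      = - conj (Zbt a j (Φ j) z) * ((Real.exp (p z - ψ z) : ℝ) : ℂ) := by
    intro j
    unfold dlF Zbt
    rw [Zf_mul ((hΦ j).conj.differentiable z) hE, Zf_conj,
      Zf_exp_pos (p := fun y => p y - ψ y) hp2]
    simp only [map_neg, map_add, map_mul, Complex.conj_conj]
    ring
  unfold TstF
  simp only [h1]
  have hexp : ((Real.exp (p z - 2 * ψ z) : ℝ) : ℂ)
      = ((Real.exp (-ψ z) : ℝ) : ℂ) * ((Real.exp (p z - ψ z) : ℝ) : ℂ) := by
    rw [← Complex.ofReal_mul, ← Real.exp_add]; congr 2; ring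
  rw [hexp, map_sum, ← Finset.sum_mul, Finset.sum_neg_distrib]
  ring

end Claimed.Agent.R316.B4

end SecFrameB

/-!
# Row 316, B4-BallLimit: monotonicity, congruence and limits of `DualEstF` (frame version of section `SecBallLimit` of `B6E/BKH.lean`)

That section is sorry-free: copy it and replace `∑ j, dzb j (Φ j) z` by `∑ j, Zbt a j (Φ j) z` (a test function by `isTest_Zbt`, `IsTest.sum`; it vanishes off
`⋃ tsupport (Φ j)`).  `dualEstF_limit`: dominated convergence on the compact support of `Φ`.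
-/

section SecBallLimit
open scoped ContDiff ComplexOrder ComplexConjugate Topology
open MeasureTheory Filter
open Claimed.Agent.R316.B6E (IsTest IsTestForm cx L2w)

namespace Claimed.Agent.R316.B4

variable {ι : Type} [Fintype ι] [DecidableEq ι] {a : ι → ι → CE ι → ℂ}

theorem DualEstF.mono_set {Ω Ω' : Set (CE ι)} {g : ι → CE ι → ℂ} {W : CE ι → ℝ} {C : ℝ}
    (h : Ω' ⊆ Ω) (hD : DualEstF Ω a g W C) : DualEstF Ω' a g W C :=
  fun Φ hΦ => hD Φ fun j => (hΦ j).mono h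

theorem Zbt_eq_zero_of_notMem_tsupport {j : ι} {w : CE ι → ℂ} {z : CE ι} (h : z ∉ tsupport w) :
    Zbt a j w z = 0 := by
  unfold Zbt
  rw [Zb_eq_zero_of_notMem_tsupport h, image_eq_zero_of_notMem_tsupport h]
  simp

theorem sum_Zbt_eq_zero_of_notMem {Ω : Set (CE ι)} {Φ : ι → CE ι → ℂ} (hΦ : IsTestForm Ω Φ)
    {z : CE ι} (hz : z ∉ Ω) : ∑ j, Zbt a j (Φ j) z = 0 :=
  Finset.sum_eq_zero fun j _ => Zbt_eq_zero_of_notMem_tsupport fun h => hz ((hΦ j).supp h)

theorem DualEstF.mono_const {Ω : Set (CE ι)} {g : ι → CE ι → ℂ} {W : CE ι → ℝ} {C C' : ℝ}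
    (hW : ∀ z ∈ Ω, 0 ≤ W z) (h : C ≤ C') (hD : DualEstF Ω a g W C) : DualEstF Ω a g W C' := by
  intro Φ hΦ
  refine (hD Φ hΦ).trans (mul_le_mul_of_nonneg_right h (integral_nonneg fun z => ?_))
  by_cases hz : z ∈ Ω
  · exact mul_nonneg (by positivity) (hW z hz)
  · simp [sum_Zbt_eq_zero_of_notMem hΦ hz]

/-- only the values of `g` and `W` on `Ω` matter. -/
theorem DualEstF.congr {Ω : Set (CE ι)} {g g' : ι → CE ι → ℂ} {W W' : CE ι → ℝ} {C : ℝ}
    (hg : ∀ j, Set.EqOn (g j) (g' j) Ω) (hW : Set.EqOn W W' Ω) (hD : DualEstF Ω a g W C) :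
    DualEstF Ω a g' W' C := by
  intro Φ hΦ
  have h1 : ∀ z, ∑ j, g' j z * Φ j z = ∑ j, g j z * Φ j z := by
    intro z
    refine Finset.sum_congr rfl fun j _ => ?_
    by_cases hz : z ∈ Ω
    · rw [hg j hz]
    · rw [(hΦ j).eq_zero_of_notMem hz]; simp
  have h2 : ∀ z, ‖∑ j, Zbt a j (Φ j) z‖ ^ 2 * W' z = ‖∑ j, Zbt a j (Φ j) z‖ ^ 2 * W z := by
    intro z
    by_cases hz : z ∈ Ω
    · rw [hW hz]
    · simp [sum_Zbt_eq_zero_of_notMem hΦ hz]
  simp only [h1, h2]
  exact hD Φ hΦ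

/-- **limits of dual estimates** (exhaustion of the domain and convergence of the weights). -/
theorem dualEstF_limit (ha : ∀ j k, ContDiff ℝ ∞ (a j k)) {Ω : Set (CE ι)} {g : ι → CE ι → ℂ}
    {Ων : ℕ → Set (CE ι)}
    (hexh : ∀ K ⊆ Ω, IsCompact K → ∀ᶠ ν in atTop, K ⊆ Ων ν)
    (hopen : ∀ ν, IsOpen (Ων ν))
    {Wν : ℕ → CE ι → ℝ} {W : CE ι → ℝ} {C : ℝ} (hD : ∀ ν, DualEstF (Ων ν) a g (Wν ν) C)
    (hm : ∀ ν, AEStronglyMeasurable (Wν ν) (volume.restrict (Ων ν)))
    (hb : ∀ K ⊆ Ω, IsCompact K → ∃ M, ∀ᶠ ν in atTop, ∀ z ∈ K, |Wν ν z| ≤ M)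
    (hlim : ∀ z ∈ Ω, Tendsto (fun ν => Wν ν z) atTop (𝓝 (W z))) :
    DualEstF Ω a g W C := by
  intro Φ hΦ
  set K : Set (CE ι) := ⋃ j, tsupport (Φ j) with hKdef
  have hK : IsCompact K := isCompact_iUnion fun j => (hΦ j).compact
  have hKΩ : K ⊆ Ω := Set.iUnion_subset fun j => (hΦ j).supp
  set D : CE ι → ℂ := fun z => ∑ j, Zbt a j (Φ j) z with hDdef
  have hDt : IsTest Ω D := IsTest.sum _ fun j _ => isTest_Zbt ha (hΦ j)
  have hD0 : ∀ z, z ∉ K → D z = 0 := fun z hz =>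
    Finset.sum_eq_zero fun j _ => Zbt_eq_zero_of_notMem_tsupport fun h =>
      hz (Set.mem_iUnion.2 ⟨j, h⟩)
  obtain ⟨M, hM⟩ := hb K hKΩ hK
  have hev := hexh K hKΩ hK
  -- convergence of the right hand sides
  have hconv : Tendsto (fun ν => ∫ z, ‖D z‖ ^ 2 * Wν ν z) atTop (𝓝 (∫ z, ‖D z‖ ^ 2 * W z)) := by
    refine tendsto_integral_filter_of_dominated_convergence (fun z => ‖D z‖ ^ 2 * M) ?_ ?_ ?_ ?_
    · filter_upwards [hev] with ν hν
      have h1 : AEStronglyMeasurable (fun z => ‖D z‖ ^ 2 * Wν ν z) (volume.restrict (Ων ν)) :=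
        ((hDt.continuous.norm.pow 2).aestronglyMeasurable).mul (hm ν)
      have h2 : (fun z => ‖D z‖ ^ 2 * Wν ν z)
          = (Ων ν).indicator (fun z => ‖D z‖ ^ 2 * Wν ν z) := by
        funext z
        by_cases hz : z ∈ Ων ν
        · rw [Set.indicator_of_mem hz]
        · rw [Set.indicator_of_notMem hz, hD0 z fun h => hz (hν h)]; simp
      rw [h2]
      exact (aestronglyMeasurable_indicator_iff (hopen ν).measurableSet).2 h1
    · filter_upwards [hM] with ν hν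
      refine Eventually.of_forall fun z => ?_
      by_cases hz : z ∈ K
      · rw [norm_mul, Real.norm_eq_abs, Real.norm_eq_abs, abs_of_nonneg (by positivity)]
        exact mul_le_mul_of_nonneg_left (hν z hz) (by positivity)
      · simp [hD0 z hz]
    · exact ((hDt.continuous.norm.pow 2).integrable_of_hasCompactSupport
        (by
          have : HasCompactSupport (fun z => ‖D z‖ ^ 2) :=
            hDt.compact.comp_left (g := fun x : ℂ => ‖x‖ ^ 2) (by simp)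
          exact this)).mul_const M
    · refine Eventually.of_forall fun z => ?_
      by_cases hz : z ∈ K
      · exact (hlim z (hKΩ hz)).const_mul _
      · simp [hD0 z hz]
  refine le_of_tendsto_of_tendsto tendsto_const_nhds (hconv.const_mul C) ?_
  filter_upwards [hev] with ν hν
  exact hD ν Φ fun j => ⟨(hΦ j).smooth, (hΦ j).compact,
    (Set.subset_iUnion (fun j => tsupport (Φ j)) j).trans hν⟩

end Claimed.Agent.R316.B4

end SecBallLimit

/-!
# Row 316, B4-Riesz: the dual estimate gives a weak solution with the `L²` bound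

`H = Lp ℂ 2 (volume.restrict Ω)` (unweighted), `D` = the `ℂ`-module of test forms on `Ω` (a `Submodule ℂ (ι → CE ι → ℂ)`),
`A Φ = √W · ∑ Z̄_j^tΦ_j ∈ H` (bounded with compact support, `isTest_Zbt`), `ℓ Φ = ∫ ∑ g_j Φ_j`.  `DualEstF` is the hypothesis of
`B6E.hilbert_riesz_range`; it gives `\tilde u ∈ H`, `‖\tilde u‖² ≤ C`, `ℓ Φ = ⟪\tilde u, A Φ⟫ = ∫ \overline{\tilde u} √W ∑ Z̄_j^tΦ_j`.
Put `u = \overline{\tilde u} √W`.  Then `∫ u Z̄_j^t w = ∫ g_j w` (take `Φ = w e_j`), `|u|²/W ≤ |\tilde u|²`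
(`=` where `W > 0`, and `u = 0`, `0/0 = 0` where `W = 0`), `u ∈ L²_loc` because `W` is locally bounded: `|u|² ≤ M |\tilde u|²` on `K`.
-/

section SecRiesz
open scoped ContDiff ComplexOrder ComplexConjugate Topology
open MeasureTheory Filter
open Claimed.Agent.R316.B6E (IsTest IsTestForm cx L2w)

namespace Claimed.Agent.R316.B4

variable {ι : Type} [Fintype ι] [DecidableEq ι]

/-! ### `L²` toolbox -/

/-- `‖f‖² = ∫ ‖f‖²` in `L²`. -/
theorem l2_norm_sq {X : Type} [MeasurableSpace X] {μ : Measure X} (f : Lp ℂ 2 μ) :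
    ‖f‖ ^ 2 = ∫ z, ‖f z‖ ^ 2 ∂μ := by
  have h := L2.inner_def (𝕜 := ℂ) f f
  simp only [inner_self_eq_norm_sq_to_K] at h
  have h2 : ((‖f‖ ^ 2 : ℝ) : ℂ) = ((∫ z, ‖f z‖ ^ 2 ∂μ : ℝ) : ℂ) := by
    rw [← integral_complex_ofReal]
    push_cast
    exact h
  exact_mod_cast h2

theorem l2_norm_sq_toLp {X : Type} [MeasurableSpace X] {μ : Measure X} {f : X → ℂ}
    (hf : MemLp f 2 μ) : ‖hf.toLp f‖ ^ 2 = ∫ z, ‖f z‖ ^ 2 ∂μ := by
  rw [l2_norm_sq]
  refine integral_congr_ae ?_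
  filter_upwards [hf.coeFn_toLp] with z hz
  rw [hz]

theorem l2_inner_toLp {X : Type} [MeasurableSpace X] {μ : Measure X} (U : Lp ℂ 2 μ) {f : X → ℂ}
    (hf : MemLp f 2 μ) : inner ℂ U (hf.toLp f) = ∫ z, conj (U z) * f z ∂μ := by
  rw [L2.inner_def]
  refine integral_congr_ae ?_
  filter_upwards [hf.coeFn_toLp] with z hz
  rw [hz, RCLike.inner_apply']

/-! ### linearity of the transposed operators -/

theorem Zbt_add {a : ι → ι → CE ι → ℂ} {j : ι} {w w' : CE ι → ℂ} {z : CE ι}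
    (hw : DifferentiableAt ℝ w z) (hw' : DifferentiableAt ℝ w' z) :
    Zbt a j (fun y => w y + w' y) z = Zbt a j w z + Zbt a j w' z := by
  unfold Zbt
  rw [Zb_add hw hw']
  ring

theorem Zbt_const_mul {a : ι → ι → CE ι → ℂ} {j : ι} {w : CE ι → ℂ} {z : CE ι} (c : ℂ)
    (hw : DifferentiableAt ℝ w z) : Zbt a j (fun y => c * w y) z = c * Zbt a j w z := by
  unfold Zbt
  rw [Zb_const_mul c hw]
  ring

theorem Zbt_zero {a : ι → ι → CE ι → ℂ} {j : ι} {z : CE ι} :
    Zbt a j (fun _ => (0 : ℂ)) z = 0 := by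
  unfold Zbt
  rw [Zb_const]
  simp

/-- the module of test forms. -/
def testForms (Ω : Set (CE ι)) : Submodule ℂ (ι → CE ι → ℂ) where
  carrier := {Φ | IsTestForm Ω Φ}
  add_mem' := fun h1 h2 j => (h1 j).add (h2 j)
  zero_mem' := fun _ => IsTest.zero
  smul_mem' := fun c _ h j => (h j).const_mul c

omit [DecidableEq ι] in
/-- `|D|² W` is integrable for a test function `D` and a locally bounded weight. -/
theorem integrableOn_sq_mul_weight {Ω : Set (CE ι)} (hΩ : IsOpen Ω) {W : CE ι → ℝ}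
    (hW0 : ∀ z ∈ Ω, 0 ≤ W z) (hWm : AEStronglyMeasurable W (volume.restrict Ω))
    (hWb : ∀ K ⊆ Ω, IsCompact K → ∃ M, ∀ z ∈ K, W z ≤ M) {D : CE ι → ℂ} (hD : IsTest Ω D) :
    IntegrableOn (fun z => ‖D z‖ ^ 2 * W z) Ω := by
  obtain ⟨M, hM⟩ := hWb _ hD.supp hD.compact
  have hc : Continuous (fun z => ‖D z‖ ^ 2) := hD.continuous.norm.pow 2
  have hI : Integrable (fun z => ‖D z‖ ^ 2 * M) (volume.restrict Ω) :=
    ((hc.integrable_of_hasCompactSupport
      (hD.compact.comp_left (g := fun x : ℂ => ‖x‖ ^ 2) (by simp))).mul_const M).restrict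
  refine hI.mono' (hc.aestronglyMeasurable.mul hWm) ?_
  refine (ae_restrict_iff' hΩ.measurableSet).2 (Eventually.of_forall fun z hz => ?_)
  by_cases hzK : z ∈ tsupport D
  · rw [norm_mul, Real.norm_eq_abs, Real.norm_eq_abs, abs_of_nonneg (by positivity),
      abs_of_nonneg (hW0 z hz)]
    exact mul_le_mul_of_nonneg_left (hM z hzK) (by positivity)
  · simp [image_eq_zero_of_notMem_tsupport hzK]

omit [DecidableEq ι] in
theorem memLp_sqrt_weight_mul {Ω : Set (CE ι)} (hΩ : IsOpen Ω) {W : CE ι → ℝ}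
    (hW0 : ∀ z ∈ Ω, 0 ≤ W z) (hWm : AEStronglyMeasurable W (volume.restrict Ω))
    (hWb : ∀ K ⊆ Ω, IsCompact K → ∃ M, ∀ z ∈ K, W z ≤ M) {D : CE ι → ℂ} (hD : IsTest Ω D) :
    MemLp (fun z => ((Real.sqrt (W z) : ℝ) : ℂ) * D z) 2 (volume.restrict Ω) := by
  have hm : AEStronglyMeasurable (fun z => ((Real.sqrt (W z) : ℝ) : ℂ) * D z)
      (volume.restrict Ω) :=
    (Complex.continuous_ofReal.comp_aestronglyMeasurable
      (Real.continuous_sqrt.comp_aestronglyMeasurable hWm)).mul hD.continuous.aestronglyMeasurable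
  rw [memLp_two_iff_integrable_sq_norm hm]
  refine (integrableOn_sq_mul_weight hΩ hW0 hWm hWb hD).congr ?_
  refine (ae_restrict_iff' hΩ.measurableSet).2 (Eventually.of_forall fun z hz => ?_)
  simp only [norm_mul, Complex.norm_real, Real.norm_eq_abs, abs_of_nonneg (Real.sqrt_nonneg _),
    mul_pow, Real.sq_sqrt (hW0 z hz)]
  ring

/-- **Riesz step.** -/
theorem exists_weak_solutionF {Ω : Set (CE ι)} (hΩ : IsOpen Ω) {a : ι → ι → CE ι → ℂ}
    (ha : ∀ j k, ContDiff ℝ ∞ (a j k)) {g : ι → CE ι → ℂ}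
    (hg : ∀ j, LocallyIntegrableOn (g j) Ω) {W : CE ι → ℝ} (hW0 : ∀ z ∈ Ω, 0 ≤ W z)
    (hWm : AEStronglyMeasurable W (volume.restrict Ω))
    (hWb : ∀ K ⊆ Ω, IsCompact K → ∃ M, ∀ z ∈ K, W z ≤ M) {C : ℝ} (hC : 0 ≤ C)
    (hD : DualEstF Ω a g W C) :
    ∃ u : CE ι → ℂ, AEStronglyMeasurable u (volume.restrict Ω) ∧
      (∀ K ⊆ Ω, IsCompact K → MemLp u 2 (volume.restrict K)) ∧
      IntegrableOn (fun z => ‖u z‖ ^ 2 / W z) Ω ∧ ∫ z in Ω, ‖u z‖ ^ 2 / W z ≤ C ∧
      WeakZb Ω a u g := by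
  classical
  set μ : Measure (CE ι) := volume.restrict Ω with hμ
  -- the divergence of a test form
  have hDt : ∀ Φ : testForms Ω, IsTest Ω (fun z => ∑ j, Zbt a j (Φ.1 j) z) := fun Φ =>
    IsTest.sum _ fun j _ => isTest_Zbt ha (Φ.2 j)
  have hmem : ∀ Φ : testForms Ω,
      MemLp (fun z => ((Real.sqrt (W z) : ℝ) : ℂ) * ∑ j, Zbt a j (Φ.1 j) z) 2 μ := fun Φ =>
    memLp_sqrt_weight_mul hΩ hW0 hWm hWb (hDt Φ)
  have hgI : ∀ (Φ : testForms Ω) (j : ι), Integrable (fun z => g j z * Φ.1 j z) := fun Φ j =>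
    (Φ.2 j).integrable_mul_left hΩ (hg j)
  let A : testForms Ω →ₗ[ℂ] Lp ℂ 2 μ :=
    { toFun := fun Φ => (hmem Φ).toLp _
      map_add' := by
        intro Φ Ψ
        rw [← MemLp.toLp_add, MemLp.toLp_eq_toLp_iff]
        refine Eventually.of_forall fun z => ?_
        have : ∀ j, Zbt a j ((Φ + Ψ : testForms Ω).1 j) z
            = Zbt a j (Φ.1 j) z + Zbt a j (Ψ.1 j) z := fun j =>
          Zbt_add ((Φ.2 j).differentiable z) ((Ψ.2 j).differentiable z)
        simp only [this, Finset.sum_add_distrib, Pi.add_apply]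
        ring
      map_smul' := by
        intro c Φ
        rw [RingHom.id_apply, ← MemLp.toLp_const_smul, MemLp.toLp_eq_toLp_iff]
        refine Eventually.of_forall fun z => ?_
        have : ∀ j, Zbt a j ((c • Φ : testForms Ω).1 j) z = c * Zbt a j (Φ.1 j) z := fun j =>
          Zbt_const_mul c ((Φ.2 j).differentiable z)
        simp only [this, ← Finset.mul_sum, Pi.smul_apply, smul_eq_mul]
        ring }
  let ℓ : testForms Ω →ₗ[ℂ] ℂ :=
    { toFun := fun Φ => ∫ z, ∑ j, g j z * Φ.1 j z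
      map_add' := by
        intro Φ Ψ
        rw [← integral_add (integrable_finsetSum _ fun j _ => hgI Φ j)
          (integrable_finsetSum _ fun j _ => hgI Ψ j)]
        refine integral_congr_ae (Eventually.of_forall fun z => ?_)
        simp only [← Finset.sum_add_distrib]
        refine Finset.sum_congr rfl fun j _ => ?_
        show g j z * (Φ.1 j z + Ψ.1 j z) = _
        ring
      map_smul' := by
        intro c Φ
        rw [RingHom.id_apply, smul_eq_mul, ← integral_const_mul]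
        refine integral_congr_ae (Eventually.of_forall fun z => ?_)
        simp only [Finset.mul_sum]
        refine Finset.sum_congr rfl fun j _ => ?_
        show g j z * (c * Φ.1 j z) = _
        ring }
  have hAn : ∀ Φ : testForms Ω, ‖A Φ‖ ^ 2 = ∫ z, ‖∑ j, Zbt a j (Φ.1 j) z‖ ^ 2 * W z := by
    intro Φ
    show ‖(hmem Φ).toLp _‖ ^ 2 = _
    have e : ∫ z in Ω, ‖∑ j, Zbt a j (Φ.1 j) z‖ ^ 2 * W z
        = ∫ z, ‖∑ j, Zbt a j (Φ.1 j) z‖ ^ 2 * W z :=
      setIntegral_eq_integral_of_forall_compl_eq_zero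
        (fun z hz => by rw [(hDt Φ).eq_zero_of_notMem hz]; simp)
    rw [l2_norm_sq_toLp, ← e]
    refine setIntegral_congr_fun hΩ.measurableSet fun z hz => ?_
    simp only [norm_mul, Complex.norm_real, Real.norm_eq_abs, abs_of_nonneg (Real.sqrt_nonneg _),
      mul_pow, Real.sq_sqrt (hW0 z hz)]
    ring
  obtain ⟨U, hU, hUℓ⟩ := B6E.hilbert_riesz_range A ℓ C hC (fun Φ => by
    rw [hAn]
    exact hD Φ.1 Φ.2)
  have hUm : AEStronglyMeasurable (U : CE ι → ℂ) μ := (Lp.memLp U).aestronglyMeasurable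
  have hsm : AEStronglyMeasurable (fun z => ((Real.sqrt (W z) : ℝ) : ℂ)) μ :=
    Complex.continuous_ofReal.comp_aestronglyMeasurable
      (Real.continuous_sqrt.comp_aestronglyMeasurable hWm)
  have hum : AEStronglyMeasurable (fun z => conj (U z) * ((Real.sqrt (W z) : ℝ) : ℂ)) μ :=
    (Complex.continuous_conj.comp_aestronglyMeasurable hUm).mul hsm
  have hnorm : ∀ z ∈ Ω, ‖conj (U z) * ((Real.sqrt (W z) : ℝ) : ℂ)‖ ^ 2 = ‖U z‖ ^ 2 * W z := by
    intro z hz
    simp only [norm_mul, RCLike.norm_conj, Complex.norm_real, Real.norm_eq_abs,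
      abs_of_nonneg (Real.sqrt_nonneg _), mul_pow, Real.sq_sqrt (hW0 z hz)]
  have hU2 : Integrable (fun z => ‖U z‖ ^ 2) μ :=
    (memLp_two_iff_integrable_sq_norm hUm).1 (Lp.memLp U)
  have hle : ∀ z ∈ Ω, ‖conj (U z) * ((Real.sqrt (W z) : ℝ) : ℂ)‖ ^ 2 / W z ≤ ‖U z‖ ^ 2 := by
    intro z hz
    rw [hnorm z hz]
    rcases (hW0 z hz).eq_or_lt with h0 | h0
    · rw [← h0]; simp
    · rw [mul_div_assoc, div_self h0.ne', mul_one]
  have hqm : AEStronglyMeasurable
      (fun z => ‖conj (U z) * ((Real.sqrt (W z) : ℝ) : ℂ)‖ ^ 2 / W z) μ :=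
    ((hum.norm.pow 2).aemeasurable.div hWm.aemeasurable).aestronglyMeasurable
  have hqI : Integrable (fun z => ‖conj (U z) * ((Real.sqrt (W z) : ℝ) : ℂ)‖ ^ 2 / W z) μ := by
    refine hU2.mono' hqm ?_
    refine (ae_restrict_iff' hΩ.measurableSet).2 (Eventually.of_forall fun z hz => ?_)
    rw [Real.norm_eq_abs, abs_of_nonneg (div_nonneg (by positivity) (hW0 z hz))]
    exact hle z hz
  refine ⟨fun z => conj (U z) * ((Real.sqrt (W z) : ℝ) : ℂ), hum, ?_, hqI, ?_, ?_⟩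
  · intro K hK hKc
    obtain ⟨M, hM⟩ := hWb K hK hKc
    have hUK : MemLp (U : CE ι → ℂ) 2 (volume.restrict K) :=
      (Lp.memLp U).mono_measure (Measure.restrict_mono hK le_rfl)
    refine hUK.of_le_mul (c := Real.sqrt M)
      (hum.mono_measure (Measure.restrict_mono hK le_rfl)) ?_
    refine (ae_restrict_iff' hKc.measurableSet).2 (Eventually.of_forall fun z hz => ?_)
    rw [norm_mul, RCLike.norm_conj, Complex.norm_real, Real.norm_eq_abs,
      abs_of_nonneg (Real.sqrt_nonneg _), mul_comm]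
    exact mul_le_mul_of_nonneg_right (Real.sqrt_le_sqrt (hM z hz)) (norm_nonneg _)
  · calc ∫ z in Ω, ‖conj (U z) * ((Real.sqrt (W z) : ℝ) : ℂ)‖ ^ 2 / W z
        ≤ ∫ z in Ω, ‖U z‖ ^ 2 :=
          setIntegral_mono_on hqI hU2 hΩ.measurableSet hle
      _ = ‖U‖ ^ 2 := (l2_norm_sq U).symm
      _ ≤ C := hU
  · intro w hw j
    have hΦ : IsTestForm Ω (fun k => if k = j then w else fun _ => 0) := by
      intro k
      by_cases hk : k = j
      · simp only [hk, if_true]; exact hw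
      · simp only [hk, if_false]; exact IsTest.zero
    have h1 := hUℓ ⟨_, hΦ⟩
    have e1 : ℓ ⟨_, hΦ⟩ = ∫ z, g j z * w z := by
      show ∫ z, ∑ k, g k z * (if k = j then w else fun _ => 0) z = _
      refine integral_congr_ae (Eventually.of_forall fun z => ?_)
      show ∑ k, g k z * (if k = j then w else fun _ => 0) z = g j z * w z
      rw [Finset.sum_eq_single j]
      · simp
      · intro k _ hk
        simp [hk]
      · intro h
        exact absurd (Finset.mem_univ j) h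
    have e2 : inner ℂ U (A ⟨_, hΦ⟩)
        = ∫ z, conj (U z) * ((Real.sqrt (W z) : ℝ) : ℂ) * Zbt a j w z := by
      show inner ℂ U ((hmem ⟨_, hΦ⟩).toLp _) = _
      have e : ∫ z in Ω, conj (U z) * ((Real.sqrt (W z) : ℝ) : ℂ) * Zbt a j w z
          = ∫ z, conj (U z) * ((Real.sqrt (W z) : ℝ) : ℂ) * Zbt a j w z :=
        setIntegral_eq_integral_of_forall_compl_eq_zero
          (fun z hz => by rw [(isTest_Zbt (j := j) ha hw).eq_zero_of_notMem hz]; simp)
      rw [l2_inner_toLp, ← e]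
      refine integral_congr_ae (Eventually.of_forall fun z => ?_)
      have : ∑ k, Zbt a k ((if k = j then w else fun _ => 0) : CE ι → ℂ) z = Zbt a j w z := by
        rw [Finset.sum_eq_single j]
        · simp
        · intro k _ hk
          simp only [hk, if_false]
          exact Zbt_zero
        · intro h
          exact absurd (Finset.mem_univ j) h
      show conj (U z) * (((Real.sqrt (W z) : ℝ) : ℂ)
        * ∑ k, Zbt a k ((if k = j then w else fun _ => 0) : CE ι → ℂ) z) = _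
      rw [this]
      ring
    rw [← e2, ← h1, e1]

end Claimed.Agent.R316.B4

end SecRiesz
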