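import Claimed.Agent.R316.B4.H1
import Claimed.Agent.Lib.Sob.L2

set_option autoImplicit false

/-!
# Row 316, B4-WeakEq: an `H¹_loc` solution of `Z̄ u = g` is a weak solution of the second order equation `∑ Z_j Z̄_j u = ∑ Z_j g_j`

`u ∈ L²_loc`, weak derivative `G ∈ L²_loc`, `ZbG a j z (G z) = g_j` a.e., `g` smooth.  For a REAL test function `φ` on `Ω` (write `φ` also for `cx φ`):
1. (`weak_ibp`) for a complex test function `w` and a constant vector `e`: `∫ G z e * w z = - ∫ u z * fderiv ℝ w z e` (definition of `HasWeakDeriv` for `Re w`, `Im w`).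
   With smooth coefficients absorbed in `w`: `∫ ZfG a j z (G z) * w z = ∫ u z * Zft a j w z` (`weak_ibp_Zf`)
   (`frX`, `frY` are combinations of the constant vectors `e_k`, `i e_k` with smooth coefficients; compare `integral_Zf_mul`).
2. pointwise algebra: with `x = dφ(X_j)`, `y = dφ(Y_j)` real, `P = G(X_j)`, `Q = G(Y_j)`:  `x P + y Q = ½ [(x + i y)(P - i Q) + (x - i y)(P + i Q)]`, i.e.
   `G z (prA a z (dφ_z)) = ½ ∑_j [ Z̄_jφ · ZfG a j z (G z) + Z_jφ · ZbG a j z (G z) ]`.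
3. `∫ Z̄_jφ · ZfG(G) = ∫ u Z_j^t(Z̄_jφ) = - ∫ u (Z_j Z̄_j φ + σ_j Z̄_jφ)`;  `Z_j Z̄_jφ = Z̄_j Z_jφ + ∑_l (Z_j a_{jl}) ∂_lφ - ∑_l (Z̄_j \bar a_{jl}) ∂̄_lφ` (`Zf_Zb_sub_general`);
   `hw` with the test function `Z_jφ`:  `- ∫ u Z̄_j Z_jφ = ∫ g_j Z_jφ + ∫ u \bar σ_j Z_jφ`.
4. `∫ g_j Z_jφ = ∫ φ Z_j^t g_j = - ∫ φ (Z_j g_j + σ_j g_j)` (`integral_Zf_mul` with the roles exchanged: `φ` test, `g_j` smooth).
Sum: `∫ G(prA dφ) = - ∫ φ ∑_j (Z_j g_j + σ_j g_j) + ∫ u · lowC a φ`.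
-/

section SecWeakEq
set_option maxSynthPendingDepth 6
set_option linter.unusedSectionVars false
set_option linter.unusedVariables false
open scoped ContDiff ComplexOrder ComplexConjugate Topology
open MeasureTheory Filter
open Claimed.Agent.R316.B6E (IsTest IsTestForm cx L2w)
open Claimed.Agent.Lib.Sob (HasWeakFDeriv L2Loc)

namespace Claimed.Agent.R316.B4

variable {ι : Type} [Fintype ι] [DecidableEq ι]

/-- complex test functions are vector valued test functions of `Lib/Sob`. -/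
theorem we_isTestV {Ω : Set (CE ι)} {w : CE ι → ℂ} (hw : IsTest Ω w) :
    Claimed.Agent.Lib.Sob.IsTestV Ω w := ⟨hw.smooth, hw.compact, hw.supp⟩

/-- real test functions of `Lib/Sob` are complex test functions. -/
theorem we_isTest_cx {Ω : Set (CE ι)} {φ : CE ι → ℝ} (hφ : Claimed.Agent.Lib.Sob.IsTest Ω φ) :
    IsTest Ω (cx φ) := by
  have h := (Claimed.Agent.Lib.Sob.isTest_iff_isTestV.1 hφ).clm Complex.ofRealCLM
  exact ⟨h.smooth, h.compact, h.supp⟩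

theorem weak_ibp {Ω : Set (CE ι)} (hΩ : IsOpen Ω) {u : CE ι → ℂ} {G : CE ι → CE ι →L[ℝ] ℂ}
    (hG : HasWeakFDeriv volume Ω u G) {w : CE ι → ℂ} (hw : IsTest Ω w) (e : CE ι) :
    ∫ z, G z e * w z = - ∫ z, u z * fderiv ℝ w z e := by
  have hT : Claimed.Agent.Lib.Sob.IsTestV Ω (fun z => ContinuousLinearMap.mul ℝ ℂ (w z)) :=
    (we_isTestV hw).clm (ContinuousLinearMap.mul ℝ ℂ)
  have key := (hG e).test_clm hΩ hT
  have hd : ∀ x, fderiv ℝ (fun y => ContinuousLinearMap.mul ℝ ℂ (w y)) x e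
      = ContinuousLinearMap.mul ℝ ℂ (fderiv ℝ w x e) := by
    intro x
    have := ((ContinuousLinearMap.mul ℝ ℂ).hasFDerivAt.comp x (hw.differentiable x).hasFDerivAt).fderiv
    have e' : (fun y => ContinuousLinearMap.mul ℝ ℂ (w y)) = (ContinuousLinearMap.mul ℝ ℂ) ∘ w := rfl
    rw [e', this]
    rfl
  simp only [hd, ContinuousLinearMap.mul_apply'] at key
  have e1 : ∀ z, G z e * w z = w z * G z e := fun z => mul_comm _ _
  have e2 : ∀ z, u z * fderiv ℝ w z e = fderiv ℝ w z e * u z := fun z => mul_comm _ _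
  simp only [e1, e2]
  rw [key, neg_neg]

theorem we_dz_clm (L : CE ι →L[ℝ] ℂ) (j : ι) (z : CE ι) :
    dz j (⇑L) z = (1 / 2 : ℂ) * (L (eb j) - Complex.I * L (Complex.I • eb j)) := by
  rw [dz_def, L.fderiv]

theorem we_dzb_clm (L : CE ι →L[ℝ] ℂ) (j : ι) (z : CE ι) :
    dzb j (⇑L) z = (1 / 2 : ℂ) * (L (eb j) + Complex.I * L (Complex.I • eb j)) := by
  rw [dzb_def, L.fderiv]

theorem Zf_eq_ZfG (a : ι → ι → CE ι → ℂ) (j : ι) (u : CE ι → ℂ) (z : CE ι) :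
    Zf a j u z = ZfG a j z (fderiv ℝ u z) := by
  have h := Zf_conj (a := a) (j := j) (u := fun w => conj (u w)) (z := z)
  simp only [Complex.conj_conj] at h
  rw [h, Zb_eq_ZbG]
  unfold ZbG ZfG
  rw [fderiv_conj_apply, fderiv_conj_apply]
  simp only [map_add, map_mul, Complex.conj_conj, Complex.conj_I]
  ring

theorem we_ZbG_eq (a : ι → ι → CE ι → ℂ) (j : ι) (z : CE ι) (L : CE ι →L[ℝ] ℂ) :
    ZbG a j z L = dzb j (⇑L) z + ∑ k, a j k z * dz k (⇑L) z := by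
  have h := Zb_eq_ZbG a j (⇑L) z
  rw [L.fderiv] at h
  rw [← h]
  rfl

theorem we_ZfG_eq (a : ι → ι → CE ι → ℂ) (j : ι) (z : CE ι) (L : CE ι →L[ℝ] ℂ) :
    ZfG a j z L = dz j (⇑L) z + ∑ k, conj (a j k z) * dzb k (⇑L) z := by
  have h := Zf_eq_ZfG a j (⇑L) z
  rw [L.fderiv] at h
  rw [← h]
  rfl

/-- integrability of a component of the weak derivative against a test function. -/
theorem we_integrable_G {Ω : Set (CE ι)} (hΩ : IsOpen Ω) {u : CE ι → ℂ} {G : CE ι → CE ι →L[ℝ] ℂ}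
    (hG : HasWeakFDeriv volume Ω u G) {w : CE ι → ℂ} (hw : IsTest Ω w) (e : CE ι) :
    Integrable (fun z => G z e * w z) :=
  hw.integrable_mul_left hΩ (hG e).2.1

theorem we_integrable_dz {Ω : Set (CE ι)} (hΩ : IsOpen Ω) {u : CE ι → ℂ} {G : CE ι → CE ι →L[ℝ] ℂ}
    (hG : HasWeakFDeriv volume Ω u G) {w : CE ι → ℂ} (hw : IsTest Ω w) (j : ι) :
    Integrable (fun z => dz j (⇑(G z)) z * w z) := by
  have e : ∀ z, dz j (⇑(G z)) z * w z
      = (1 / 2 : ℂ) * (G z (eb j) * w z - Complex.I * (G z (Complex.I • eb j) * w z)) := by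
    intro z
    rw [we_dz_clm]
    ring
  simp only [e]
  exact ((we_integrable_G hΩ hG hw _).sub ((we_integrable_G hΩ hG hw _).const_mul _)).const_mul _

theorem we_integrable_dzb {Ω : Set (CE ι)} (hΩ : IsOpen Ω) {u : CE ι → ℂ} {G : CE ι → CE ι →L[ℝ] ℂ}
    (hG : HasWeakFDeriv volume Ω u G) {w : CE ι → ℂ} (hw : IsTest Ω w) (j : ι) :
    Integrable (fun z => dzb j (⇑(G z)) z * w z) := by
  have e : ∀ z, dzb j (⇑(G z)) z * w z
      = (1 / 2 : ℂ) * (G z (eb j) * w z + Complex.I * (G z (Complex.I • eb j) * w z)) := by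
    intro z
    rw [we_dzb_clm]
    ring
  simp only [e]
  exact ((we_integrable_G hΩ hG hw _).add ((we_integrable_G hΩ hG hw _).const_mul _)).const_mul _

theorem we_ibp_dz {Ω : Set (CE ι)} (hΩ : IsOpen Ω) {u : CE ι → ℂ} {G : CE ι → CE ι →L[ℝ] ℂ}
    (hG : HasWeakFDeriv volume Ω u G) {w : CE ι → ℂ} (hw : IsTest Ω w) (j : ι) :
    ∫ z, dz j (⇑(G z)) z * w z = - ∫ z, u z * dz j w z := by
  have hu : LocallyIntegrableOn u Ω := (hG 0).1
  have e : ∀ z, dz j (⇑(G z)) z * w z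
      = (1 / 2 : ℂ) * (G z (eb j) * w z - Complex.I * (G z (Complex.I • eb j) * w z)) := by
    intro z
    rw [we_dz_clm]
    ring
  have e' : ∀ z, u z * dz j w z
      = (1 / 2 : ℂ) * (u z * fderiv ℝ w z (eb j) - Complex.I * (u z * fderiv ℝ w z (Complex.I • eb j))) := by
    intro z
    rw [dz_def]
    ring
  have hI : ∀ v : CE ι, Integrable (fun z => u z * fderiv ℝ w z v) := by
    intro v
    have ht := (we_isTestV hw).fderiv_apply v
    exact IsTest.integrable_mul_left hΩ ⟨ht.smooth, ht.compact, ht.supp⟩ hu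
  simp only [e, e']
  rw [integral_const_mul, integral_const_mul,
    integral_sub (we_integrable_G hΩ hG hw _) ((we_integrable_G hΩ hG hw _).const_mul _),
    integral_sub (hI _) ((hI _).const_mul _), integral_const_mul, integral_const_mul,
    weak_ibp hΩ hG hw, weak_ibp hΩ hG hw]
  ring

theorem we_ibp_dzb {Ω : Set (CE ι)} (hΩ : IsOpen Ω) {u : CE ι → ℂ} {G : CE ι → CE ι →L[ℝ] ℂ}
    (hG : HasWeakFDeriv volume Ω u G) {w : CE ι → ℂ} (hw : IsTest Ω w) (j : ι) :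
    ∫ z, dzb j (⇑(G z)) z * w z = - ∫ z, u z * dzb j w z := by
  have hu : LocallyIntegrableOn u Ω := (hG 0).1
  have e : ∀ z, dzb j (⇑(G z)) z * w z
      = (1 / 2 : ℂ) * (G z (eb j) * w z + Complex.I * (G z (Complex.I • eb j) * w z)) := by
    intro z
    rw [we_dzb_clm]
    ring
  have e' : ∀ z, u z * dzb j w z
      = (1 / 2 : ℂ) * (u z * fderiv ℝ w z (eb j) + Complex.I * (u z * fderiv ℝ w z (Complex.I • eb j))) := by
    intro z
    rw [dzb_def]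
    ring
  have hI : ∀ v : CE ι, Integrable (fun z => u z * fderiv ℝ w z v) := by
    intro v
    have ht := (we_isTestV hw).fderiv_apply v
    exact IsTest.integrable_mul_left hΩ ⟨ht.smooth, ht.compact, ht.supp⟩ hu
  simp only [e, e']
  rw [integral_const_mul, integral_const_mul,
    integral_add (we_integrable_G hΩ hG hw _) ((we_integrable_G hΩ hG hw _).const_mul _),
    integral_add (hI _) ((hI _).const_mul _), integral_const_mul, integral_const_mul,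
    weak_ibp hΩ hG hw, weak_ibp hΩ hG hw]
  ring

theorem weak_ibp_Zf {Ω : Set (CE ι)} (hΩ : IsOpen Ω) {a : ι → ι → CE ι → ℂ}
    (ha : ∀ j k, ContDiff ℝ ∞ (a j k)) {u : CE ι → ℂ} {G : CE ι → CE ι →L[ℝ] ℂ}
    (hG : HasWeakFDeriv volume Ω u G) {w : CE ι → ℂ} (hw : IsTest Ω w) (j : ι) :
    ∫ z, ZfG a j z (G z) * w z = ∫ z, u z * Zft a j w z := by
  have hu : LocallyIntegrableOn u Ω := (hG 0).1
  have hT : ∀ k, IsTest Ω (fun y => conj (a j k y) * w y) := fun k =>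
    IsTest.contDiff_mul (Complex.conjCLE.contDiff.comp (ha j k)) hw
  have L : ∀ z, ZfG a j z (G z) * w z
      = dz j (⇑(G z)) z * w z + ∑ k, dzb k (⇑(G z)) z * (conj (a j k z) * w z) := by
    intro z
    rw [we_ZfG_eq, add_mul, Finset.sum_mul]
    congr 1
    exact Finset.sum_congr rfl fun k _ => by ring
  have R : ∀ z, u z * Zft a j w z
      = - (u z * dz j w z + ∑ k, u z * dzb k (fun y => conj (a j k y) * w y) z) := by
    intro z
    have hd : ∀ k, dzb k (fun y => conj (a j k y) * w y) z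
        = dzb k (fun y => conj (a j k y)) z * w z + conj (a j k z) * dzb k w z := fun k =>
      dzb_mul (differentiableAt_conj ((ha j k).differentiable (by simp) z)) (hw.differentiable z)
    unfold Zft Zf sg
    simp only [hd, mul_add, Finset.sum_add_distrib, ← Finset.mul_sum, ← Finset.sum_mul]
    ring
  have I1 : ∀ k, Integrable (fun z => dzb k (⇑(G z)) z * (conj (a j k z) * w z)) := fun k =>
    we_integrable_dzb hΩ hG (hT k) k
  have I2 : Integrable (fun z => u z * dz j w z) := (hw.dz (j := j)).integrable_mul_left hΩ hu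
  have I3 : ∀ k, Integrable (fun z => u z * dzb k (fun y => conj (a j k y) * w y) z) := fun k =>
    ((hT k).dzb (j := k)).integrable_mul_left hΩ hu
  simp only [L, R]
  rw [integral_add (we_integrable_dz hΩ hG hw j) (integrable_finsetSum _ fun k _ => I1 k),
    integral_finsetSum _ fun k _ => I1 k, integral_neg,
    integral_add I2 (integrable_finsetSum _ fun k _ => I3 k), integral_finsetSum _ fun k _ => I3 k,
    we_ibp_dz hΩ hG hw]
  simp only [we_ibp_dzb hΩ hG (hT _)]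
  rw [Finset.sum_neg_distrib]
  ring

/-- step 2. -/
theorem apply_prA (a : ι → ι → CE ι → ℂ) (z : CE ι) (L : CE ι →L[ℝ] ℂ) (φ : CE ι → ℝ)
    (hφ : DifferentiableAt ℝ φ z) :
    L (prA a z (fderiv ℝ φ z))
      = (1 / 2 : ℂ) * ∑ j, (Zb a j (cx φ) z * ZfG a j z L + Zf a j (cx φ) z * ZbG a j z L) := by
  have hx : ∀ v, fderiv ℝ (cx φ) z v = ((fderiv ℝ φ z v : ℝ) : ℂ) := fun v => fderiv_ofReal_apply hφ v
  unfold prA
  rw [_root_.sum_apply, map_sum, Finset.mul_sum]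
  refine Finset.sum_congr rfl fun j _ => ?_
  rw [Zb_eq_ZbG, Zf_eq_ZfG]
  unfold ZbG ZfG
  simp only [hx, _root_.add_apply, ContinuousLinearMap.smulRight_apply, ContinuousLinearMap.apply_apply,
    map_add, map_smul, Complex.real_smul]
  have hI := Complex.I_mul_I
  linear_combination (((fderiv ℝ φ z (frY a j z) : ℝ) : ℂ) * L (frY a j z)) * hI

theorem we_integrable_ZfG {Ω : Set (CE ι)} (hΩ : IsOpen Ω) {a : ι → ι → CE ι → ℂ}
    (ha : ∀ j k, ContDiff ℝ ∞ (a j k)) {u : CE ι → ℂ} {G : CE ι → CE ι →L[ℝ] ℂ}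
    (hG : HasWeakFDeriv volume Ω u G) {w : CE ι → ℂ} (hw : IsTest Ω w) (j : ι) :
    Integrable (fun z => ZfG a j z (G z) * w z) := by
  have hT : ∀ k, IsTest Ω (fun y => conj (a j k y) * w y) := fun k =>
    IsTest.contDiff_mul (Complex.conjCLE.contDiff.comp (ha j k)) hw
  have L : ∀ z, ZfG a j z (G z) * w z
      = dz j (⇑(G z)) z * w z + ∑ k, dzb k (⇑(G z)) z * (conj (a j k z) * w z) := by
    intro z
    rw [we_ZfG_eq, add_mul, Finset.sum_mul]
    congr 1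
    exact Finset.sum_congr rfl fun k _ => by ring
  simp only [L]
  exact (we_integrable_dz hΩ hG hw j).add (integrable_finsetSum _ fun k _ => we_integrable_dzb hΩ hG (hT k) k)

theorem we_integrable_ZbG {Ω : Set (CE ι)} (hΩ : IsOpen Ω) {a : ι → ι → CE ι → ℂ}
    (ha : ∀ j k, ContDiff ℝ ∞ (a j k)) {u : CE ι → ℂ} {G : CE ι → CE ι →L[ℝ] ℂ}
    (hG : HasWeakFDeriv volume Ω u G) {w : CE ι → ℂ} (hw : IsTest Ω w) (j : ι) :
    Integrable (fun z => ZbG a j z (G z) * w z) := by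
  have hT : ∀ k, IsTest Ω (fun y => a j k y * w y) := fun k => IsTest.contDiff_mul (ha j k) hw
  have L : ∀ z, ZbG a j z (G z) * w z
      = dzb j (⇑(G z)) z * w z + ∑ k, dz k (⇑(G z)) z * (a j k z * w z) := by
    intro z
    rw [we_ZbG_eq, add_mul, Finset.sum_mul]
    congr 1
    exact Finset.sum_congr rfl fun k _ => by ring
  simp only [L]
  exact (we_integrable_dzb hΩ hG hw j).add (integrable_finsetSum _ fun k _ => we_integrable_dz hΩ hG (hT k) k)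

/-- smooth function times test function. -/
theorem we_integrable_mul {Ω : Set (CE ι)} (hΩ : IsOpen Ω) {w b : CE ι → ℂ} (hw : IsTest Ω w)
    (hb : ContDiffOn ℝ ∞ b Ω) : Integrable (fun z => b z * w z) := by
  have h := (hw.mul_contDiffOn hΩ hb).integrable
  have e : (fun z => b z * w z) = fun z => w z * b z := by
    funext z
    ring
  rw [e]
  exact h

/-- `lowC` is half the sum of the differences of the two second order transposes. -/
theorem we_lowC_eq {a : ι → ι → CE ι → ℂ} (ha : ∀ j k, ContDiff ℝ ∞ (a j k)) {Φ : CE ι → ℂ}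
    (hΦ : ContDiff ℝ ∞ Φ) (z : CE ι) :
    lowC a Φ z = (1 / 2 : ℂ) * ∑ j, (Zft a j (Zb a j Φ) z - Zbt a j (Zf a j Φ) z) := by
  unfold lowC
  congr 1
  refine Finset.sum_congr rfl fun j _ => ?_
  have h := Zf_Zb_sub_general (a := a) (j := j) (k := j) (u := Φ) (z := z)
    (fun j k => (ha j k).differentiable (by simp) z) (hΦ.contDiffAt.of_le (by norm_cast))
  unfold Zft Zbt
  linear_combination h

/-- **the second order weak equation.** -/
theorem weak_second_order {Ω : Set (CE ι)} (hΩ : IsOpen Ω) {a : ι → ι → CE ι → ℂ}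
    (ha : ∀ j k, ContDiff ℝ ∞ (a j k)) {u : CE ι → ℂ} (hu2 : L2Loc volume Ω u)
    {G : CE ι → CE ι →L[ℝ] ℂ} (hG : HasWeakFDeriv volume Ω u G) (hG2 : L2Loc volume Ω G)
    {g : ι → CE ι → ℂ} (hg : ∀ j, ContDiffOn ℝ ∞ (g j) Ω) (hw : WeakZb Ω a u g)
    (hGg : ∀ j, ∀ᵐ z ∂(volume.restrict Ω), ZbG a j z (G z) = g j z)
    {φ : CE ι → ℝ} (hφ : Claimed.Agent.Lib.Sob.IsTest Ω φ) :
    ∫ z, G z (prA a z (fderiv ℝ φ z))
      = (∫ z, φ z • (- ∑ j, (Zf a j (g j) z + sg a j z * g j z))) + ∫ z, u z * lowC a (cx φ) z := by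
  have hu : LocallyIntegrableOn u Ω := (hG 0).1
  set Φ := cx φ with hΦdef
  have hΦ : IsTest Ω Φ := we_isTest_cx hφ
  have hWb : ∀ j, IsTest Ω (Zb a j Φ) := fun j => isTest_Zb ha hΦ
  have hWf : ∀ j, IsTest Ω (Zf a j Φ) := fun j => isTest_Zf ha hΦ
  have hA : ∀ j, ∫ z, ZfG a j z (G z) * Zb a j Φ z = ∫ z, u z * Zft a j (Zb a j Φ) z := fun j =>
    weak_ibp_Zf hΩ ha hG (hWb j) j
  have hC : ∀ j, ∫ z, ZbG a j z (G z) * Zf a j Φ z = ∫ z, g j z * Zf a j Φ z := by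
    intro j
    refine integral_congr_ae ?_
    filter_upwards [(ae_restrict_iff' hΩ.measurableSet).1 (hGg j)] with z hz
    by_cases hzΩ : z ∈ Ω
    · rw [hz hzΩ]
    · rw [(hWf j).eq_zero_of_notMem hzΩ, mul_zero, mul_zero]
  have hB : ∀ j, ∫ z, u z * Zbt a j (Zf a j Φ) z = ∫ z, g j z * Zf a j Φ z := fun j => hw _ (hWf j) j
  have hσg : ∀ j, ContDiffOn ℝ ∞ (fun z => sg a j z * g j z) Ω := fun j =>
    (contDiff_sg ha).contDiffOn.mul (hg j)
  have hD : ∀ j, ∫ z, g j z * Zf a j Φ z = - ∫ z, (Zf a j (g j) z + sg a j z * g j z) * Φ z := by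
    intro j
    have h1 := integral_Zf_mul (j := j) ha hΩ hΦ (hg j)
    have e : ∀ z, g j z * Zft a j Φ z = - (g j z * Zf a j Φ z) - (sg a j z * g j z) * Φ z := by
      intro z
      unfold Zft
      ring
    simp only [e] at h1
    have K1 : Integrable (fun z => - (g j z * Zf a j Φ z)) := (we_integrable_mul hΩ (hWf j) (hg j)).neg
    rw [integral_sub K1 (we_integrable_mul hΩ hΦ (hσg j)), integral_neg] at h1
    have e2 : ∀ z, (Zf a j (g j) z + sg a j z * g j z) * Φ z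
        = Zf a j (g j) z * Φ z + (sg a j z * g j z) * Φ z := fun z => by ring
    simp only [e2]
    rw [integral_add (we_integrable_mul hΩ hΦ (contDiffOn_Zf ha hΩ (hg j))) (we_integrable_mul hΩ hΦ (hσg j))]
    linear_combination h1
  have e1 : ∀ z, G z (prA a z (fderiv ℝ φ z))
      = (1 / 2 : ℂ) * ∑ j, (ZfG a j z (G z) * Zb a j Φ z + ZbG a j z (G z) * Zf a j Φ z) := by
    intro z
    rw [apply_prA a z (G z) φ (hφ.smooth.differentiable (by simp) z)]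
    congr 1
    exact Finset.sum_congr rfl fun j _ => by ring
  have e2 : ∀ z, φ z • (- ∑ j, (Zf a j (g j) z + sg a j z * g j z))
      = - ∑ j, (Zf a j (g j) z + sg a j z * g j z) * Φ z := by
    intro z
    rw [Complex.real_smul, mul_neg, Finset.mul_sum]
    congr 1
    exact Finset.sum_congr rfl fun j _ => mul_comm _ _
  have e3 : ∀ z, u z * lowC a Φ z
      = (1 / 2 : ℂ) * ∑ j, (u z * Zft a j (Zb a j Φ) z - u z * Zbt a j (Zf a j Φ) z) := by
    intro z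
    rw [we_lowC_eq ha hΦ.smooth, Finset.mul_sum, Finset.mul_sum, Finset.mul_sum]
    exact Finset.sum_congr rfl fun j _ => by ring
  have J1 : ∀ j, Integrable (fun z => ZfG a j z (G z) * Zb a j Φ z) := fun j =>
    we_integrable_ZfG hΩ ha hG (hWb j) j
  have J2 : ∀ j, Integrable (fun z => ZbG a j z (G z) * Zf a j Φ z) := fun j =>
    we_integrable_ZbG hΩ ha hG (hWf j) j
  have J3 : ∀ j, Integrable (fun z => (Zf a j (g j) z + sg a j z * g j z) * Φ z) := fun j =>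
    we_integrable_mul hΩ hΦ ((contDiffOn_Zf ha hΩ (hg j)).add (hσg j))
  have J4 : ∀ j, Integrable (fun z => u z * Zft a j (Zb a j Φ) z) := fun j =>
    (isTest_Zft ha (hWb j)).integrable_mul_left hΩ hu
  have J5 : ∀ j, Integrable (fun z => u z * Zbt a j (Zf a j Φ) z) := fun j =>
    (isTest_Zbt ha (hWf j)).integrable_mul_left hΩ hu
  have J12 : ∀ j ∈ (Finset.univ : Finset ι),
      Integrable (fun z => ZfG a j z (G z) * Zb a j Φ z + ZbG a j z (G z) * Zf a j Φ z) := fun j _ =>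
    (J1 j).add (J2 j)
  have J45 : ∀ j ∈ (Finset.univ : Finset ι),
      Integrable (fun z => u z * Zft a j (Zb a j Φ) z - u z * Zbt a j (Zf a j Φ) z) := fun j _ =>
    (J4 j).sub (J5 j)
  simp only [e1, e2, e3]
  rw [integral_const_mul, integral_const_mul, integral_neg,
    integral_finsetSum _ J12, integral_finsetSum _ fun j _ => J3 j, integral_finsetSum _ J45]
  simp only [integral_add (J1 _) (J2 _), integral_sub (J4 _) (J5 _), hA, hB, hC, hD,
    Finset.sum_add_distrib, Finset.sum_sub_distrib, Finset.sum_neg_distrib]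
  ring

end Claimed.Agent.R316.B4

end SecWeakEq

/-!
# Row 316, B4-Regular: weak `L²` solutions of `Z̄ u = g` with smooth `g` are smooth

`smooth_of_second_order` (packaging for `Lib.Sob.smooth_of_weakSol`, `E = CE ι`, `F = ℂ`, `μ = volume`):
* `A = prA a`: smooth (`frX a j`, `frY a j` are smooth; `ContinuousLinearMap.apply`, `smulRight` are bounded (bi)linear: `ContDiff.clm_apply`, `IsBoundedBilinearMap.contDiff`, or write `prA` through
  `ContinuousLinearMap.smulRightL`), elliptic: `ξ (prA a z ξ) = ∑_j ξ(X_j)² + ξ(Y_j)² > 0` for `ξ ≠ 0`: if all `ξ(X_j) = ξ(Y_j) = 0` then with `ζ_j = ξ(e_j) - i ξ(i e_j)`…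
  concretely `ξ(e_j + A_j) = 0 = ξ(i(e_j - A_j))`; put `c_j = ξ(e_j) - i ξ(i e_j) ∈ ℂ` so that `ξ(λ e_j) = Re(λ c_j)`; the two equations say `\bar c_j + ∑_k a_{jk} c_k = 0`, hence
  `∑|c_j|² ≤ (∑|a_{jk}|²) ∑|c_k|² ≤ ¼ ∑|c_k|²`, `c = 0`, `ξ = 0` (`CE_eq_sum`).
* `f = - ∑ (Z_j g_j + σ_j g_j)` smooth on `Ω`; `b = 0`, `c = 0`, `H = 0`;
* `d z y ξ = y * λ_z(ξ)`, where `λ_z : (CE ι →L[ℝ] ℝ) →L[ℝ] ℂ` is the covector form of `lowC`:  `dz l (cx φ) z = ½ (dφ(e_l) - i dφ(i e_l))`, `dzb l (cx φ) z = ½ (dφ(e_l) + i dφ(i e_l))`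
  (`dz_def`, `fderiv_ofReal_apply`), so `lowC a (cx φ) z = λ_z (fderiv ℝ φ z)` with `λ_z = ∑_l (c_l(z) • E_l + c'_l(z) • E'_l)`, `E_l ξ = (ξ e_l : ℂ)`, `E'_l ξ = (ξ (i e_l) : ℂ)`, `c_l, c'_l` smooth.
* `IsWeakSol` is `weak_second_order`.

`Zb_eq_of_weakZb`: for smooth `u`: `∫ (Z̄_j u - g_j) w = 0` for all test `w` (`integral_Zb_mul`), so `Z̄_j u = g_j` a.e. (`IsOpen.ae_eq_zero_of_integral_contDiff_smul_eq_zero`, real and imaginary test functions) and everywhere on `Ω`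
by continuity (`MeasureTheory.Measure.eqOn_open_of_ae_eq` / `Lib.Sob.eqOn_of_ae_eq`).
-/

section SecRegular
set_option maxSynthPendingDepth 6
set_option linter.unusedSectionVars false
set_option linter.unusedVariables false
open scoped ContDiff ComplexOrder ComplexConjugate Topology
open MeasureTheory Filter
open Claimed.Agent.R316.B6E (IsTest IsTestForm cx L2w)
open Claimed.Agent.Lib.Sob (HasWeakFDeriv L2Loc)

namespace Claimed.Agent.R316.B4

variable {ι : Type} [Fintype ι] [DecidableEq ι]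

theorem contDiff_frX {a : ι → ι → CE ι → ℂ} (ha : ∀ j k, ContDiff ℝ ∞ (a j k)) (j : ι) :
    ContDiff ℝ ∞ (frX a j) := by
  unfold frX
  exact (contDiff_const.add (ContDiff.sum fun k _ => (ha j k).smul contDiff_const)).const_smul _

theorem contDiff_frY {a : ι → ι → CE ι → ℂ} (ha : ∀ j k, ContDiff ℝ ∞ (a j k)) (j : ι) :
    ContDiff ℝ ∞ (frY a j) := by
  unfold frY
  exact ((contDiff_const.sub (ContDiff.sum fun k _ => (ha j k).smul contDiff_const)).const_smul _).const_smul _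

/-- `v ↦ (ξ ↦ ξ v • v)` along a smooth vector field. -/
theorem rg_contDiff_sq {X : CE ι → CE ι} (hX : ContDiff ℝ ∞ X) :
    ContDiff ℝ ∞ (fun z => (ContinuousLinearMap.apply ℝ ℝ (X z)).smulRight (X z)) := by
  have h1 : ContDiff ℝ ∞ (fun z => ContinuousLinearMap.smulRightL ℝ (CE ι →L[ℝ] ℝ) (CE ι)
      (ContinuousLinearMap.apply ℝ ℝ (X z))) :=
    (ContinuousLinearMap.smulRightL ℝ (CE ι →L[ℝ] ℝ) (CE ι)).contDiff.comp
      ((ContinuousLinearMap.apply ℝ ℝ).contDiff.comp hX)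
  exact h1.clm_apply hX

theorem contDiff_prA {a : ι → ι → CE ι → ℂ} (ha : ∀ j k, ContDiff ℝ ∞ (a j k)) :
    ContDiff ℝ ∞ (prA a) := by
  unfold prA
  exact ContDiff.sum fun j _ => (rg_contDiff_sq (contDiff_frX ha j)).add (rg_contDiff_sq (contDiff_frY ha j))

theorem rg_apply_prA (a : ι → ι → CE ι → ℂ) (z : CE ι) (ξ : CE ι →L[ℝ] ℝ) :
    ξ (prA a z ξ) = ∑ j, (ξ (frX a j z) ^ 2 + ξ (frY a j z) ^ 2) := by
  unfold prA
  rw [_root_.sum_apply, map_sum]
  refine Finset.sum_congr rfl fun j _ => ?_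
  simp only [_root_.add_apply, ContinuousLinearMap.smulRight_apply, ContinuousLinearMap.apply_apply,
    map_add, map_smul, smul_eq_mul]
  ring

theorem prA_elliptic {a : ι → ι → CE ι → ℂ} {z : CE ι}
    (hsmall : ∑ j, ∑ k, ‖a j k z‖ ^ 2 ≤ 1 / 4) (ξ : CE ι →L[ℝ] ℝ) (hξ : ξ ≠ 0) :
    0 < ξ (prA a z ξ) := by
  rw [rg_apply_prA]
  by_contra hcon
  have hnn : ∀ j ∈ (Finset.univ : Finset ι), 0 ≤ ξ (frX a j z) ^ 2 + ξ (frY a j z) ^ 2 :=
    fun j _ => by positivity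
  have h0 : ∑ j, (ξ (frX a j z) ^ 2 + ξ (frY a j z) ^ 2) = 0 :=
    le_antisymm (not_lt.1 hcon) (Finset.sum_nonneg hnn)
  have h1 := (Finset.sum_eq_zero_iff_of_nonneg hnn).1 h0
  have hX : ∀ j, ξ (frX a j z) = 0 := fun j => by
    have := h1 j (Finset.mem_univ j)
    have h2 : ξ (frX a j z) ^ 2 = 0 := by nlinarith [sq_nonneg (ξ (frX a j z)), sq_nonneg (ξ (frY a j z))]
    exact pow_eq_zero_iff (two_ne_zero) |>.1 h2
  have hY : ∀ j, ξ (frY a j z) = 0 := fun j => by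
    have := h1 j (Finset.mem_univ j)
    have h2 : ξ (frY a j z) ^ 2 = 0 := by nlinarith [sq_nonneg (ξ (frX a j z)), sq_nonneg (ξ (frY a j z))]
    exact pow_eq_zero_iff (two_ne_zero) |>.1 h2
  set L : CE ι →L[ℝ] ℂ := Complex.ofRealCLM.comp ξ with hL
  have hLv : ∀ v, L v = ((ξ v : ℝ) : ℂ) := fun v => rfl
  have hZ : ∀ j, ZbG a j z L = 0 := by
    intro j
    unfold ZbG
    rw [hLv, hLv, hX, hY]
    simp
  set d : ι → ℂ := fun k => dz k (⇑L) z with hd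
  have hdb : ∀ j, dzb j (⇑L) z = conj (d j) := fun j => dzb_ofReal (fun w => ξ w)
  have hrel : ∀ j, conj (d j) = - ∑ k, a j k z * d k := by
    intro j
    have := hZ j
    rw [we_ZbG_eq, hdb] at this
    linear_combination this
  have hnorm : ∀ j, ‖d j‖ ^ 2 ≤ (∑ k, ‖a j k z‖ ^ 2) * ∑ k, ‖d k‖ ^ 2 := by
    intro j
    have e : ‖d j‖ = ‖∑ k, a j k z * d k‖ := by
      rw [← RCLike.norm_conj (d j), hrel j, norm_neg]
    rw [e]
    have h3 : ‖∑ k, a j k z * d k‖ ≤ ∑ k, ‖a j k z‖ * ‖d k‖ :=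
      (norm_sum_le _ _).trans (le_of_eq (Finset.sum_congr rfl fun k _ => norm_mul _ _))
    calc ‖∑ k, a j k z * d k‖ ^ 2 ≤ (∑ k, ‖a j k z‖ * ‖d k‖) ^ 2 := pow_le_pow_left₀ (norm_nonneg _) h3 2
      _ ≤ _ := Finset.sum_mul_sq_le_sq_mul_sq _ _ _
  have hD0 : 0 ≤ ∑ k, ‖d k‖ ^ 2 := Finset.sum_nonneg fun k _ => by positivity
  have hD : ∑ k, ‖d k‖ ^ 2 ≤ (1 / 4) * ∑ k, ‖d k‖ ^ 2 := by
    calc ∑ j, ‖d j‖ ^ 2 ≤ ∑ j, (∑ k, ‖a j k z‖ ^ 2) * ∑ k, ‖d k‖ ^ 2 := Finset.sum_le_sum fun j _ => hnorm j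
      _ = (∑ j, ∑ k, ‖a j k z‖ ^ 2) * ∑ k, ‖d k‖ ^ 2 := by rw [Finset.sum_mul]
      _ ≤ (1 / 4) * ∑ k, ‖d k‖ ^ 2 := mul_le_mul_of_nonneg_right hsmall hD0
  have hD' : ∑ k, ‖d k‖ ^ 2 = 0 := by linarith
  have hdz : ∀ k, d k = 0 := by
    intro k
    have := (Finset.sum_eq_zero_iff_of_nonneg (fun k _ => by positivity)).1 hD' k (Finset.mem_univ k)
    exact norm_eq_zero.1 (pow_eq_zero_iff (two_ne_zero) |>.1 this)
  apply hξ
  ext v
  have hv := fderiv_eq_sum (f := ⇑L) (z := z) v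
  rw [L.fderiv] at hv
  have hz0 : ∀ j, dz j (⇑L) z = 0 := hdz
  simp only [hdb, hz0, hdz, map_zero, zero_mul, add_zero, Finset.sum_const_zero] at hv
  rw [hLv] at hv
  exact_mod_cast hv

/-- `ξ ↦ (ξ v : ℂ)`. -/
noncomputable def rgE (v : CE ι) : (CE ι →L[ℝ] ℝ) →L[ℝ] ℂ :=
  Complex.ofRealCLM.comp (ContinuousLinearMap.apply ℝ ℝ v)

/-- covector form of `dz l`. -/
noncomputable def rgDz (l : ι) : (CE ι →L[ℝ] ℝ) →L[ℝ] ℂ :=
  (1 / 2 : ℂ) • (rgE (eb l) - Complex.I • rgE (Complex.I • eb l))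

/-- covector form of `dzb l`. -/
noncomputable def rgDzb (l : ι) : (CE ι →L[ℝ] ℝ) →L[ℝ] ℂ :=
  (1 / 2 : ℂ) • (rgE (eb l) + Complex.I • rgE (Complex.I • eb l))

theorem rgDz_apply {φ : CE ι → ℝ} {z : CE ι} (hφ : DifferentiableAt ℝ φ z) (l : ι) :
    rgDz l (fderiv ℝ φ z) = dz l (cx φ) z := by
  have hx : ∀ v, fderiv ℝ (cx φ) z v = ((fderiv ℝ φ z v : ℝ) : ℂ) := fun v => fderiv_ofReal_apply hφ v
  rw [dz_def, hx, hx]
  rfl

theorem rgDzb_apply {φ : CE ι → ℝ} {z : CE ι} (hφ : DifferentiableAt ℝ φ z) (l : ι) :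
    rgDzb l (fderiv ℝ φ z) = dzb l (cx φ) z := by
  have hx : ∀ v, fderiv ℝ (cx φ) z v = ((fderiv ℝ φ z v : ℝ) : ℂ) := fun v => fderiv_ofReal_apply hφ v
  rw [dzb_def, hx, hx]
  rfl

/-- covector form of `lowC`. -/
noncomputable def rgLam (a : ι → ι → CE ι → ℂ) (z : CE ι) : (CE ι →L[ℝ] ℝ) →L[ℝ] ℂ :=
  (1 / 2 : ℂ) • ∑ j, (conj (sg a j z) • (rgDz j + ∑ k, conj (a j k z) • rgDzb k)
    - sg a j z • (rgDzb j + ∑ k, a j k z • rgDz k)
    - ∑ l, Zf a j (a j l) z • rgDz l + ∑ l, Zb a j (fun y => conj (a j l y)) z • rgDzb l)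

theorem rgLam_apply (a : ι → ι → CE ι → ℂ) {φ : CE ι → ℝ} {z : CE ι} (hφ : DifferentiableAt ℝ φ z) :
    rgLam a z (fderiv ℝ φ z) = lowC a (cx φ) z := by
  have hZf : ∀ j, Zf a j (cx φ) z = dz j (cx φ) z + ∑ k, conj (a j k z) * dzb k (cx φ) z := fun _ => rfl
  have hZb : ∀ j, Zb a j (cx φ) z = dzb j (cx φ) z + ∑ k, a j k z * dz k (cx φ) z := fun _ => rfl
  unfold rgLam lowC
  simp only [hZf, hZb, _root_.smul_apply, _root_.sum_apply, _root_.add_apply, _root_.sub_apply,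
    rgDz_apply hφ, rgDzb_apply hφ, smul_eq_mul]

theorem contDiff_rgLam {a : ι → ι → CE ι → ℂ} (ha : ∀ j k, ContDiff ℝ ∞ (a j k)) :
    ContDiff ℝ ∞ (rgLam a) := by
  unfold rgLam
  refine ContDiff.const_smul _ (ContDiff.sum fun j _ => ?_)
  have hs : ContDiff ℝ ∞ (sg a j) := contDiff_sg ha
  have hcs : ContDiff ℝ ∞ (fun z => conj (sg a j z)) := Complex.conjCLE.contDiff.comp hs
  have hca : ∀ k, ContDiff ℝ ∞ (fun z => conj (a j k z)) := fun k => Complex.conjCLE.contDiff.comp (ha j k)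
  have t1 : ContDiff ℝ ∞ (fun z => conj (sg a j z) • (rgDz j + ∑ k, conj (a j k z) • rgDzb k)) :=
    hcs.smul (contDiff_const.add (ContDiff.sum fun k _ => (hca k).smul contDiff_const))
  have t2 : ContDiff ℝ ∞ (fun z => sg a j z • (rgDzb j + ∑ k, a j k z • rgDz k)) :=
    hs.smul (contDiff_const.add (ContDiff.sum fun k _ => (ha j k).smul contDiff_const))
  have t3 : ContDiff ℝ ∞ (fun z => ∑ l, Zf a j (a j l) z • rgDz l) :=
    ContDiff.sum fun l _ => (contDiff_Zf ha (ha j l)).smul contDiff_const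
  have t4 : ContDiff ℝ ∞ (fun z => ∑ l, Zb a j (fun y => conj (a j l y)) z • rgDzb l) :=
    ContDiff.sum fun l _ => (contDiff_Zb ha (hca l)).smul contDiff_const
  exact ((t1.sub t2).sub t3).add t4

/-- packaging: the second order weak equation implies smoothness. -/
theorem smooth_of_second_order {Ω : Set (CE ι)} (hΩ : IsOpen Ω) {a : ι → ι → CE ι → ℂ}
    (ha : ∀ j k, ContDiff ℝ ∞ (a j k))
    (hsmall : ∀ z ∈ Ω, ∑ j, ∑ k, ‖a j k z‖ ^ 2 ≤ 1 / 4)
    {u : CE ι → ℂ} (hu2 : L2Loc volume Ω u)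
    {G : CE ι → CE ι →L[ℝ] ℂ} (hG : HasWeakFDeriv volume Ω u G) (hG2 : L2Loc volume Ω G)
    {f : CE ι → ℂ} (hf : ContDiffOn ℝ ∞ f Ω)
    (hsol : ∀ φ : CE ι → ℝ, Claimed.Agent.Lib.Sob.IsTest Ω φ →
      ∫ z, G z (prA a z (fderiv ℝ φ z)) = (∫ z, φ z • f z) + ∫ z, u z * lowC a (cx φ) z) :
    ∃ v : CE ι → ℂ, ContDiffOn ℝ ∞ v Ω ∧ ∀ᵐ z ∂(volume.restrict Ω), u z = v z := by
  set d : CE ι → ℂ →L[ℝ] ((CE ι →L[ℝ] ℝ) →L[ℝ] ℂ) := fun z =>
    (ContinuousLinearMap.lsmul ℝ ℂ : ℂ →L[ℝ] ((CE ι →L[ℝ] ℝ) →L[ℝ] ℂ) →L[ℝ] ((CE ι →L[ℝ] ℝ) →L[ℝ] ℂ)).flip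
      (rgLam a z) with hd
  have hdc : ContDiff ℝ ∞ d :=
    ((ContinuousLinearMap.lsmul ℝ ℂ :
      ℂ →L[ℝ] ((CE ι →L[ℝ] ℝ) →L[ℝ] ℂ) →L[ℝ] ((CE ι →L[ℝ] ℝ) →L[ℝ] ℂ)).flip).contDiff.comp (contDiff_rgLam ha)
  refine Claimed.Agent.Lib.Sob.smooth_of_weakSol volume hΩ (A := prA a) (b := fun _ => 0) (c := fun _ => 0)
    (d := d) (f := f) (H := fun _ => 0) (contDiff_prA ha).contDiffOn contDiffOn_const contDiffOn_const
    hdc.contDiffOn hf contDiffOn_const (fun x hx ξ hξ => prA_elliptic (hsmall x hx) ξ hξ) hG hu2 hG2 ?_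
  intro φ hφ
  rw [hsol φ hφ]
  congr 1
  · simp
  · refine integral_congr_ae (Eventually.of_forall fun z => ?_)
    show u z * lowC a (cx φ) z = ((0 : (CE ι →L[ℝ] ℝ) →L[ℝ] ℂ) + d z (u z)) (fderiv ℝ φ z)
    rw [zero_add, ← rgLam_apply a (hφ.smooth.differentiable (by simp) z)]
    rfl

/-- weak solutions only depend on the a.e. class on `Ω`. -/
theorem WeakZb.congr_ae {Ω : Set (CE ι)} {a : ι → ι → CE ι → ℂ} {u u' : CE ι → ℂ}
    {g : ι → CE ι → ℂ} (h : ∀ᵐ z ∂(volume.restrict Ω), u' z = u z) (hw : WeakZb Ω a u g) :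
    WeakZb Ω a u' g := by
  intro w hwt j
  rw [← hw w hwt j]
  refine integral_congr_ae ?_
  filter_upwards [(ae_restrict_iff' (isClosed_tsupport w).measurableSet).1
    (ae_restrict_of_ae_restrict_of_subset hwt.supp h)] with z hz
  by_cases hzs : z ∈ tsupport w
  · rw [hz hzs]
  · have : Zbt a j w z = 0 := by
      unfold Zbt
      rw [Zb_eq_zero_of_notMem_tsupport hzs, image_eq_zero_of_notMem_tsupport hzs]
      simp
    rw [this, mul_zero, mul_zero]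

/-- a smooth weak solution is a classical solution. -/
theorem Zb_eq_of_weakZb {Ω : Set (CE ι)} (hΩ : IsOpen Ω) {a : ι → ι → CE ι → ℂ}
    (ha : ∀ j k, ContDiff ℝ ∞ (a j k)) {u : CE ι → ℂ}
    (hu : ContDiffOn ℝ ∞ u Ω) {g : ι → CE ι → ℂ} (hg : ∀ j, ContinuousOn (g j) Ω)
    (hw : WeakZb Ω a u g) : ∀ z ∈ Ω, ∀ j, Zb a j u z = g j z := by
  intro z hz j
  have hc1 : ContinuousOn (Zb a j u) Ω := (contDiffOn_Zb ha hΩ hu).continuousOn
  have hc : ContinuousOn (fun y => Zb a j u y - g j y) Ω := hc1.sub (hg j)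
  have hloc : LocallyIntegrableOn (fun y => Zb a j u y - g j y) Ω volume :=
    hc.locallyIntegrableOn hΩ.measurableSet
  have hae : ∀ᵐ y ∂(volume : Measure (CE ι)), y ∈ Ω → Zb a j u y - g j y = 0 := by
    refine hΩ.ae_eq_zero_of_integral_contDiff_smul_eq_zero hloc fun φ h1 h2 h3 => ?_
    have hφ : IsTest Ω (cx φ) := we_isTest_cx ⟨h1, h2, h3⟩
    have k1 := integral_Zb_mul (j := j) ha hΩ hφ hu
    rw [hw _ hφ j] at k1
    have e : ∀ y, φ y • (Zb a j u y - g j y) = Zb a j u y * cx φ y - g j y * cx φ y := by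
      intro y
      rw [Complex.real_smul]
      unfold cx
      ring
    simp only [e]
    rw [integral_sub (hφ.integrable_mul_left hΩ (hc1.locallyIntegrableOn hΩ.measurableSet))
      (hφ.integrable_mul_left hΩ ((hg j).locallyIntegrableOn hΩ.measurableSet)), k1, sub_self]
  have heq : Set.EqOn (fun y => Zb a j u y - g j y) (fun _ => 0) Ω :=
    Measure.eqOn_open_of_ae_eq (μ := volume) ((ae_restrict_iff' hΩ.measurableSet).2 hae) hΩ hc
      continuousOn_const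
  exact sub_eq_zero.1 (heq hz)

/-- **interior regularity for `Z̄`.** -/
theorem weak_Zb_regular {Ω : Set (CE ι)} (hΩ : IsOpen Ω) {a : ι → ι → CE ι → ℂ}
    (ha : ∀ j k, ContDiff ℝ ∞ (a j k))
    (hsmall : ∀ z ∈ Ω, ∑ j, ∑ k, ‖a j k z‖ ^ 2 ≤ 1 / 4)
    {u : CE ι → ℂ} (hu : MemLp u 2 (volume.restrict Ω))
    {g : ι → CE ι → ℂ} (hg : ∀ j, ContDiffOn ℝ ∞ (g j) Ω) (hw : WeakZb Ω a u g) :
    ∃ ũ : CE ι → ℂ, ContDiffOn ℝ ∞ ũ Ω ∧ (∀ᵐ z ∂(volume.restrict Ω), ũ z = u z) ∧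
      ∀ z ∈ Ω, ∀ j, Zb a j ũ z = g j z := by
  have hgl : ∀ j, L2Loc volume Ω (g j) := fun j =>
    Claimed.Agent.Lib.Sob.l2Loc_of_continuousOn (hg j).continuousOn
  have hu2 : L2Loc volume Ω u := fun K _ hKΩ => hu.mono_measure (Measure.restrict_mono hKΩ le_rfl)
  obtain ⟨G, hG, hG2, hGg⟩ := weakZb_H1 hΩ ha hsmall hu hgl hw
  have hf : ContDiffOn ℝ ∞ (fun z => - ∑ j, (Zf a j (g j) z + sg a j z * g j z)) Ω :=
    (ContDiffOn.sum fun j _ => (contDiffOn_Zf ha hΩ (hg j)).add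
      ((contDiff_sg ha).contDiffOn.mul (hg j))).neg
  obtain ⟨v, hv, huv⟩ := smooth_of_second_order hΩ ha hsmall hu2 hG hG2 hf
    (fun φ hφ => weak_second_order hΩ ha hu2 hG hG2 hg hw hGg hφ)
  have hvu : ∀ᵐ z ∂(volume.restrict Ω), v z = u z := huv.mono fun z hz => hz.symm
  exact ⟨v, hv, hvu, Zb_eq_of_weakZb hΩ ha hv (fun j => (hg j).continuousOn) (hw.congr_ae hvu)⟩

end Claimed.Agent.R316.B4

end SecRegular
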