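import Claimed.Agent.R316.B4.BKH
import Claimed.Agent.R316.Pack004
import Claimed.Agent.R316.Pack007

set_option autoImplicit false

/-!
# Row 316, B4-NormSqF: `‖z‖²` and `log(‖z‖² + ε)` are (almost) plurisubharmonic for a frame with `a = O(|z|²)`

`s(z) = ‖z‖²`, `n = card ι`, `|v|² = ∑ ‖v_j‖²`.  Hypothesis `Van2 R K a α`: on `ball 0 R`:  `|a_{jk}| ≤ K|z|²`, `|∂_l a_{jk}|, |∂̄_l a_{jk}| ≤ K|z|`, `|α_{jkl}| ≤ K|z|`.
* `gradF_normSq`: `Z_j s = \bar z_j + e_j`, `e_j = ∑_k \bar a_{jk} z_k`, `|e_j| ≤ K √n |z|³`, so `(∑|e_j|²)^{1/2} ≤ K n |z|³`.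
  `|∑ Z_j s v_j| ≤ |z||v| (1 + K n |z|²)`;  `∑ |Z_j s|² ≤ |z|² (1 + K n |z|²)² ≤ 4|z|²` if `K n |z|² ≤ 1`.
* `leviF a α s z k j = Z̄_k(\bar z_j) + ∑_m [(Z̄_k \bar a_{jm}) z_m + \bar a_{jm} Z̄_k z_m] + ∑_l α_{jkl} Z_l s = δ_{kj} + E_{kj}` (`Zb_conj_coord`, `Zb_coord`, `Zb_mul`, `Zb_sum`, `Zb_conj`),
  `|Z̄_k \bar a_{jm}| = |Z_k a_{jm}| ≤ K|z| (1 + n K |z|²)`, hence `|E_{kj}| ≤ K'|z|²` for `|z| ≤ 1`; `|qf E v| ≤ n K' |z|² |v|²` (`qf_eq_sum`).
* `log`: `χ(t) = log(t+ε)`, `χ' = 1/(t+ε)`, `χ'' = -1/(t+ε)²`; by `qf_leviF_comp_real`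
  `qf (leviF (χ∘s)) v ≥ |v|² [(1 - K₁ s)(s+ε) - s (1 + K₁ s)]/(s+ε)² = |v|² [ε - K₁ s ε - 2 K₁ s²]/(s+ε)² ≥ - 2 K₁ |v|²`.
-/

section SecNormSqF
set_option linter.unusedSectionVars false
open scoped ContDiff ComplexOrder ComplexConjugate Topology
open Claimed.Agent.R316.B6E (IsTest IsTestForm cx L2w)

namespace Claimed.Agent.R316.B4

variable {ι : Type} [Fintype ι] [DecidableEq ι]

/-- the frame is standard at `0` to second order. -/
structure Van2 (R K : ℝ) (a : ι → ι → CE ι → ℂ) (α : ι → ι → ι → CE ι → ℂ) : Prop where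
  a_le : ∀ z ∈ Metric.ball (0 : CE ι) R, ∀ j k, ‖a j k z‖ ≤ K * ‖z‖ ^ 2
  dz_le : ∀ z ∈ Metric.ball (0 : CE ι) R, ∀ j k l, ‖dz l (a j k) z‖ ≤ K * ‖z‖
  dzb_le : ∀ z ∈ Metric.ball (0 : CE ι) R, ∀ j k l, ‖dzb l (a j k) z‖ ≤ K * ‖z‖
  α_le : ∀ z ∈ Metric.ball (0 : CE ι) R, ∀ j k l, ‖α j k l z‖ ≤ K * ‖z‖

/-- a sum of `card ι` terms of norm `≤ B`. -/
theorem norm_sum_le_card_mul {x : ι → ℂ} {B : ℝ} (h : ∀ m, ‖x m‖ ≤ B) :
    ‖∑ m, x m‖ ≤ (Fintype.card ι : ℝ) * B := by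
  refine (norm_sum_le_of_le _ fun m _ => h m).trans (le_of_eq ?_)
  rw [Finset.sum_const, Finset.card_univ, nsmul_eq_mul]

/-- the Levi matrix of `‖z‖²`. -/
theorem leviF_normSq_apply {a : ι → ι → CE ι → ℂ} {α : ι → ι → ι → CE ι → ℂ}
    (ha : ∀ j k, ContDiff ℝ ∞ (a j k)) (z : CE ι) (k j : ι) :
    leviF a α (fun y => ‖y‖ ^ 2) z k j = (1 : Matrix ι ι ℂ) k j
      + (∑ m, (conj (Zf a k (a j m) z) * z m + conj (a j m z) * a k m z)
        + ∑ l, α j k l z * gradF a (fun y => ‖y‖ ^ 2) z l) := by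
  have hg : (fun y => gradF a (fun w : CE ι => ‖w‖ ^ 2) y j)
      = fun y => conj (y j) + ∑ m, conj (a j m y) * y m := funext fun y => gradF_normSq
  have dc : ∀ m, DifferentiableAt ℝ (fun y => conj (a j m y)) z := fun m =>
    differentiableAt_conj ((ha j m).differentiable (by simp) z)
  have dm : ∀ m, DifferentiableAt ℝ (fun y : CE ι => conj (a j m y) * y m) z := fun m =>
    (dc m).mul differentiableAt_coord
  rw [leviF_apply, hg, Zb_add (differentiableAt_conj differentiableAt_coord)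
    (DifferentiableAt.fun_sum fun m _ => dm m), Zb_conj_coord, Zb_sum _ _ fun m _ => dm m,
    Matrix.one_apply]
  simp only [fun m => Zb_mul (a := a) (j := k) (dc m) (differentiableAt_coord (k := m) (z := z)),
    Zb_conj, Zb_coord]
  ring

/-- real-variable bookkeeping for `normSqF_estimates`. -/
theorem normSqF_real_aux1 {x w t V M K₁ : ℝ} (ht0 : 0 ≤ t) (ht1 : t ≤ 1) (hV0 : 0 ≤ V)
    (hM0 : 0 ≤ M) (hx : x ^ 2 ≤ t ^ 2 * V) (hw2 : w ^ 2 ≤ M * t ^ 2 * V) (hK : 1 + 2 * M ≤ K₁) :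
    (x + t ^ 2 * w) ^ 2 ≤ t ^ 2 * (1 + K₁ * t ^ 2) * V := by
  have ht42 : t ^ 4 ≤ t ^ 2 := pow_le_pow_of_le_one ht0 ht1 (by norm_num)
  have h3 : (x + t ^ 2 * w) ^ 2 ≤ x ^ 2 + t ^ 2 * (x ^ 2 + w ^ 2) + t ^ 4 * w ^ 2 := by
    have h : 0 ≤ t ^ 2 * (x - w) ^ 2 := by positivity
    have e : x ^ 2 + t ^ 2 * (x ^ 2 + w ^ 2) + t ^ 4 * w ^ 2 - (x + t ^ 2 * w) ^ 2
        = t ^ 2 * (x - w) ^ 2 := by ring
    linarith
  have h4 : x ^ 2 + t ^ 2 * (x ^ 2 + w ^ 2) + t ^ 4 * w ^ 2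
      ≤ t ^ 2 * V + t ^ 2 * (t ^ 2 * V + M * t ^ 2 * V) + t ^ 4 * (M * t ^ 2 * V) := by
    have a1 : t ^ 2 * (x ^ 2 + w ^ 2) ≤ t ^ 2 * (t ^ 2 * V + M * t ^ 2 * V) :=
      mul_le_mul_of_nonneg_left (by linarith) (by positivity)
    have a2 : t ^ 4 * w ^ 2 ≤ t ^ 4 * (M * t ^ 2 * V) :=
      mul_le_mul_of_nonneg_left hw2 (by positivity)
    linarith
  have h5 : t ^ 2 * V + t ^ 2 * (t ^ 2 * V + M * t ^ 2 * V) + t ^ 4 * (M * t ^ 2 * V)
      ≤ t ^ 2 * (1 + K₁ * t ^ 2) * V := by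
    have a1 : t ^ 4 * (M * t ^ 2 * V) ≤ t ^ 2 * (M * t ^ 2 * V) :=
      mul_le_mul_of_nonneg_right ht42 (by positivity)
    have a2 : (1 + 2 * M) * (t ^ 2 * (t ^ 2 * V)) ≤ K₁ * (t ^ 2 * (t ^ 2 * V)) :=
      mul_le_mul_of_nonneg_right hK (by positivity)
    have e1 : t ^ 2 * V + t ^ 2 * (t ^ 2 * V + M * t ^ 2 * V) + t ^ 2 * (M * t ^ 2 * V)
        = t ^ 2 * V + (1 + 2 * M) * (t ^ 2 * (t ^ 2 * V)) := by ring
    have e2 : t ^ 2 * (1 + K₁ * t ^ 2) * V = t ^ 2 * V + K₁ * (t ^ 2 * (t ^ 2 * V)) := by ring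
    linarith
  exact h3.trans (h4.trans h5)

/-- real-variable bookkeeping for `normSqF_estimates`. -/
theorem normSqF_real_aux2 {x y b : ℝ} (hx : 0 ≤ x) (h : x ≤ y + b) :
    x ^ 2 ≤ 2 * y ^ 2 + 2 * b ^ 2 := by
  have a2 := pow_le_pow_left₀ hx h 2
  have e : 2 * y ^ 2 + 2 * b ^ 2 - (y + b) ^ 2 = (y - b) ^ 2 := by ring
  have := sq_nonneg (y - b)
  linarith

/-- a double sum with a constant in the middle. -/
theorem sum_sum_mul_const_mul (x : ι → ℝ) (c : ℝ) :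
    ∑ j, ∑ k, x j * c * x k = c * (∑ j, x j) ^ 2 := by
  rw [sq, Finset.sum_mul_sum, Finset.mul_sum]
  refine Finset.sum_congr rfl fun j _ => ?_
  rw [Finset.mul_sum]
  exact Finset.sum_congr rfl fun k _ => by ring

/-- **estimates for `‖z‖²`.** -/
theorem normSqF_estimates {a : ι → ι → CE ι → ℂ} {α : ι → ι → ι → CE ι → ℂ}
    (ha : ∀ j k, ContDiff ℝ ∞ (a j k)) {R K : ℝ} (hR : 0 < R) (hK : 0 ≤ K) (hV : Van2 R K a α) :
    ∃ (R₂ K₁ : ℝ), 0 < R₂ ∧ R₂ ≤ R ∧ 0 ≤ K₁ ∧ ∀ z ∈ Metric.ball (0 : CE ι) R₂,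
      (∀ v : ι → ℂ, (1 - K₁ * ‖z‖ ^ 2) * ∑ j, ‖v j‖ ^ 2 ≤ qf (leviF a α (fun y => ‖y‖ ^ 2) z) v) ∧
      (∀ v : ι → ℂ, ‖∑ j, gradF a (fun y => ‖y‖ ^ 2) z j * v j‖ ^ 2
        ≤ ‖z‖ ^ 2 * (1 + K₁ * ‖z‖ ^ 2) * ∑ j, ‖v j‖ ^ 2) ∧
      ∑ j, ‖gradF a (fun y => ‖y‖ ^ 2) z j‖ ^ 2 ≤ 4 * ‖z‖ ^ 2 := by
  set N : ℝ := (Fintype.card ι : ℝ) with hN
  have hN0 : 0 ≤ N := Nat.cast_nonneg _
  set M : ℝ := N ^ 3 * K ^ 2 with hM
  have hM0 : 0 ≤ M := by positivity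
  set B₁ : ℝ := K * (1 + N * K) with hB₁
  set G₁ : ℝ := 1 + N * K with hG₁
  set K' : ℝ := N * (B₁ + K ^ 2) + N * K * G₁ with hK'
  have hB₁0 : 0 ≤ B₁ := by positivity
  have hG₁0 : 0 ≤ G₁ := by positivity
  have hK'0 : 0 ≤ K' := by positivity
  set K₁ : ℝ := N * K' + 1 + 2 * M with hK₁
  refine ⟨min R (min 1 (1 / (M + 1))), K₁, by positivity, min_le_left _ _, by positivity, ?_⟩
  intro z hz
  rw [mem_ball_zero_iff, lt_min_iff, lt_min_iff] at hz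
  obtain ⟨hzR, hz1, hzM⟩ := hz
  have hzb : z ∈ Metric.ball (0 : CE ι) R := mem_ball_zero_iff.2 hzR
  set t : ℝ := ‖z‖ with ht
  have ht0 : 0 ≤ t := norm_nonneg _
  have ht1 : t ≤ 1 := hz1.le
  have hMt : M * t ≤ 1 := by
    rw [lt_div_iff₀ (by positivity)] at hzM
    nlinarith
  have ht2 : t ^ 2 ≤ 1 := pow_le_one₀ ht0 ht1
  have ht3 : t ^ 3 ≤ t := pow_le_of_le_one ht0 ht1 (by norm_num)
  have ht42 : t ^ 4 ≤ t ^ 2 := pow_le_pow_of_le_one ht0 ht1 (by norm_num)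
  have ht4 : t ^ 4 ≤ t := pow_le_of_le_one ht0 ht1 (by norm_num)
  have hzk : ∀ k, ‖z k‖ ≤ t := fun k => PiLp.norm_apply_le z k
  have hzsq : ∑ k, ‖z k‖ ^ 2 = t ^ 2 := (EuclideanSpace.norm_sq_eq z).symm
  have haz : ∀ j k, ‖a j k z‖ ≤ K * t ^ 2 := fun j k => hV.a_le z hzb j k
  set e : ι → ℂ := fun j => ∑ k, conj (a j k z) * z k with he
  have hgr : ∀ j, gradF a (fun y => ‖y‖ ^ 2) z j = conj (z j) + e j := fun j => gradF_normSq
  have hen : ∀ j, ‖e j‖ ≤ N * (K * t ^ 3) := by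
    intro j
    refine norm_sum_le_card_mul fun k => ?_
    rw [norm_mul, RCLike.norm_conj]
    calc ‖a j k z‖ * ‖z k‖ ≤ (K * t ^ 2) * t :=
          mul_le_mul (haz j k) (hzk k) (norm_nonneg _) (by positivity)
      _ = K * t ^ 3 := by ring
  have hgn : ∀ j, ‖gradF a (fun y => ‖y‖ ^ 2) z j‖ ≤ G₁ * t := by
    intro j
    rw [hgr]
    refine (norm_add_le _ _).trans ?_
    rw [RCLike.norm_conj]
    have h1 : N * (K * t ^ 3) ≤ N * K * t := by
      have : K * t ^ 3 ≤ K * t := mul_le_mul_of_nonneg_left ht3 hK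
      nlinarith
    have := hen j
    have := hzk j
    rw [hG₁]
    linarith
  -- sums of `‖v_j‖`
  have hσ : ∀ v : ι → ℂ, (∑ j, ‖v j‖) ^ 2 ≤ N * ∑ j, ‖v j‖ ^ 2 := fun v => by
    have := sq_sum_le_card_mul_sum_sq (s := Finset.univ) (f := fun j => ‖v j‖)
    simpa [hN] using this
  refine ⟨fun v => ?_, fun v => ?_, ?_⟩
  · -- the Levi form
    set V : ℝ := ∑ j, ‖v j‖ ^ 2 with hVdef
    have hV0 : 0 ≤ V := Finset.sum_nonneg fun j _ => by positivity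
    set E : Matrix ι ι ℂ := Matrix.of fun k j =>
      ∑ m, (conj (Zf a k (a j m) z) * z m + conj (a j m z) * a k m z)
        + ∑ l, α j k l z * gradF a (fun y => ‖y‖ ^ 2) z l with hE
    have hlev : leviF a α (fun y => ‖y‖ ^ 2) z = 1 + E := by
      ext k j
      rw [leviF_normSq_apply ha]
      rfl
    have hZf : ∀ k j m, ‖Zf a k (a j m) z‖ ≤ B₁ * t := by
      intro k j m
      unfold Zf
      refine (norm_add_le _ _).trans ?_
      have h1 : ‖∑ l, conj (a k l z) * dzb l (a j m) z‖ ≤ N * ((K * t ^ 2) * (K * t)) := by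
        refine norm_sum_le_card_mul fun l => ?_
        rw [norm_mul, RCLike.norm_conj]
        exact mul_le_mul (haz k l) (hV.dzb_le z hzb j m l) (norm_nonneg _) (by positivity)
      have h2 := hV.dz_le z hzb j m k
      have h3 : N * ((K * t ^ 2) * (K * t)) ≤ N * K ^ 2 * t := by
        have : N * ((K * t ^ 2) * (K * t)) = N * K ^ 2 * t ^ 3 := by ring
        rw [this]
        exact mul_le_mul_of_nonneg_left ht3 (by positivity)
      have h4 : B₁ * t = K * t + N * K ^ 2 * t := by rw [hB₁]; ring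
      rw [h4]
      linarith
    have hEn : ∀ k j, ‖E k j‖ ≤ K' * t ^ 2 := by
      intro k j
      simp only [hE, Matrix.of_apply]
      refine (norm_add_le _ _).trans ?_
      have h1 : ‖∑ m, (conj (Zf a k (a j m) z) * z m + conj (a j m z) * a k m z)‖
          ≤ N * ((B₁ + K ^ 2) * t ^ 2) := by
        refine norm_sum_le_card_mul fun m => ?_
        refine (norm_add_le _ _).trans ?_
        rw [norm_mul, norm_mul, RCLike.norm_conj, RCLike.norm_conj]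
        have a1 : ‖Zf a k (a j m) z‖ * ‖z m‖ ≤ (B₁ * t) * t :=
          mul_le_mul (hZf k j m) (hzk m) (norm_nonneg _) (by positivity)
        have a2 : ‖a j m z‖ * ‖a k m z‖ ≤ (K * t ^ 2) * (K * t ^ 2) :=
          mul_le_mul (haz j m) (haz k m) (norm_nonneg _) (by positivity)
        have a3 : (K * t ^ 2) * (K * t ^ 2) ≤ K ^ 2 * t ^ 2 := by
          have : (K * t ^ 2) * (K * t ^ 2) = K ^ 2 * t ^ 4 := by ring
          rw [this]
          exact mul_le_mul_of_nonneg_left ht42 (by positivity)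
        nlinarith
      have h2 : ‖∑ l, α j k l z * gradF a (fun y => ‖y‖ ^ 2) z l‖ ≤ N * ((K * t) * (G₁ * t)) := by
        refine norm_sum_le_card_mul fun l => ?_
        rw [norm_mul]
        exact mul_le_mul (hV.α_le z hzb j k l) (hgn l) (norm_nonneg _) (by positivity)
      have h3 : K' * t ^ 2 = N * ((B₁ + K ^ 2) * t ^ 2) + N * ((K * t) * (G₁ * t)) := by
        rw [hK']; ring
      rw [h3]
      linarith
    have hqE : |qf E v| ≤ N * K' * t ^ 2 * V := by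
      rw [B6E.qf_eq_sum]
      refine (Complex.abs_re_le_norm _).trans ?_
      have h1 : ‖∑ j, ∑ k, conj (v j) * E j k * v k‖ ≤ ∑ j, ∑ k, ‖v j‖ * (K' * t ^ 2) * ‖v k‖ := by
        refine norm_sum_le_of_le _ fun j _ => norm_sum_le_of_le _ fun k _ => ?_
        rw [norm_mul, norm_mul, RCLike.norm_conj]
        exact mul_le_mul_of_nonneg_right
          (mul_le_mul_of_nonneg_left (hEn j k) (norm_nonneg _)) (norm_nonneg _)
      have h2 : ∑ j, ∑ k, ‖v j‖ * (K' * t ^ 2) * ‖v k‖ = (K' * t ^ 2) * (∑ j, ‖v j‖) ^ 2 :=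
        sum_sum_mul_const_mul _ _
      rw [h2] at h1
      refine h1.trans ?_
      calc (K' * t ^ 2) * (∑ j, ‖v j‖) ^ 2 ≤ (K' * t ^ 2) * (N * V) :=
            mul_le_mul_of_nonneg_left (hσ v) (by positivity)
        _ = N * K' * t ^ 2 * V := by ring
    rw [hlev, B6E.qf_add, B6E.qf_one]
    have h5 := (abs_le.1 hqE).1
    have h6 : (N * K') * (t ^ 2 * V) ≤ K₁ * (t ^ 2 * V) :=
      mul_le_mul_of_nonneg_right (by rw [hK₁]; linarith) (by positivity)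
    nlinarith
  · -- the gradient, paired
    set V : ℝ := ∑ j, ‖v j‖ ^ 2 with hVdef
    have hV0 : 0 ≤ V := Finset.sum_nonneg fun j _ => by positivity
    set σ : ℝ := ∑ j, ‖v j‖ with hσdef
    have hσ0 : 0 ≤ σ := Finset.sum_nonneg fun j _ => norm_nonneg _
    set X : ℂ := ∑ j, conj (z j) * v j with hX
    set Y : ℂ := ∑ j, e j * v j with hY
    have hsum : ∑ j, gradF a (fun y => ‖y‖ ^ 2) z j * v j = X + Y := by
      simp only [hgr, add_mul, Finset.sum_add_distrib, hX, hY]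
    have hx : ‖X‖ ^ 2 ≤ t ^ 2 * V := by
      have h1 : ‖X‖ ≤ ∑ j, ‖z j‖ * ‖v j‖ := by
        refine (norm_sum_le _ _).trans (le_of_eq ?_)
        exact Finset.sum_congr rfl fun j _ => by rw [norm_mul, RCLike.norm_conj]
      calc ‖X‖ ^ 2 ≤ (∑ j, ‖z j‖ * ‖v j‖) ^ 2 := pow_le_pow_left₀ (norm_nonneg _) h1 2
        _ ≤ (∑ j, ‖z j‖ ^ 2) * ∑ j, ‖v j‖ ^ 2 := Finset.sum_mul_sq_le_sq_mul_sq _ _ _
        _ = t ^ 2 * V := by rw [hzsq]
    set w : ℝ := N * K * t * σ with hw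
    have hw0 : 0 ≤ w := by positivity
    have hy : ‖Y‖ ≤ t ^ 2 * w := by
      have h1 : ‖Y‖ ≤ ∑ j, (N * (K * t ^ 3)) * ‖v j‖ := by
        refine norm_sum_le_of_le _ fun j _ => ?_
        rw [norm_mul]
        exact mul_le_mul_of_nonneg_right (hen j) (norm_nonneg _)
      rw [← Finset.mul_sum] at h1
      refine h1.trans (le_of_eq ?_)
      rw [hw]; ring
    have hw2 : w ^ 2 ≤ M * t ^ 2 * V := by
      have : w ^ 2 = (N ^ 2 * K ^ 2 * t ^ 2) * σ ^ 2 := by rw [hw]; ring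
      rw [this]
      calc (N ^ 2 * K ^ 2 * t ^ 2) * σ ^ 2 ≤ (N ^ 2 * K ^ 2 * t ^ 2) * (N * V) :=
            mul_le_mul_of_nonneg_left (hσ v) (by positivity)
        _ = M * t ^ 2 * V := by rw [hM]; ring
    rw [hsum]
    have h1 : ‖X + Y‖ ≤ ‖X‖ + t ^ 2 * w := (norm_add_le _ _).trans (by linarith)
    have h2 : ‖X + Y‖ ^ 2 ≤ (‖X‖ + t ^ 2 * w) ^ 2 := pow_le_pow_left₀ (norm_nonneg _) h1 2
    have hKM : 1 + 2 * M ≤ K₁ := by
      have : 0 ≤ N * K' := mul_nonneg hN0 hK'0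
      rw [hK₁]; linarith
    exact h2.trans (normSqF_real_aux1 ht0 ht1 hV0 hM0 hx hw2 hKM)
  · -- the gradient
    have h1 : ∀ j, ‖gradF a (fun y => ‖y‖ ^ 2) z j‖ ^ 2
        ≤ 2 * ‖z j‖ ^ 2 + 2 * (N * (K * t ^ 3)) ^ 2 := by
      intro j
      rw [hgr]
      have a1 : ‖conj (z j) + e j‖ ≤ ‖z j‖ + N * (K * t ^ 3) := by
        refine (norm_add_le _ _).trans ?_
        rw [RCLike.norm_conj]
        linarith [hen j]
      exact normSqF_real_aux2 (norm_nonneg _) a1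
    have h2 : ∑ j, ‖gradF a (fun y => ‖y‖ ^ 2) z j‖ ^ 2
        ≤ ∑ j, (2 * ‖z j‖ ^ 2 + 2 * (N * (K * t ^ 3)) ^ 2) := Finset.sum_le_sum fun j _ => h1 j
    have h3 : ∑ j, (2 * ‖z j‖ ^ 2 + 2 * (N * (K * t ^ 3)) ^ 2)
        = 2 * t ^ 2 + 2 * (M * t ^ 4) * t ^ 2 := by
      rw [Finset.sum_add_distrib, ← Finset.mul_sum, hzsq, Finset.sum_const, Finset.card_univ,
        nsmul_eq_mul, ← hN, hM]
      ring
    have h4 : M * t ^ 4 ≤ 1 := (mul_le_mul_of_nonneg_left ht4 hM0).trans hMt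
    rw [h3] at h2
    have h5 : 2 * (M * t ^ 4) * t ^ 2 ≤ 2 * 1 * t ^ 2 :=
      mul_le_mul_of_nonneg_right (mul_le_mul_of_nonneg_left h4 (by norm_num)) (by positivity)
    linarith

/-- **`log(‖z‖² + ε)` is almost plurisubharmonic, uniformly in `ε`.** -/
theorem qf_leviF_log_ge {a : ι → ι → CE ι → ℂ} {α : ι → ι → ι → CE ι → ℂ}
    (ha : ∀ j k, ContDiff ℝ ∞ (a j k)) {K₁ : ℝ} (hK₁ : 0 ≤ K₁) {z : CE ι} {v : ι → ℂ}
    (h1 : (1 - K₁ * ‖z‖ ^ 2) * ∑ j, ‖v j‖ ^ 2 ≤ qf (leviF a α (fun y => ‖y‖ ^ 2) z) v)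
    (h2 : ‖∑ j, gradF a (fun y => ‖y‖ ^ 2) z j * v j‖ ^ 2
        ≤ ‖z‖ ^ 2 * (1 + K₁ * ‖z‖ ^ 2) * ∑ j, ‖v j‖ ^ 2) {ε : ℝ} (hε : 0 < ε) :
    - (2 * K₁) * ∑ j, ‖v j‖ ^ 2 ≤ qf (leviF a α (fun y => Real.log (‖y‖ ^ 2 + ε)) z) v := by
  set s : CE ι → ℝ := fun y => ‖y‖ ^ 2 with hs
  set χ : ℝ → ℝ := fun t => Real.log (t + ε) with hχ
  have hpos : 0 < s z + ε := by positivity
  have d1 : deriv χ = fun t => (t + ε)⁻¹ := by
    funext t
    rw [hχ, deriv_comp_add_const Real.log ε t, Real.deriv_log]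
  have d2 : deriv (deriv χ) = fun t => -((t + ε) ^ 2)⁻¹ := by
    rw [d1]
    funext t
    rw [deriv_comp_add_const (fun x : ℝ => x⁻¹) ε t, deriv_inv]
  have hχ2 : ContDiffAt ℝ 2 χ (s z) := (contDiffAt_id.add contDiffAt_const).log hpos.ne'
  have hs2 : ContDiffAt ℝ 2 s z := ((contDiff_norm_sq ℝ).of_le (by norm_cast)).contDiffAt
  have e := qf_leviF_comp_real (α := α) ha χ s hχ2 hs2 v
  have e' : qf (leviF a α (fun y => Real.log (‖y‖ ^ 2 + ε)) z) v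
      = qf (leviF a α (fun y => χ (s y)) z) v := rfl
  rw [e', e, d2, d1]
  simp only
  set t : ℝ := ‖z‖ ^ 2 with ht
  have hst : s z = t := rfl
  rw [hst]
  have ht0 : 0 ≤ t := by positivity
  set S : ℝ := ∑ j, ‖v j‖ ^ 2 with hS
  have hS0 : 0 ≤ S := Finset.sum_nonneg fun j _ => by positivity
  set L : ℝ := qf (leviF a α s z) v with hL
  set G : ℝ := ‖∑ j, gradF a s z j * v j‖ ^ 2 with hG
  set u : ℝ := (t + ε)⁻¹ with hu
  have hu0 : 0 < u := inv_pos.2 (by positivity)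
  have hu2 : ((t + ε) ^ 2)⁻¹ = u ^ 2 := by rw [hu, inv_pow]
  rw [hu2]
  have b1 : u * ((1 - K₁ * t) * S) ≤ u * L := mul_le_mul_of_nonneg_left h1 hu0.le
  have b2 : u ^ 2 * G ≤ u ^ 2 * (t * (1 + K₁ * t) * S) :=
    mul_le_mul_of_nonneg_left h2 (by positivity)
  have key : u * (1 - K₁ * t) - u ^ 2 * (t * (1 + K₁ * t)) + 2 * K₁
      = u ^ 2 * (ε + 3 * K₁ * t * ε + 2 * K₁ * ε ^ 2) := by
    have hne : t + ε ≠ 0 := by positivity
    rw [hu]
    field_simp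
    ring
  have b3 : 0 ≤ S * (u ^ 2 * (ε + 3 * K₁ * t * ε + 2 * K₁ * ε ^ 2)) := by positivity
  rw [← key] at b3
  nlinarith

end Claimed.Agent.R316.B4

end SecNormSqF


/-!
# Row 316, B4-Struct: structure functions `α, β` of a small normalised frame; bounds on smaller balls

`exists_struct`.  Put `b_{jkl} = Z_j a_{kl}` (`Zf a j (a k l)`), `c_{jkl} = Z̄_k \bar a_{jl}` (`Zb a k (conj ∘ a j l)`), `A = (a_{ml})`, `N = 1 - \bar A A`, i.e.
`N_{pl} = δ_{pl} - ∑_m \bar a_{pm} a_{ml}`.  We need (row vectors in the last index)  `b = α + β A` (`str1`),  `- c = α \bar A + β` (`str2`).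
Define `α_{jk} = (b_{jk} + c_{jk} A) N⁻¹` (`Matrix.vecMul`), `β_{jk} = - c_{jk} - α_{jk} \bar A`.  Then `str2` holds by definition and
`α + β A = α - c A - α \bar A A = α N - c A = b`.
`N(z)` is invertible for `∑|a_{jk}|² ≤ 1/4`: if `x N = 0` then `x = x \bar A A`, `|x| ≤ ‖A‖²_{HS} |x| ≤ |x|/4`, so `x = 0` (`Matrix.exists_vecMul_eq_zero_iff`, or `Matrix.isUnit_iff_isUnit_det`
via `Matrix.vecMul_injective…`).  Smoothness: `N⁻¹ = (det N)⁻¹ • adjugate N` (`Matrix.inv_def`, `Ring.inverse_eq_inv'`); `det` and the entries of `adjugate` are polynomials in the entries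
(`Matrix.det_apply`, `Matrix.adjugate_apply`/`Matrix.adjugate_def`, `ContDiffOn.sum`, `contDiffOn_prod`), `ContDiffOn.inv` with `det N ≠ 0`.

`exists_frameBd`: `α, β, gam a α` are continuous on `ball 0 R₁` (`contDiffOn_Zf`, `contDiffOn_Zb`, `contDiff_sg`), `closedBall 0 R` is compact (`IsCompact.exists_bound_of_continuousOn`); finitely many indices: take the max/sum of the bounds.

`exists_van2`: general fact (`exists_le_mul_norm`): `f` smooth on `ball 0 R₁` with values in a normed space, `f 0 = 0`, `R < R₁` ⇒ `‖f z‖ ≤ K‖z‖` on `ball 0 R`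
(`Convex.norm_image_sub_le_of_norm_fderiv_le` on the convex ball, `‖fderiv f‖ ≤ K` on the compact `closedBall 0 R`).  Apply it to `α_{jkl}` (`α_{jkl}(0) = Z_j a_{kl}(0) = 0` by `str1`, `a(0) = 0`, `da(0) = 0`),
to `dz l (a j k)`, `dzb l (a j k)` (they vanish at `0` because `fderiv ℝ (a j k) 0 = 0`), to `fderiv ℝ (a j k)`: `‖fderiv ℝ (a j k) z‖ ≤ K‖z‖`; then once more the mean value inequality on the
segment `[0,z] ⊆ ball 0 ‖z‖…`: `‖a j k z‖ ≤ (sup_{[0,z]} ‖fderiv‖) ‖z‖ ≤ K ‖z‖²`.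
-/

section SecStruct
set_option linter.unusedSectionVars false
open scoped ContDiff ComplexOrder ComplexConjugate Topology
open Claimed.Agent.R316.B6E (IsTest IsTestForm cx L2w)

namespace Claimed.Agent.R316.B4

variable {ι : Type} [Fintype ι] [DecidableEq ι]

/-- Cauchy–Schwarz for `mulVec` and the Hilbert–Schmidt norm. -/
theorem sum_norm_mulVec_sq_le (M : Matrix ι ι ℂ) (v : ι → ℂ) :
    ∑ m, ‖(M.mulVec v) m‖ ^ 2 ≤ (∑ m, ∑ l, ‖M m l‖ ^ 2) * ∑ l, ‖v l‖ ^ 2 := by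
  rw [Finset.sum_mul]
  refine Finset.sum_le_sum fun m _ => ?_
  have h1 : ‖(M.mulVec v) m‖ ≤ ∑ l, ‖M m l‖ * ‖v l‖ := by
    simp only [Matrix.mulVec, dotProduct]
    refine (norm_sum_le _ _).trans (le_of_eq ?_)
    exact Finset.sum_congr rfl fun l _ => norm_mul _ _
  calc ‖(M.mulVec v) m‖ ^ 2 ≤ (∑ l, ‖M m l‖ * ‖v l‖) ^ 2 :=
        pow_le_pow_left₀ (norm_nonneg _) h1 2
    _ ≤ (∑ l, ‖M m l‖ ^ 2) * ∑ l, ‖v l‖ ^ 2 := Finset.sum_mul_sq_le_sq_mul_sq _ _ _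

/-- `1 - B A` is invertible if the Hilbert–Schmidt norms of `A`, `B` are `≤ 1/2`. -/
theorem det_one_sub_mul_ne_zero {A B : Matrix ι ι ℂ} (hA : ∑ m, ∑ l, ‖A m l‖ ^ 2 ≤ 1 / 4)
    (hB : ∑ m, ∑ l, ‖B m l‖ ^ 2 ≤ 1 / 4) : (1 - B * A).det ≠ 0 := by
  intro hdet
  obtain ⟨v, hv0, hv⟩ := Matrix.exists_mulVec_eq_zero_iff.2 hdet
  have h1 : v = B.mulVec (A.mulVec v) := by
    rw [Matrix.sub_mulVec, Matrix.one_mulVec, sub_eq_zero, ← Matrix.mulVec_mulVec] at hv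
    exact hv
  have h2 := sum_norm_mulVec_sq_le B (A.mulVec v)
  have h3 := sum_norm_mulVec_sq_le A v
  rw [← h1] at h2
  set V := ∑ l, ‖v l‖ ^ 2 with hV
  have hV0 : 0 ≤ V := Finset.sum_nonneg fun l _ => by positivity
  have hW0 : 0 ≤ ∑ m, ‖(A.mulVec v) m‖ ^ 2 := Finset.sum_nonneg fun l _ => by positivity
  have h4 : V ≤ 1 / 4 * (1 / 4 * V) :=
    h2.trans ((mul_le_mul_of_nonneg_right hB hW0).trans
      (mul_le_mul_of_nonneg_left (h3.trans (mul_le_mul_of_nonneg_right hA hV0)) (by norm_num)))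
  have h5 : V = 0 := by linarith
  apply hv0
  funext l
  have h6 := (Finset.sum_eq_zero_iff_of_nonneg (fun l _ => by positivity)).1 h5 l (Finset.mem_univ l)
  simpa using h6

/-- **structure functions.** -/
theorem exists_struct {a : ι → ι → CE ι → ℂ} (ha : ∀ j k, ContDiff ℝ ∞ (a j k)) {Ω : Set (CE ι)}
    (hΩ : IsOpen Ω) (hsmall : ∀ z ∈ Ω, ∑ j, ∑ k, ‖a j k z‖ ^ 2 ≤ 1 / 4)
    (hcomm : ∀ z ∈ Ω, ∀ j k l, Zb a j (a k l) z = Zb a k (a j l) z) :
    ∃ α β : ι → ι → ι → CE ι → ℂ, IsFrame Ω a α β := by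
  set A : CE ι → Matrix ι ι ℂ := fun z => Matrix.of fun m l => a m l z with hA
  set Ab : CE ι → Matrix ι ι ℂ := fun z => Matrix.of fun m l => conj (a m l z) with hAb
  set N : CE ι → Matrix ι ι ℂ := fun z => 1 - Ab z * A z with hN
  set b : ι → ι → CE ι → ι → ℂ := fun j k z l => Zf a j (a k l) z with hb
  set c : ι → ι → CE ι → ι → ℂ := fun j k z l => Zb a k (fun y => conj (a j l y)) z with hc
  have hdet : ∀ z ∈ Ω, (N z).det ≠ 0 := by
    intro z hz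
    refine det_one_sub_mul_ne_zero (hsmall z hz) ?_
    simpa [hAb, RCLike.norm_conj] using hsmall z hz
  set α : ι → ι → ι → CE ι → ℂ := fun j k l z =>
    Matrix.vecMul (b j k z + Matrix.vecMul (c j k z) (A z)) (N z)⁻¹ l with hα
  set β : ι → ι → ι → CE ι → ℂ := fun j k l z =>
    - c j k z l - Matrix.vecMul (fun m => α j k m z) (Ab z) l with hβ
  have sconj : ∀ j k, ContDiff ℝ ∞ (fun y => conj (a j k y)) := fun j k =>
    Complex.conjCLE.contDiff.comp (ha j k)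
  have sb : ∀ j k l, ContDiffOn ℝ ∞ (fun z => b j k z l) Ω := fun j k l =>
    (contDiff_Zf ha (ha k l)).contDiffOn
  have sc : ∀ j k l, ContDiffOn ℝ ∞ (fun z => c j k z l) Ω := fun j k l =>
    (contDiff_Zb ha (sconj j l)).contDiffOn
  have sN : ∀ p l, ContDiffOn ℝ ∞ (fun z => N z p l) Ω := by
    intro p l
    simp only [hN, hAb, hA, Matrix.sub_apply, Matrix.mul_apply, Matrix.of_apply]
    exact contDiffOn_const.sub (ContDiffOn.sum fun m _ =>
      ((sconj p m).mul (ha m l)).contDiffOn)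
  have sNi : ∀ p l, ContDiffOn ℝ ∞ (fun z => (N z)⁻¹ p l) Ω := fun p l =>
    contDiffOn_matInv sN hdet p l
  have sα : ∀ j k l, ContDiffOn ℝ ∞ (α j k l) Ω := by
    intro j k l
    simp only [hα, Matrix.vecMul, dotProduct, Pi.add_apply, hA, Matrix.of_apply]
    exact ContDiffOn.sum fun p _ => ((sb j k p).add (ContDiffOn.sum fun m _ =>
      (sc j k m).mul (ha m p).contDiffOn)).mul (sNi p l)
  have sβ : ∀ j k l, ContDiffOn ℝ ∞ (β j k l) Ω := by
    intro j k l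
    simp only [hβ, Matrix.vecMul, dotProduct, hAb, Matrix.of_apply]
    exact (sc j k l).neg.sub (ContDiffOn.sum fun m _ => (sα j k m).mul (sconj m l).contDiffOn)
  refine ⟨α, β, ha, sα, sβ, hcomm, ?_, ?_⟩
  · intro z hz j k l
    -- row vectors
    set x : ι → ℂ := fun m => α j k m z with hx
    have hxN : Matrix.vecMul x (N z) = b j k z + Matrix.vecMul (c j k z) (A z) := by
      have : x = Matrix.vecMul (b j k z + Matrix.vecMul (c j k z) (A z)) (N z)⁻¹ := rfl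
      rw [this, Matrix.vecMul_vecMul, Matrix.nonsing_inv_mul _ (Ne.isUnit (hdet z hz)),
        Matrix.vecMul_one]
    have hβv : (fun m => β j k m z) = - c j k z - Matrix.vecMul x (Ab z) := rfl
    have h1 : x + Matrix.vecMul (fun m => β j k m z) (A z) = b j k z := by
      rw [hβv, Matrix.sub_vecMul, Matrix.neg_vecMul, Matrix.vecMul_vecMul]
      have h2 : Matrix.vecMul x (N z) = x - Matrix.vecMul x (Ab z * A z) := by
        simp only [hN, Matrix.vecMul_sub, Matrix.vecMul_one]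
      rw [h2] at hxN
      have : x = b j k z + Matrix.vecMul (c j k z) (A z) + Matrix.vecMul x (Ab z * A z) := by
        rw [← hxN]; abel
      calc x + (-Matrix.vecMul (c j k z) (A z) - Matrix.vecMul x (Ab z * A z))
          = (x - Matrix.vecMul x (Ab z * A z)) - Matrix.vecMul (c j k z) (A z) := by abel
        _ = b j k z := by rw [hxN]; abel
    have h3 := congrFun h1 l
    simp only [Pi.add_apply, Matrix.vecMul, dotProduct, hA, Matrix.of_apply] at h3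
    exact h3.symm
  · intro z hz j k l
    simp only [hβ, Matrix.vecMul, dotProduct, hAb, Matrix.of_apply, hc]
    ring

/-- finitely many continuous functions are uniformly bounded on a compact set. -/
theorem exists_bound_fintype {κ : Type} [Fintype κ] {F : Type} [NormedAddCommGroup F]
    {f : κ → CE ι → F} {K : Set (CE ι)} (hK : IsCompact K) (hf : ∀ i, ContinuousOn (f i) K) :
    ∃ M : ℝ, 0 ≤ M ∧ ∀ i, ∀ z ∈ K, ‖f i z‖ ≤ M := by
  choose M hM using fun i => hK.exists_bound_of_continuousOn (hf i)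
  refine ⟨∑ i, max (M i) 0, Finset.sum_nonneg fun i _ => le_max_right _ _, fun i z hz => ?_⟩
  exact ((hM i z hz).trans (le_max_left _ _)).trans
    (Finset.single_le_sum (f := fun i => max (M i) 0) (fun i _ => le_max_right _ _)
      (Finset.mem_univ i))

theorem exists_frameBd {a : ι → ι → CE ι → ℂ} {α β : ι → ι → ι → CE ι → ℂ} {R₁ R : ℝ}
    (hfr : IsFrame (Metric.ball 0 R₁) a α β) (hR : R < R₁) :
    ∃ M : ℝ, 0 ≤ M ∧ FrameBd (Metric.ball 0 R) a α β M := by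
  have hsub : Metric.closedBall (0 : CE ι) R ⊆ Metric.ball 0 R₁ := Metric.closedBall_subset_ball hR
  have hK := isCompact_closedBall (0 : CE ι) R
  obtain ⟨M1, h10, h1⟩ := exists_bound_fintype (κ := ι × ι × ι)
    (f := fun i => α i.1 i.2.1 i.2.2) hK fun i => ((hfr.smoothα _ _ _).continuousOn.mono hsub)
  obtain ⟨M2, h20, h2⟩ := exists_bound_fintype (κ := ι × ι × ι)
    (f := fun i => β i.1 i.2.1 i.2.2) hK fun i => ((hfr.smoothβ _ _ _).continuousOn.mono hsub)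
  obtain ⟨M3, h30, h3⟩ := exists_bound_fintype (κ := ι × ι)
    (f := fun i => gam a α i.1 i.2) hK fun i =>
      ((contDiffOn_gam hfr Metric.isOpen_ball _ _).continuousOn.mono hsub)
  refine ⟨M1 + M2 + M3, by positivity, ?_, ?_, ?_⟩
  · intro z hz j k l
    have := h1 (j, k, l) z (Metric.ball_subset_closedBall hz)
    simp only at this
    linarith
  · intro z hz j k l
    have := h2 (j, k, l) z (Metric.ball_subset_closedBall hz)
    simp only at this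
    linarith
  · intro z hz j k
    have := h3 (j, k) z (Metric.ball_subset_closedBall hz)
    simp only at this
    linarith

/-- a smooth function vanishing at `0` is `O(‖z‖)` on smaller balls. -/
theorem exists_le_mul_norm {F : Type} [NormedAddCommGroup F] [NormedSpace ℝ F] {f : CE ι → F}
    {R₁ R : ℝ} (hf : ContDiffOn ℝ ∞ f (Metric.ball 0 R₁)) (h0 : f 0 = 0) (hR : R < R₁) :
    ∃ K : ℝ, 0 ≤ K ∧ ∀ z ∈ Metric.ball (0 : CE ι) R, ‖f z‖ ≤ K * ‖z‖ := by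
  have hsub : Metric.closedBall (0 : CE ι) R ⊆ Metric.ball 0 R₁ := Metric.closedBall_subset_ball hR
  have hc : ContinuousOn (fderiv ℝ f) (Metric.ball 0 R₁) :=
    hf.continuousOn_fderiv_of_isOpen Metric.isOpen_ball (by simp)
  obtain ⟨K, hK⟩ := (isCompact_closedBall (0 : CE ι) R).exists_bound_of_continuousOn (hc.mono hsub)
  refine ⟨max K 0, le_max_right _ _, fun z hz => ?_⟩
  have hR0 : 0 < R := lt_of_le_of_lt (norm_nonneg _) (mem_ball_zero_iff.1 hz)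
  have h1 := Convex.norm_image_sub_le_of_norm_fderiv_le (𝕜 := ℝ) (f := f) (C := max K 0)
    (s := Metric.ball (0 : CE ι) R)
    (fun x hx => (hf.contDiffAt (Metric.isOpen_ball.mem_nhds
      (hsub (Metric.ball_subset_closedBall hx)))).differentiableAt (by simp))
    (fun x hx => (hK x (Metric.ball_subset_closedBall hx)).trans (le_max_left _ _))
    (convex_ball _ _) (Metric.mem_ball_self hR0) hz
  simpa [h0] using h1

theorem exists_le_mul_norm_fintype {κ : Type} [Fintype κ] {F : Type} [NormedAddCommGroup F]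
    [NormedSpace ℝ F] {f : κ → CE ι → F} {R₁ R : ℝ}
    (hf : ∀ i, ContDiffOn ℝ ∞ (f i) (Metric.ball 0 R₁)) (h0 : ∀ i, f i 0 = 0) (hR : R < R₁) :
    ∃ K : ℝ, 0 ≤ K ∧ ∀ i, ∀ z ∈ Metric.ball (0 : CE ι) R, ‖f i z‖ ≤ K * ‖z‖ := by
  choose K hK0 hK using fun i => exists_le_mul_norm (hf i) (h0 i) hR
  refine ⟨∑ i, K i, Finset.sum_nonneg fun i _ => hK0 i, fun i z hz => ?_⟩
  exact (hK i z hz).trans (mul_le_mul_of_nonneg_right
    (Finset.single_le_sum (f := K) (fun i _ => hK0 i) (Finset.mem_univ i)) (norm_nonneg _))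

theorem exists_van2 {a : ι → ι → CE ι → ℂ} {α β : ι → ι → ι → CE ι → ℂ} {R₁ R : ℝ} (hR0 : 0 < R)
    (hfr : IsFrame (Metric.ball 0 R₁) a α β) (hR : R < R₁)
    (h0 : ∀ j k, a j k 0 = 0) (hd0 : ∀ j k, fderiv ℝ (a j k) 0 = 0) :
    ∃ K : ℝ, 0 ≤ K ∧ Van2 R K a α := by
  have ha := hfr.smooth
  have h0mem : (0 : CE ι) ∈ Metric.ball (0 : CE ι) R₁ := Metric.mem_ball_self (hR0.trans hR)
  have hdz0 : ∀ j k l, dz l (a j k) 0 = 0 := fun j k l => by
    unfold Claimed.Agent.R316.dz; rw [hd0]; simp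
  have hdzb0 : ∀ j k l, dzb l (a j k) 0 = 0 := fun j k l => by
    unfold Claimed.Agent.R316.dzb; rw [hd0]; simp
  have hα0 : ∀ j k l, α j k l 0 = 0 := by
    intro j k l
    have h1 := hfr.str1 0 h0mem j k l
    unfold Zf at h1
    simp only [hdz0, hdzb0, h0, mul_zero, Finset.sum_const_zero, add_zero] at h1
    exact h1.symm
  obtain ⟨K1, h10, h1⟩ := exists_le_mul_norm_fintype (κ := ι × ι × ι)
    (f := fun i => α i.1 i.2.1 i.2.2) (fun i => hfr.smoothα _ _ _) (fun i => hα0 _ _ _) hR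
  obtain ⟨K2, h20, h2⟩ := exists_le_mul_norm_fintype (κ := ι × ι × ι) (R₁ := R₁)
    (f := fun i => dz i.2.2 (a i.1 i.2.1)) (fun i => (contDiff_dz (ha _ _)).contDiffOn)
    (fun i => hdz0 _ _ _) hR
  obtain ⟨K3, h30, h3⟩ := exists_le_mul_norm_fintype (κ := ι × ι × ι) (R₁ := R₁)
    (f := fun i => dzb i.2.2 (a i.1 i.2.1)) (fun i => (contDiff_dzb (ha _ _)).contDiffOn)
    (fun i => hdzb0 _ _ _) hR
  obtain ⟨K4, h40, h4⟩ := exists_le_mul_norm_fintype (κ := ι × ι) (R₁ := R₁)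
    (f := fun i => fderiv ℝ (a i.1 i.2))
    (fun i => ((ha _ _).fderiv_right (m := ∞) (by simp)).contDiffOn) (fun i => hd0 _ _) hR
  refine ⟨K1 + K2 + K3 + K4, by positivity, ?_, ?_, ?_, ?_⟩
  · intro z hz j k
    have hzR : ‖z‖ < R := mem_ball_zero_iff.1 hz
    have h5 := Convex.norm_image_sub_le_of_norm_fderiv_le (𝕜 := ℝ) (f := a j k) (C := K4 * ‖z‖)
      (s := Metric.closedBall (0 : CE ι) ‖z‖)
      (fun x _ => (ha j k).differentiable (by simp) x)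
      (fun x hx => by
        have hx' : ‖x‖ ≤ ‖z‖ := mem_closedBall_zero_iff.1 hx
        exact (h4 (j, k) x (mem_ball_zero_iff.2 (hx'.trans_lt hzR))).trans
          (mul_le_mul_of_nonneg_left hx' h40))
      (convex_closedBall _ _) (Metric.mem_closedBall_self (norm_nonneg _))
      (mem_closedBall_zero_iff.2 le_rfl)
    rw [h0, sub_zero, sub_zero] at h5
    have h6 : K4 * ‖z‖ * ‖z‖ ≤ (K1 + K2 + K3 + K4) * ‖z‖ ^ 2 := by
      have : 0 ≤ ‖z‖ ^ 2 := by positivity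
      nlinarith
    exact h5.trans h6
  · intro z hz j k l
    have := h2 (j, k, l) z hz
    simp only at this
    have hz0 := norm_nonneg z
    nlinarith
  · intro z hz j k l
    have := h3 (j, k, l) z hz
    simp only at this
    have hz0 := norm_nonneg z
    nlinarith
  · intro z hz j k l
    have := h1 (j, k, l) z hz
    simp only at this
    have hz0 := norm_nonneg z
    nlinarith

end Claimed.Agent.R316.B4

end SecStruct

/-!
# Row 316, B4-PoleInt: the right hand side `g = O(|z|²)` is uniformly square integrable against the weights `(|z|²+ε)^{-(n+1)} e^{-A|z|²}`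

`n = card ι ≥ 1`, real dimension `2n` (`finrank_real_of_complex`, `finrank_euclideanSpace`).
1. (`integrableOn_pole`) `z ↦ ‖z‖⁴/‖z‖^{2(n+1)}` is integrable on `ball 0 R`: radial function; `MeasureTheory.integrable_fun_norm_addHaar` / `integral_fun_norm_addHaar` reduce to
   `∫_0^R r^{2n-1} r⁴ / r^{2n+2} dr = ∫_0^R r dr` (write the function as `f(‖z‖)`, `f(r) = (Set.Iio R).indicator (fun r => r⁴/r^{2n+2}) r`; on `Ioi 0`: `r^{2n-1} • f(r) = r` for `r < R`).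
2. `exp (-((n+1) log(s+ε) + A s)) = (s+ε)^{-(n+1)} e^{-A s} ≤ (s+ε)^{-(n+1)} ≤ s^{-(n+1)}`, `s = ‖z‖²` (`Real.exp_log`, `Real.exp_nat_mul`/`Real.rpow_natCast`), so the integrand is
   `≤ n K² ‖z‖⁴/‖z‖^{2(n+1)}` (also at `z = 0`, where `g = 0`).  Measurability: the integrand is continuous on the ball.  `C₀ = n K² ∫_{ball} ‖z‖⁴/‖z‖^{2(n+1)}`.
3. (`tendsto_exp_weight`) `exp ((n+1) log(s + 1/(ν+1)) + A s) = (s + 1/(ν+1))^{n+1} e^{A s} → s^{n+1} e^{A s}`.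
-/

section SecPoleInt
open scoped ContDiff ComplexOrder ComplexConjugate Topology
open MeasureTheory Filter

namespace Claimed.Agent.R316.B4

variable {ι : Type} [Fintype ι]

/-- the weights `φ_ε = (n+1) log(‖z‖²+ε) + A ‖z‖²`. -/
noncomputable def poleW (ι : Type) [Fintype ι] (A ε : ℝ) (z : CE ι) : ℝ :=
  ((Fintype.card ι : ℝ) + 1) * Real.log (‖z‖ ^ 2 + ε) + A * ‖z‖ ^ 2

theorem integrableOn_pole [Nonempty ι] (R : ℝ) :
    IntegrableOn (fun z : CE ι => ‖z‖ ^ 4 / ‖z‖ ^ (2 * (Fintype.card ι + 1))) (Metric.ball 0 R) := by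
  have hn : 0 < Fintype.card ι := Fintype.card_pos
  have hdim : Module.finrank ℝ (CE ι) = 2 * Fintype.card ι := by
    rw [finrank_real_of_complex]; simp
  have h := (integrableOn_fun_norm_addHaar (E := CE ι) (μ := volume)
    (f := fun r : ℝ => r ^ 4 / r ^ (2 * (Fintype.card ι + 1))) (r := R)).2 ?_
  · exact h
  · have h1 : IntegrableOn (fun y : ℝ => y) (Set.Ioo 0 R) :=
      (continuous_id.integrableOn_Icc (a := 0) (b := R)).mono_set Set.Ioo_subset_Icc_self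
    refine (integrableOn_congr_fun (fun y hy => ?_) measurableSet_Ioo).1 h1
    have hy0 : y ≠ 0 := hy.1.ne'
    rw [hdim, smul_eq_mul]
    obtain ⟨m, hm⟩ : ∃ m, Fintype.card ι = m + 1 := ⟨Fintype.card ι - 1, by omega⟩
    rw [hm]
    have e1 : 2 * (m + 1) - 1 = 2 * m + 1 := by omega
    rw [e1]
    field_simp
    ring

theorem exp_poleW (A : ℝ) {ε : ℝ} (hε : 0 < ε) (z : CE ι) :
    Real.exp (poleW ι A ε z) = (‖z‖ ^ 2 + ε) ^ (Fintype.card ι + 1) * Real.exp (A * ‖z‖ ^ 2) := by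
  unfold poleW
  have h : 0 < ‖z‖ ^ 2 + ε := by positivity
  have e : ((Fintype.card ι : ℝ) + 1) = ((Fintype.card ι + 1 : ℕ) : ℝ) := by push_cast; ring
  rw [Real.exp_add, e, Real.exp_nat_mul, Real.exp_log h]

theorem contDiff_poleW (A : ℝ) {ε : ℝ} (hε : 0 < ε) : ContDiff ℝ ∞ (poleW ι A ε) := by
  unfold poleW
  have hs : ContDiff ℝ ∞ (fun z : CE ι => ‖z‖ ^ 2) := contDiff_norm_sq ℝ
  exact (contDiff_const.mul ((hs.add contDiff_const).log fun z => by positivity)).add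
    (contDiff_const.mul hs)

theorem pole_integral_bound [Nonempty ι] {R K A : ℝ} (hA : 0 ≤ A) {g : ι → CE ι → ℂ}
    (hgc : ∀ j, ContinuousOn (g j) (Metric.ball 0 R))
    (hg : ∀ z ∈ Metric.ball (0 : CE ι) R, ∀ j, ‖g j z‖ ≤ K * ‖z‖ ^ 2) :
    ∃ C₀ : ℝ, 0 ≤ C₀ ∧ ∀ ε : ℝ, 0 < ε →
      IntegrableOn (fun z => (∑ j, ‖g j z‖ ^ 2) * Real.exp (-poleW ι A ε z)) (Metric.ball 0 R) ∧
      ∫ z in Metric.ball (0 : CE ι) R, (∑ j, ‖g j z‖ ^ 2) * Real.exp (-poleW ι A ε z) ≤ C₀ := by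
  set n : ℕ := Fintype.card ι with hn
  set D : CE ι → ℝ := fun z => ((n : ℝ) * K ^ 2) * (‖z‖ ^ 4 / ‖z‖ ^ (2 * (n + 1))) with hD
  have hDi : IntegrableOn D (Metric.ball 0 R) := (integrableOn_pole R).const_mul _
  have hD0 : ∀ z, 0 ≤ D z := fun z => by positivity
  have hle : ∀ ε : ℝ, 0 < ε → ∀ z ∈ Metric.ball (0 : CE ι) R,
      (∑ j, ‖g j z‖ ^ 2) * Real.exp (-poleW ι A ε z) ≤ D z := by
    intro ε hε z hz
    have h1 : ∑ j, ‖g j z‖ ^ 2 ≤ (n : ℝ) * K ^ 2 * ‖z‖ ^ 4 := by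
      have : ∀ j ∈ Finset.univ, ‖g j z‖ ^ 2 ≤ K ^ 2 * ‖z‖ ^ 4 := fun j _ => by
        have := pow_le_pow_left₀ (norm_nonneg _) (hg z hz j) 2
        calc ‖g j z‖ ^ 2 ≤ (K * ‖z‖ ^ 2) ^ 2 := this
          _ = K ^ 2 * ‖z‖ ^ 4 := by ring
      refine (Finset.sum_le_card_nsmul _ _ _ this).trans (le_of_eq ?_)
      rw [Finset.card_univ, nsmul_eq_mul]; ring
    rcases eq_or_ne z 0 with rfl | hz0
    · have : ∑ j, ‖g j 0‖ ^ 2 ≤ 0 := by simpa using h1
      have h2 : ∑ j, ‖g j 0‖ ^ 2 = 0 :=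
        le_antisymm this (Finset.sum_nonneg fun j _ => by positivity)
      rw [h2, zero_mul]
      exact hD0 0
    · have hzp : 0 < ‖z‖ := norm_pos_iff.2 hz0
      have h2 : Real.exp (-poleW ι A ε z) ≤ 1 / ‖z‖ ^ (2 * (n + 1)) := by
        rw [Real.exp_neg, exp_poleW A hε, ← one_div]
        refine one_div_le_one_div_of_le (by positivity) ?_
        have a1 : ‖z‖ ^ (2 * (n + 1)) ≤ (‖z‖ ^ 2 + ε) ^ (n + 1) := by
          rw [pow_mul]
          exact pow_le_pow_left₀ (by positivity) (by linarith) _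
        have a2 : 1 ≤ Real.exp (A * ‖z‖ ^ 2) := Real.one_le_exp (by positivity)
        calc ‖z‖ ^ (2 * (n + 1)) = ‖z‖ ^ (2 * (n + 1)) * 1 := (mul_one _).symm
          _ ≤ (‖z‖ ^ 2 + ε) ^ (n + 1) * Real.exp (A * ‖z‖ ^ 2) :=
            mul_le_mul a1 a2 zero_le_one (by positivity)
      calc (∑ j, ‖g j z‖ ^ 2) * Real.exp (-poleW ι A ε z)
          ≤ ((n : ℝ) * K ^ 2 * ‖z‖ ^ 4) * (1 / ‖z‖ ^ (2 * (n + 1))) :=
            mul_le_mul h1 h2 (Real.exp_pos _).le (by positivity)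
        _ = D z := by rw [hD]; ring
  refine ⟨∫ z in Metric.ball (0 : CE ι) R, D z, integral_nonneg hD0, fun ε hε => ?_⟩
  have hc : ContinuousOn (fun z => (∑ j, ‖g j z‖ ^ 2) * Real.exp (-poleW ι A ε z))
      (Metric.ball 0 R) :=
    (continuousOn_finsetSum _ fun j _ => (hgc j).norm.pow 2).mul
      (Real.continuous_exp.comp (contDiff_poleW A hε).continuous.neg).continuousOn
  have hae : ∀ᵐ z ∂(volume.restrict (Metric.ball (0 : CE ι) R)),
      ‖(∑ j, ‖g j z‖ ^ 2) * Real.exp (-poleW ι A ε z)‖ ≤ D z := by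
    refine (ae_restrict_iff' Metric.isOpen_ball.measurableSet).2
      (Eventually.of_forall fun z hz => ?_)
    rw [Real.norm_of_nonneg (mul_nonneg (Finset.sum_nonneg fun j _ => by positivity)
      (Real.exp_pos _).le)]
    exact hle ε hε z hz
  have hi : IntegrableOn (fun z => (∑ j, ‖g j z‖ ^ 2) * Real.exp (-poleW ι A ε z))
      (Metric.ball 0 R) :=
    hDi.mono' (hc.aestronglyMeasurable Metric.isOpen_ball.measurableSet) hae
  exact ⟨hi, setIntegral_mono_on hi hDi Metric.isOpen_ball.measurableSet (hle ε hε)⟩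

theorem tendsto_exp_poleW (A : ℝ) (z : CE ι) :
    Tendsto (fun ν : ℕ => Real.exp (poleW ι A (1 / ((ν : ℝ) + 1)) z)) atTop
      (𝓝 (‖z‖ ^ (2 * (Fintype.card ι + 1)) * Real.exp (A * ‖z‖ ^ 2))) := by
  have e : ∀ ν : ℕ, Real.exp (poleW ι A (1 / ((ν : ℝ) + 1)) z)
      = (‖z‖ ^ 2 + 1 / ((ν : ℝ) + 1)) ^ (Fintype.card ι + 1) * Real.exp (A * ‖z‖ ^ 2) := fun ν =>
    exp_poleW A (by positivity) z
  simp only [e]
  have h1 : Tendsto (fun ν : ℕ => ‖z‖ ^ 2 + 1 / ((ν : ℝ) + 1)) atTop (𝓝 (‖z‖ ^ 2 + 0)) :=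
    tendsto_const_nhds.add tendsto_one_div_add_atTop_nhds_zero_nat
  have h2 := (h1.pow (Fintype.card ι + 1)).mul_const (Real.exp (A * ‖z‖ ^ 2))
  rw [add_zero, ← pow_mul] at h2
  exact h2

end Claimed.Agent.R316.B4

end SecPoleInt
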