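import Mathlib
import Claimed.Agent.R316.B4.Frame

set_option autoImplicit false

/-!
# Row 316, B4-Weights1D (SORRY-FREE): the three weights as functions of ONE real variable `t = ‖z‖²`

Fix `0 < r' < r`, `ε > 0`.  All weights on `ball 0 r` are of the form `χ(‖z‖²)`.  Construction (pure one variable calculus):
* `σ(t) = - log (r² - t)` on `t < r²`: smooth, increasing, `σ' = 1/(r²-t) = e^{σ}`, `σ'' = σ'²`;  `A = σ(r'²)`.
* `θ = Real.smoothTransition`, `|θ'| ≤ L`, `θ' = 0` off `[0,1]`;  `Θ(x) = ∫_0^x θ`: smooth, `Θ = 0` on `(-∞,0]`, `0 ≤ Θ' ≤ 1`, `Θ'' ≥ 0`, `Θ(x) ≥ x - 1`.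
* `Y = Θ(σ - A)`, `P = 3 Y`, `Q = K Y`, `K = 6 + 9 (1 + 1/ε)`:  `Y' = Θ' σ'`, `Y'' = (Θ'' + Θ') σ'² ≥ Θ' σ'² ≥ Θ'² σ'²`.
* `c = 4 r² L²`, `B = 3A + 3 + c`, `E_ν(t) = 1 - θ(σ(t) - (B+ν))` for `t < r²`, `0` otherwise;
  `E_ν' ≠ 0` only where `σ ≥ B`, there `4 t E_ν'² ≤ 4 r² L² σ'² = c e^{2σ} ≤ e^{c + 2σ} ≤ e^{3(σ - A - 1)} ≤ e^{P}`.
-/

section SecWeights1D
open scoped ContDiff Topology
open Filter

namespace Claimed.Agent.R316.B4

/-- a smooth convex nondecreasing ramp with slope `≤ 1`: `Θ(x) = ∫_0^x θ`. -/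
theorem exists_convex_ramp1 :
    ∃ Θ : ℝ → ℝ, ContDiff ℝ ∞ Θ ∧ (∀ x ≤ 0, Θ x = 0) ∧ (∀ x, 0 ≤ Θ x) ∧ (∀ x, 0 ≤ deriv Θ x) ∧
      (∀ x, deriv Θ x ≤ 1) ∧ (∀ x, 0 ≤ deriv (deriv Θ) x) ∧ (∀ x, x - 1 ≤ Θ x) := by
  have hc : Continuous Real.smoothTransition := Real.smoothTransition.continuous
  have hd : ∀ x, HasDerivAt (fun x => ∫ y in (0:ℝ)..x, Real.smoothTransition y)
      (Real.smoothTransition x) x := fun x =>
    intervalIntegral.integral_hasDerivAt_right (hc.intervalIntegrable _ _)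
      (hc.stronglyMeasurableAtFilter _ _) hc.continuousAt
  have hderiv : deriv (fun x => ∫ y in (0:ℝ)..x, Real.smoothTransition y)
      = Real.smoothTransition := funext fun x => (hd x).deriv
  have hzero : ∀ x ≤ 0, ∫ y in (0:ℝ)..x, Real.smoothTransition y = 0 := by
    intro x hx
    have : ∫ y in (0:ℝ)..x, Real.smoothTransition y = ∫ y in (0:ℝ)..x, (0 : ℝ) := by
      refine intervalIntegral.integral_congr fun y hy => ?_
      rw [Set.uIcc_of_ge hx] at hy
      exact Real.smoothTransition.zero_of_nonpos hy.2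
    rw [this]; simp
  have hnn : ∀ x, 0 ≤ ∫ y in (0:ℝ)..x, Real.smoothTransition y := by
    intro x
    rcases le_total x 0 with hx | hx
    · rw [hzero x hx]
    · exact intervalIntegral.integral_nonneg hx fun y _ => Real.smoothTransition.nonneg y
  refine ⟨fun x => ∫ y in (0:ℝ)..x, Real.smoothTransition y, ?_, hzero, hnn, ?_, ?_, ?_, ?_⟩
  · rw [contDiff_infty_iff_deriv, hderiv]
    exact ⟨fun x => (hd x).differentiableAt, Real.smoothTransition.contDiff⟩
  · intro x; rw [hderiv]; exact Real.smoothTransition.nonneg x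
  · intro x; rw [hderiv]; exact Real.smoothTransition.le_one x
  · intro x; rw [hderiv]; exact Real.smoothTransition.monotone.deriv_nonneg
  · intro x
    rcases le_total x 1 with hx | hx
    · linarith [hnn x]
    · have h1 := intervalIntegral.integral_add_adjacent_intervals
        (hc.intervalIntegrable (μ := MeasureTheory.volume) 0 1)
        (hc.intervalIntegrable (μ := MeasureTheory.volume) 1 x)
      have h2 : ∫ y in (1:ℝ)..x, Real.smoothTransition y = ∫ y in (1:ℝ)..x, (1 : ℝ) := by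
        refine intervalIntegral.integral_congr fun y hy => ?_
        rw [Set.uIcc_of_le hx] at hy
        exact Real.smoothTransition.one_of_one_le hy.1
      have h3 : ∫ y in (1:ℝ)..x, (1 : ℝ) = x - 1 := by simp
      show x - 1 ≤ ∫ y in (0:ℝ)..x, Real.smoothTransition y
      rw [← h1, h2, h3]
      linarith [hnn 1]

/-- the derivative of `Real.smoothTransition` is bounded and vanishes off `[0,1]`. -/
theorem smoothTransition_deriv_bound1 :
    ∃ L : ℝ, 0 ≤ L ∧ (∀ x, |deriv Real.smoothTransition x| ≤ L) ∧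
      (∀ x, x < 0 ∨ 1 < x → deriv Real.smoothTransition x = 0) := by
  have hz : ∀ x, x < 0 ∨ 1 < x → deriv Real.smoothTransition x = 0 := by
    rintro x (hx | hx)
    · have : Real.smoothTransition =ᶠ[𝓝 x] fun _ => 0 := by
        filter_upwards [Iio_mem_nhds hx] with y hy
        exact Real.smoothTransition.zero_of_nonpos (le_of_lt hy)
      rw [this.deriv_eq]; simp
    · have : Real.smoothTransition =ᶠ[𝓝 x] fun _ => 1 := by
        filter_upwards [Ioi_mem_nhds hx] with y hy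
        exact Real.smoothTransition.one_of_one_le (le_of_lt hy)
      rw [this.deriv_eq]; simp
  have hc : Continuous (deriv Real.smoothTransition) :=
    (Real.smoothTransition.contDiff (n := ⊤)).continuous_deriv (by simp)
  obtain ⟨L, hL⟩ := (isCompact_Icc (a := (0:ℝ)) (b := 1)).exists_bound_of_continuousOn
    hc.continuousOn
  refine ⟨max L 0, le_max_right _ _, fun x => ?_, hz⟩
  by_cases hx : x ∈ Set.Icc (0:ℝ) 1
  · exact (hL x hx).trans (le_max_left _ _)
  · have : x < 0 ∨ 1 < x := by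
      by_contra h
      push Not at h
      exact hx ⟨h.1, h.2⟩
    rw [hz x this]; simp

/-- **the three weights in one variable.**  `σ(t) = - log (r² - t)`, `Y = Θ(σ - σ(r'²))`, `P = 3 Y`, `Q = K Y`,
`E_ν = 1 - θ(σ - (B + ν))`. -/
theorem exists_weights1D {r r' ε : ℝ} (hr' : 0 < r') (hr : r' < r) (hε : 0 < ε) :
    ∃ (Q P : ℝ → ℝ) (E : ℕ → ℝ → ℝ),
      ContDiffOn ℝ ∞ Q (Set.Iio (r ^ 2)) ∧ ContDiffOn ℝ ∞ P (Set.Iio (r ^ 2)) ∧
      (∀ t, t < r' ^ 2 → Q t = 0 ∧ P t = 0) ∧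
      (∀ t, 0 ≤ t → t < r ^ 2 → 0 ≤ P t ∧ 2 * P t ≤ Q t) ∧
      (∀ t, 0 ≤ t → t < r ^ 2 →
        0 ≤ deriv Q t ∧ (1 + 1 / ε) * (deriv P t) ^ 2 ≤ deriv (deriv Q) t) ∧
      (∀ ν, ContDiff ℝ ∞ (E ν)) ∧ (∀ ν t, 0 ≤ E ν t ∧ E ν t ≤ 1) ∧
      (∀ ν, ∃ tν, tν < r ^ 2 ∧ ∀ t, tν ≤ t → E ν t = 0) ∧
      (∀ t, t < r ^ 2 → ∀ᶠ ν in atTop, E ν =ᶠ[𝓝 t] fun _ => 1) ∧
      (∀ ν t, 0 ≤ t → t < r ^ 2 → 4 * t * (deriv (E ν) t) ^ 2 ≤ Real.exp (P t)) := by
  obtain ⟨Θ, hΘs, hΘ0, hΘnn, hΘ1, hΘ1', hΘ2, hΘge⟩ := exists_convex_ramp1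
  obtain ⟨L, hL0, hL, hLz⟩ := smoothTransition_deriv_bound1
  set ρ : ℝ := r ^ 2 with hρ
  have hρ' : r' ^ 2 < ρ := by rw [hρ]; exact pow_lt_pow_left₀ hr hr'.le (by norm_num)
  set σ : ℝ → ℝ := fun t => - Real.log (ρ - t) with hσ
  set A : ℝ := σ (r' ^ 2) with hA
  set c : ℝ := 4 * ρ * L ^ 2 with hc
  have hr0 : 0 < r := hr'.trans hr
  have hρ0 : 0 < ρ := by rw [hρ]; positivity
  have hc0 : 0 ≤ c := by positivity
  set B : ℝ := 3 * A + 3 + c with hB
  set K : ℝ := 6 + 9 * (1 + 1 / ε) with hK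
  have hK6 : 6 ≤ K := by rw [hK]; have : 0 < 1 / ε := by positivity
                         linarith
  -- `σ`
  have hσd : ∀ t, t < ρ → HasDerivAt σ ((ρ - t)⁻¹) t := by
    intro t ht
    have h1 : HasDerivAt (fun t => ρ - t) (-1) t := (hasDerivAt_id t).const_sub ρ
    have h2 : HasDerivAt σ (-(-1 / (ρ - t))) t := (h1.log (sub_pos.2 ht).ne').neg
    have e : -(-1 / (ρ - t)) = (ρ - t)⁻¹ := by rw [neg_div, neg_neg, one_div]
    rwa [e] at h2
  have hσs : ContDiffOn ℝ ∞ σ (Set.Iio ρ) :=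
    ((contDiffOn_const.sub contDiffOn_id).log fun t ht => (sub_pos.2 ht).ne').neg
  have hσat : ∀ t, t < ρ → ContDiffAt ℝ ∞ σ t := fun t ht => hσs.contDiffAt (Iio_mem_nhds ht)
  have hσmono : ∀ s t, s ≤ t → t < ρ → σ s ≤ σ t := by
    intro s t hst ht
    simp only [hσ]
    have := Real.log_le_log (sub_pos.2 ht) (by linarith : ρ - t ≤ ρ - s)
    linarith
  have hexpσ : ∀ t, t < ρ → Real.exp (σ t) = (ρ - t)⁻¹ := by
    intro t ht
    simp only [hσ]
    rw [Real.exp_neg, Real.exp_log (sub_pos.2 ht)]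
  -- `Y`
  set Y : ℝ → ℝ := fun t => Θ (σ t - A) with hY
  have hΘd : ∀ x, HasDerivAt Θ (deriv Θ x) x := fun x =>
    ((hΘs.differentiable (by simp)) x).hasDerivAt
  have hΘ's : ContDiff ℝ ∞ (deriv Θ) := (contDiff_infty_iff_deriv.1 hΘs).2
  have hΘdd : ∀ x, HasDerivAt (deriv Θ) (deriv (deriv Θ) x) x := fun x =>
    ((hΘ's.differentiable (by simp)) x).hasDerivAt
  have hYs : ContDiffOn ℝ ∞ Y (Set.Iio ρ) :=
    hΘs.comp_contDiffOn (hσs.sub contDiffOn_const)
  have hYd : ∀ t, t < ρ → HasDerivAt Y (deriv Θ (σ t - A) * (ρ - t)⁻¹) t := fun t ht =>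
    (hΘd (σ t - A)).comp t ((hσd t ht).sub_const A)
  have hYd' : ∀ t, t < ρ → deriv Y t = deriv Θ (σ t - A) * (ρ - t)⁻¹ := fun t ht => (hYd t ht).deriv
  have hYdd : ∀ t, t < ρ → deriv (deriv Y) t
      = (deriv (deriv Θ) (σ t - A) + deriv Θ (σ t - A)) * ((ρ - t)⁻¹) ^ 2 := by
    intro t ht
    have e : deriv Y =ᶠ[𝓝 t] fun s => deriv Θ (σ s - A) * (ρ - s)⁻¹ := by
      filter_upwards [Iio_mem_nhds ht] with s hs
      exact hYd' s hs
    have h0 := (hΘdd (σ t - A)).comp t ((hσd t ht).sub_const A)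
    have h1 : HasDerivAt (fun s => deriv Θ (σ s - A))
        (deriv (deriv Θ) (σ t - A) * (ρ - t)⁻¹) t := h0
    have h2 : HasDerivAt (fun s => (ρ - s)⁻¹) (-(-1) / (ρ - t) ^ 2) t :=
      ((hasDerivAt_id t).const_sub ρ).inv (sub_pos.2 ht).ne'
    have h3 : HasDerivAt (fun s => deriv Θ (σ s - A) * (ρ - s)⁻¹)
        (deriv (deriv Θ) (σ t - A) * (ρ - t)⁻¹ * (ρ - t)⁻¹
          + deriv Θ (σ t - A) * (-(-1) / (ρ - t) ^ 2)) t := h1.mul h2
    rw [e.deriv_eq, h3.deriv]
    have := (sub_pos.2 ht).ne'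
    field_simp
  have hY0 : ∀ t, t < r' ^ 2 → Y t = 0 := by
    intro t ht
    refine hΘ0 _ ?_
    have := hσmono t (r' ^ 2) ht.le hρ'
    linarith
  have hdc : ∀ (k : ℝ), deriv (fun t => k * Y t) = fun t => k * deriv Y t := fun k =>
    funext fun t => deriv_const_mul_field k
  have hddc : ∀ (k : ℝ), deriv (deriv (fun t => k * Y t)) = fun t => k * deriv (deriv Y) t :=
    fun k => by rw [hdc]; exact funext fun t => deriv_const_mul_field k
  -- `E`
  set E : ℕ → ℝ → ℝ := fun ν t =>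
    if t < ρ then 1 - Real.smoothTransition (σ t - (B + ν)) else 0 with hE
  have hEeq : ∀ ν t, t < ρ → E ν =ᶠ[𝓝 t] fun s => 1 - Real.smoothTransition (σ s - (B + ν)) := by
    intro ν t ht
    filter_upwards [Iio_mem_nhds ht] with s hs
    simp only [hE, if_pos (show s < ρ from hs)]
  have hEz : ∀ (ν : ℕ) t, ρ - Real.exp (-(B + ν + 1)) ≤ t → E ν t = 0 := by
    intro ν t ht
    by_cases htρ : t < ρ
    · simp only [hE, if_pos htρ]
      have h1 : ρ - t ≤ Real.exp (-(B + ν + 1)) := by linarith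
      have h2 : Real.log (ρ - t) ≤ -(B + ν + 1) :=
        (Real.log_le_iff_le_exp (sub_pos.2 htρ)).2 h1
      have h3 : 1 ≤ σ t - (B + ν) := by simp only [hσ]; linarith
      rw [Real.smoothTransition.one_of_one_le h3]; ring
    · simp only [hE, if_neg htρ]
  have hEd : ∀ ν t, t < ρ → deriv (E ν) t
      = - (deriv Real.smoothTransition (σ t - (B + ν)) * (ρ - t)⁻¹) := by
    intro ν t ht
    have hθd : HasDerivAt Real.smoothTransition (deriv Real.smoothTransition (σ t - (B + ν)))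
        (σ t - (B + ν)) :=
      ((Real.smoothTransition.contDiff (n := ⊤)).differentiable (by simp) _).hasDerivAt
    have h1 := (hθd.comp t ((hσd t ht).sub_const (B + ν))).const_sub 1
    rw [(hEeq ν t ht).deriv_eq]
    exact h1.deriv
  refine ⟨fun t => K * Y t, fun t => 3 * Y t, E, contDiffOn_const.mul hYs, contDiffOn_const.mul hYs,
    fun t ht => by simp [hY0 t ht], ?_, ?_, ?_, ?_, ?_, ?_, ?_⟩
  · intro t _ _
    have := hΘnn (σ t - A)
    constructor
    · positivity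
    · show 2 * (3 * Θ (σ t - A)) ≤ K * Θ (σ t - A)
      nlinarith
  · intro t _ ht
    rw [hddc, hdc, hdc]
    simp only
    rw [hYd' t ht, hYdd t ht]
    set x := σ t - A
    set u := (ρ - t)⁻¹ with hu
    have hu0 : 0 < u := inv_pos.2 (sub_pos.2 ht)
    have a1 := hΘ1 x
    have a2 := hΘ1' x
    have a3 := hΘ2 x
    have hK0 : 0 ≤ K := by linarith
    constructor
    · positivity
    · have b1 : deriv Θ x ^ 2 ≤ deriv Θ x := by nlinarith
      have b2 : (1 + 1 / ε) * (3 * (deriv Θ x * u)) ^ 2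
          = (9 * (1 + 1 / ε)) * (deriv Θ x ^ 2 * u ^ 2) := by ring
      have hε' : 0 < 1 / ε := by positivity
      have b3 : (9 * (1 + 1 / ε)) * (deriv Θ x ^ 2 * u ^ 2) ≤ K * (deriv Θ x * u ^ 2) := by
        have c1 : deriv Θ x ^ 2 * u ^ 2 ≤ deriv Θ x * u ^ 2 :=
          mul_le_mul_of_nonneg_right b1 (by positivity)
        have c2 : 0 ≤ deriv Θ x * u ^ 2 := by positivity
        have c3 : 9 * (1 + 1 / ε) ≤ K := by rw [hK]; linarith
        calc (9 * (1 + 1 / ε)) * (deriv Θ x ^ 2 * u ^ 2)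
            ≤ (9 * (1 + 1 / ε)) * (deriv Θ x * u ^ 2) :=
              mul_le_mul_of_nonneg_left c1 (by positivity)
          _ ≤ K * (deriv Θ x * u ^ 2) := mul_le_mul_of_nonneg_right c3 c2
      have b4 : K * (deriv Θ x * u ^ 2) ≤ K * ((deriv (deriv Θ) x + deriv Θ x) * u ^ 2) := by
        refine mul_le_mul_of_nonneg_left ?_ hK0
        exact mul_le_mul_of_nonneg_right (by linarith) (by positivity)
      rw [b2]
      exact b3.trans b4
  · intro ν
    rw [contDiff_iff_contDiffAt]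
    intro t
    by_cases ht : t < ρ
    · refine ContDiffAt.congr_of_eventuallyEq ?_ (hEeq ν t ht)
      exact contDiffAt_const.sub ((Real.smoothTransition.contDiff (n := ⊤)).contDiffAt.comp t
        ((hσat t ht).sub contDiffAt_const))
    · have h1 : ρ - Real.exp (-(B + ν + 1)) < t := by
        have := Real.exp_pos (-(B + ν + 1))
        linarith [not_lt.1 ht]
      have h2 : E ν =ᶠ[𝓝 t] fun _ => 0 := by
        filter_upwards [Ioi_mem_nhds h1] with s hs
        exact hEz ν s (le_of_lt hs)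
      exact contDiffAt_const.congr_of_eventuallyEq h2
  · intro ν t
    by_cases ht : t < ρ
    · simp only [hE, if_pos ht]
      have h1 := Real.smoothTransition.nonneg (σ t - (B + ν))
      have h2 := Real.smoothTransition.le_one (σ t - (B + ν))
      constructor <;> linarith
    · simp only [hE, if_neg ht]
      norm_num
  · intro ν
    exact ⟨ρ - Real.exp (-(B + ν + 1)), by linarith [Real.exp_pos (-(B + ν + 1))], hEz ν⟩
  · intro t ht
    obtain ⟨ν₀, hν₀⟩ := exists_nat_gt (σ t - B)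
    filter_upwards [eventually_ge_atTop ν₀] with ν hν
    have hν' : (ν₀ : ℝ) ≤ ν := by exact_mod_cast hν
    have h1 : σ t < B + ν := by linarith
    have h2 : ∀ᶠ s in 𝓝 t, σ s < B + ν :=
      (hσat t ht).continuousAt.eventually_lt continuousAt_const h1
    filter_upwards [h2, Iio_mem_nhds ht] with s hs hsρ
    simp only [hE, if_pos (show s < ρ from hsρ)]
    rw [Real.smoothTransition.zero_of_nonpos (by linarith)]
    ring
  · intro ν t ht0 ht
    rw [hEd ν t ht]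
    by_cases hx : σ t - (B + ν) < 0
    · rw [hLz _ (Or.inl hx)]
      simp only [zero_mul, neg_zero, ne_eq, OfNat.ofNat_ne_zero, not_false_eq_true, zero_pow,
        mul_zero]
      exact (Real.exp_pos _).le
    · have hx' : B + ν ≤ σ t := by linarith [not_lt.1 hx]
      have hνn : (0 : ℝ) ≤ ν := Nat.cast_nonneg ν
      set u := (ρ - t)⁻¹ with hu
      have hu0 : 0 < u := inv_pos.2 (sub_pos.2 ht)
      have h1 : (deriv Real.smoothTransition (σ t - (B + ν))) ^ 2 ≤ L ^ 2 :=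
        sq_le_sq' (by linarith [(abs_le.1 (hL (σ t - (B + ν)))).1])
          (abs_le.1 (hL (σ t - (B + ν)))).2
      have h2 : 4 * t * (-(deriv Real.smoothTransition (σ t - (B + ν)) * u)) ^ 2 ≤ c * u ^ 2 := by
        have e : 4 * t * (-(deriv Real.smoothTransition (σ t - (B + ν)) * u)) ^ 2
            = (4 * t * (deriv Real.smoothTransition (σ t - (B + ν))) ^ 2) * u ^ 2 := by ring
        rw [e, hc]
        refine mul_le_mul_of_nonneg_right ?_ (by positivity)
        calc 4 * t * (deriv Real.smoothTransition (σ t - (B + ν))) ^ 2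
            ≤ 4 * t * L ^ 2 := mul_le_mul_of_nonneg_left h1 (by positivity)
          _ ≤ 4 * ρ * L ^ 2 := by
              refine mul_le_mul_of_nonneg_right ?_ (by positivity)
              linarith
      have h3 : c * u ^ 2 ≤ Real.exp (c + 2 * σ t) := by
        rw [Real.exp_add, two_mul, Real.exp_add, hexpσ t ht, ← hu, ← sq]
        refine mul_le_mul_of_nonneg_right ?_ (by positivity)
        linarith [Real.add_one_le_exp c]
      have h4 : c + 2 * σ t ≤ 3 * Y t := by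
        have := hΘge (σ t - A)
        simp only [hY]
        linarith
      exact h2.trans (h3.trans (Real.exp_le_exp.2 h4))

end Claimed.Agent.R316.B4

end SecWeights1D

/-!
# Row 316, B4-WeightsF: the three weights and the cutoffs on a ball, for a frame for which `‖z‖²` is plurisubharmonic

`s(z) = ‖z‖²` (smooth: `contDiff_norm_sq ℝ`).  Take `Q, P, E` from `exists_weights1D` and put `q = Q ∘ s`, `ψ = P ∘ s`, `η_ν = E_ν ∘ s`.
* smoothness on `ball 0 r`: `s` maps it into `Iio (r²)` (`ContDiffOn.comp`); `Iio` is open, so `ContDiffAt` at the points needed by `gradF_comp_real`, `qf_leviF_comp_real`.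
* `gradF a ψ z j = P'(s) gradF a s z j`,  `qf (leviF a α q z) v = Q'(s) qf (leviF a α s z) v + Q''(s) ‖∑ gradF a s z j v_j‖² ≥ Q''(s) ‖…‖² ≥ (1+1/ε) P'(s)² ‖…‖²` by `hs1`.
* `η_ν` is globally smooth, vanishes for `‖z‖² ≥ t_ν`, so `tsupport ⊆ closedBall 0 √t_ν ⊆ ball 0 r` (if `t_ν < 0` then `η_ν = 0`), compact.
* `∑ ‖gradF a η_ν z j‖² = E_ν'(s)² ∑ ‖gradF a s z j‖² ≤ 4 s E_ν'(s)² ≤ e^{P(s)}` by `hs2`.
* `eventually_one`: compose the eventual equality `E ν =ᶠ[𝓝 (s z)] 1` with the continuous `s` (`Filter.Tendsto.eventually`/`ContinuousAt.preimage_mem_nhds`).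
The flat case (`a = 0`, `α = 0`: `leviF_zero`, `Zf_zero_coef`, `levi_normSq`, `grad10_normSq`) is `B6E.exists_weights`.
-/

section SecWeightsF
set_option linter.unusedSectionVars false
open scoped ContDiff ComplexOrder ComplexConjugate Topology
open MeasureTheory Filter
open Claimed.Agent.R316.B6E (IsTest IsTestForm cx L2w)

namespace Claimed.Agent.R316.B4

variable {ι : Type} [Fintype ι] [DecidableEq ι]

/-- **the three weights**. -/
theorem exists_weightsF {r r' ε : ℝ} (hr' : 0 < r') (hr : r' < r) (hε : 0 < ε)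
    {a : ι → ι → CE ι → ℂ} {α : ι → ι → ι → CE ι → ℂ} (ha : ∀ j k, ContDiff ℝ ∞ (a j k))
    (hs1 : ∀ z ∈ Metric.ball (0 : CE ι) r, ∀ v : ι → ℂ,
      0 ≤ qf (leviF a α (fun y => ‖y‖ ^ 2) z) v)
    (hs2 : ∀ z ∈ Metric.ball (0 : CE ι) r,
      ∑ j, ‖gradF a (fun y => ‖y‖ ^ 2) z j‖ ^ 2 ≤ 4 * ‖z‖ ^ 2) :
    ∃ (q ψ : CE ι → ℝ) (η : ℕ → CE ι → ℝ),
      ContDiffOn ℝ ∞ q (Metric.ball 0 r) ∧ ContDiffOn ℝ ∞ ψ (Metric.ball 0 r) ∧
      (∀ z ∈ Metric.ball (0 : CE ι) r', q z = 0 ∧ ψ z = 0) ∧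
      (∀ z ∈ Metric.ball (0 : CE ι) r, 0 ≤ ψ z ∧ 2 * ψ z ≤ q z) ∧
      (∀ z ∈ Metric.ball (0 : CE ι) r, ∀ v : ι → ℂ,
        (1 + 1 / ε) * ‖∑ j, gradF a ψ z j * v j‖ ^ 2 ≤ qf (leviF a α q z) v) ∧
      IsCutoffSeqF (Metric.ball 0 r) a ψ η := by
  obtain ⟨Q, P, E, hQ, hP, h0, h1, h2, hE, hE01, hEz, hE1, hEd⟩ := exists_weights1D hr' hr hε
  have hr0 : 0 < r := hr'.trans hr
  set s : CE ι → ℝ := fun y => ‖y‖ ^ 2 with hs
  have hss : ContDiff ℝ ∞ s := contDiff_norm_sq ℝ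
  have hsd : ∀ z, DifferentiableAt ℝ s z := fun z => hss.differentiable (by simp) z
  have hs2' : ∀ z, ContDiffAt ℝ 2 s z := fun z => (hss.of_le (by norm_cast)).contDiffAt
  have hmaps : ∀ {ρ : ℝ}, 0 < ρ → ∀ z ∈ Metric.ball (0 : CE ι) ρ, s z < ρ ^ 2 := by
    intro ρ hρ z hz
    rw [mem_ball_zero_iff] at hz
    exact pow_lt_pow_left₀ hz (norm_nonneg _) (by norm_num)
  have hs0 : ∀ z, 0 ≤ s z := fun z => by positivity
  have hmapsTo : Set.MapsTo s (Metric.ball (0 : CE ι) r) (Set.Iio (r ^ 2)) := fun z hz =>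
    hmaps hr0 z hz
  have hQat : ∀ z ∈ Metric.ball (0 : CE ι) r, ContDiffAt ℝ ∞ Q (s z) := fun z hz =>
    hQ.contDiffAt (Iio_mem_nhds (hmaps hr0 z hz))
  have hPat : ∀ z ∈ Metric.ball (0 : CE ι) r, ContDiffAt ℝ ∞ P (s z) := fun z hz =>
    hP.contDiffAt (Iio_mem_nhds (hmaps hr0 z hz))
  refine ⟨fun y => Q (s y), fun y => P (s y), fun ν y => E ν (s y),
    hQ.comp hss.contDiffOn hmapsTo, hP.comp hss.contDiffOn hmapsTo,
    fun z hz => h0 _ (hmaps hr' z hz), fun z hz => h1 _ (hs0 z) (hmaps hr0 z hz), ?_, ?_⟩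
  · intro z hz v
    obtain ⟨d1, d2⟩ := h2 _ (hs0 z) (hmaps hr0 z hz)
    rw [qf_leviF_comp_real ha Q s ((hQat z hz).of_le (by norm_cast)) (hs2' z) v,
      gradF_comp_real P s ((hPat z hz).differentiableAt (by simp)) (hsd z)]
    have e : ∑ j, ((deriv P (s z) : ℝ) : ℂ) * gradF a s z j * v j
        = ((deriv P (s z) : ℝ) : ℂ) * ∑ j, gradF a s z j * v j := by
      rw [Finset.mul_sum]
      exact Finset.sum_congr rfl fun j _ => by ring
    rw [e, norm_mul, Complex.norm_real, mul_pow, Real.norm_eq_abs, sq_abs]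
    have h3 := hs1 z hz v
    have h4 : 0 ≤ ‖∑ j, gradF a s z j * v j‖ ^ 2 := by positivity
    nlinarith [mul_nonneg d1 h3, mul_le_mul_of_nonneg_right d2 h4]
  · refine ⟨fun ν => ?_, fun ν z => (hE01 ν _).1, fun ν z => (hE01 ν _).2, ?_, ?_⟩
    · -- test function
      obtain ⟨tν, htν, hz⟩ := hEz ν
      have hsm : ContDiff ℝ ∞ (cx fun y => E ν (s y)) := B6E.contDiff_cx ((hE ν).comp hss)
      have hsupp : tsupport (cx fun y => E ν (s y)) ⊆ Metric.closedBall 0 (Real.sqrt (max tν 0)) := by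
        refine closure_minimal ?_ Metric.isClosed_closedBall
        intro z hzs
        rw [mem_closedBall_zero_iff]
        by_contra hcon
        apply hzs
        have h5 : Real.sqrt (max tν 0) < ‖z‖ := not_le.1 hcon
        have h6 : max tν 0 < ‖z‖ ^ 2 := (Real.sqrt_lt' (lt_of_le_of_lt (Real.sqrt_nonneg _) h5)).1 h5
        have h7 : tν ≤ s z := ((le_max_left _ _).trans_lt h6).le
        simp [cx, hz _ h7]
      have hsub : Metric.closedBall (0 : CE ι) (Real.sqrt (max tν 0)) ⊆ Metric.ball 0 r := by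
        refine Metric.closedBall_subset_ball ?_
        rw [Real.sqrt_lt' hr0]
        exact max_lt htν (by positivity)
      exact ⟨hsm, (isCompact_closedBall _ _).of_isClosed_subset (isClosed_tsupport _) hsupp,
        hsupp.trans hsub⟩
    · intro z hz
      filter_upwards [hE1 _ (hmaps hr0 z hz)] with ν hν
      exact (hss.continuous.continuousAt (x := z)).eventually hν
    · intro ν z hz
      rw [gradF_comp_real (E ν) s ((hE ν).differentiable (by simp) _) (hsd z)]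
      have e : ∀ j, ‖((deriv (E ν) (s z) : ℝ) : ℂ) * gradF a s z j‖ ^ 2
          = (deriv (E ν) (s z)) ^ 2 * ‖gradF a s z j‖ ^ 2 := fun j => by
        rw [norm_mul, Complex.norm_real, mul_pow, Real.norm_eq_abs, sq_abs]
      simp only [e]
      rw [← Finset.mul_sum]
      have h3 := hs2 z hz
      have h4 := hEd ν _ (hs0 z) (hmaps hr0 z hz)
      calc (deriv (E ν) (s z)) ^ 2 * ∑ j, ‖gradF a s z j‖ ^ 2
          ≤ (deriv (E ν) (s z)) ^ 2 * (4 * ‖z‖ ^ 2) :=
            mul_le_mul_of_nonneg_left h3 (by positivity)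
        _ = 4 * s z * (deriv (E ν) (s z)) ^ 2 := by simp only [hs]; ring
        _ ≤ Real.exp (P (s z)) := h4

end Claimed.Agent.R316.B4

end SecWeightsF
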