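import Claimed.Agent.R316.B4.Density
import Claimed.Agent.R316.B4.BKH
import Claimed.Agent.R316.B4.Weights
import Claimed.Agent.R316.B4.FrameInt
import Claimed.Agent.R316.B4.Regular
import Claimed.Agent.R316.B4.Struct
import Claimed.Agent.R316.B6E.Pole

set_option autoImplicit false

/-!
# Row 316, B4-Ball: the dual estimate on a ball for smooth weights

Fix a test form `Φ` on `ball 0 R`; `⋃ tsupport (Φ j)` is compact, so it lies in `ball 0 r'` for some `0 < r' < r < R`.  For `ε > 0` take `q, ψ, η` from `exists_weightsF`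
(on `ball 0 r`).  On `Ω = ball 0 r`:  `φ, g` are smooth on a neighbourhood of `closedBall 0 r`, hence bounded; `e^{-(φ+q-ψ)} ≤ e^{-φ}` (`q - ψ ≥ ψ ≥ 0`), so
`g_j ∈ L2w Ω (φ+q-ψ)`; `WeakClosedF` by `weakClosedF_of_closed`; `basic_estimateF` (with `hC r`) gives `hA` of `dualEstF_of_basic` (frame restricted by `IsFrame.mono`) with
`C₁ = (1+ε) I_r`, `C' = I_r`, `I_r = ∫_{ball 0 r} H e^{-φ} ≤ I_R`.  Apply the resulting `DualEstF (ball 0 r) a g e^{φ+q-2ψ}` to `Φ`: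
on `ball 0 r' ⊇ supp Φ` we have `q = ψ = 0`.  Let `ε → 0`.
-/

section SecBall
set_option linter.unusedSectionVars false
open scoped ContDiff ComplexOrder ComplexConjugate Topology
open MeasureTheory Filter
open Claimed.Agent.R316.B6E (IsTest IsTestForm cx L2w)

namespace Claimed.Agent.R316.B4

variable {ι : Type} [Fintype ι] [DecidableEq ι]

/-- a compact subset of an open ball lies in a smaller ball. -/
theorem exists_lt_subset_ball_of_compact {R : ℝ} (hR : 0 < R) {K : Set (CE ι)} (hK : IsCompact K)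
    (hKR : K ⊆ Metric.ball 0 R) : ∃ r', 0 < r' ∧ r' < R ∧ K ⊆ Metric.ball 0 r' := by
  rcases K.eq_empty_or_nonempty with rfl | hne
  · exact ⟨R / 2, by positivity, by linarith, Set.empty_subset _⟩
  · obtain ⟨z₀, hz₀, hmax⟩ := hK.exists_isMaxOn hne continuous_norm.continuousOn
    have h0 : ‖z₀‖ < R := mem_ball_zero_iff.1 (hKR hz₀)
    refine ⟨(‖z₀‖ + R) / 2, by positivity, by linarith, fun z hz => ?_⟩
    rw [mem_ball_zero_iff]
    have : ‖z‖ ≤ ‖z₀‖ := hmax hz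
    linarith

/-- **Hörmander's estimate in dual form for a commuting frame, smooth weight on a ball.** -/
theorem dualEstF_ball_smooth {R : ℝ} (hR : 0 < R) {a : ι → ι → CE ι → ℂ}
    {α β : ι → ι → ι → CE ι → ℂ} (hfr : IsFrame (Metric.ball 0 R) a α β) {C : ℝ}
    (hC : ∀ r, 0 < r → r ≤ R → BKHConst (Metric.ball 0 r) a α C)
    (hs1 : ∀ z ∈ Metric.ball (0 : CE ι) R, ∀ v : ι → ℂ,
      0 ≤ qf (leviF a α (fun y => ‖y‖ ^ 2) z) v)
    (hs2 : ∀ z ∈ Metric.ball (0 : CE ι) R,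
      ∑ j, ‖gradF a (fun y => ‖y‖ ^ 2) z j‖ ^ 2 ≤ 4 * ‖z‖ ^ 2)
    {φ : CE ι → ℝ} (hφ : ContDiffOn ℝ ∞ φ (Metric.ball 0 R))
    (hpos : ∀ z ∈ Metric.ball (0 : CE ι) R, ∀ v : ι → ℂ,
      0 ≤ qf (leviF a α φ z) v - C * ∑ j, ‖v j‖ ^ 2)
    {g : ι → CE ι → ℂ} (hg : ∀ j, ContDiffOn ℝ ∞ (g j) (Metric.ball 0 R))
    (hclosed : ∀ z ∈ Metric.ball (0 : CE ι) R, ∀ j k, Zb a j (g k) z = Zb a k (g j) z)
    {H : CE ι → ℝ} (hH0 : ∀ z ∈ Metric.ball (0 : CE ι) R, 0 ≤ H z)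
    (hHint : IntegrableOn (fun z => H z * Real.exp (-φ z)) (Metric.ball 0 R))
    (hdom : ∀ z ∈ Metric.ball (0 : CE ι) R, ∀ v : ι → ℂ,
      ‖∑ j, g j z * conj (v j)‖ ^ 2 ≤ H z * (qf (leviF a α φ z) v - C * ∑ j, ‖v j‖ ^ 2)) :
    DualEstF (Metric.ball 0 R) a g (fun z => Real.exp (φ z))
      (∫ z in Metric.ball (0 : CE ι) R, H z * Real.exp (-φ z)) := by
  intro Φ hΦ
  have ha := hfr.smooth
  obtain ⟨K, hK, hKR, hΦK, hΦ0⟩ := B6E.exists_compact_testForm hΦ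
  obtain ⟨r', hr'0, hr'R, hKr'⟩ := exists_lt_subset_ball_of_compact hR hK hKR
  set r : ℝ := (r' + R) / 2 with hr
  have hr'r : r' < r := by rw [hr]; linarith
  have hrR : r < R := by rw [hr]; linarith
  have hr0 : 0 < r := hr'0.trans hr'r
  set Ω : Set (CE ι) := Metric.ball 0 r with hΩdef
  have hΩ : IsOpen Ω := Metric.isOpen_ball
  have hΩR : Ω ⊆ Metric.ball 0 R := Metric.ball_subset_ball hrR.le
  have hcl : Metric.closedBall (0 : CE ι) r ⊆ Metric.ball 0 R := Metric.closedBall_subset_ball hrR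
  have hΦΩ : IsTestForm Ω Φ := fun j =>
    ⟨(hΦ j).smooth, (hΦ j).compact, ((hΦK j).trans hKr').trans (Metric.ball_subset_ball hr'r.le)⟩
  set IR : ℝ := ∫ z in Metric.ball (0 : CE ι) R, H z * Real.exp (-φ z) with hIR
  set Ir : ℝ := ∫ z in Ω, H z * Real.exp (-φ z) with hIr
  set J : ℝ := ∫ z, ‖∑ j, Zbt a j (Φ j) z‖ ^ 2 * Real.exp (φ z) with hJ
  have hJ0 : 0 ≤ J := integral_nonneg fun z => by positivity
  have hIr0 : 0 ≤ Ir := setIntegral_nonneg hΩ.measurableSet fun z hz =>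
    mul_nonneg (hH0 z (hΩR hz)) (Real.exp_pos _).le
  have hIrR : Ir ≤ IR := by
    refine setIntegral_mono_set hHint ?_ (Eventually.of_forall hΩR)
    exact (ae_restrict_iff' Metric.isOpen_ball.measurableSet).2 (Eventually.of_forall fun z hz =>
      mul_nonneg (hH0 z hz) (Real.exp_pos _).le)
  -- the estimate with `1 + ε`
  have key : ∀ ε : ℝ, 0 < ε → ‖∫ z, ∑ j, g j z * Φ j z‖ ^ 2 ≤ (1 + ε) * (IR * J) := by
    intro ε hε
    obtain ⟨q, ψ, η, hq, hψ, h0, h1, hqψ, hη⟩ := exists_weightsF (α := α) hr'0 hr'r hε ha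
      (fun z hz => hs1 z (hΩR hz)) (fun z hz => hs2 z (hΩR hz))
    have hφΩ : ContDiffOn ℝ ∞ φ Ω := hφ.mono hΩR
    have hp : ContDiffOn ℝ ∞ (fun z => φ z + q z) Ω := hφΩ.add hq
    have hgL : ∀ j, L2w Ω (fun z => (fun y => φ y + q y) z - ψ z) (g j) := by
      intro j
      have cg : ContinuousOn (g j) Ω := ((hg j).mono hΩR).continuousOn
      refine ⟨cg.aestronglyMeasurable hΩ.measurableSet, ?_⟩
      have c1 : ContinuousOn (fun z => ‖g j z‖ ^ 2 * Real.exp (-φ z)) (Metric.closedBall 0 r) :=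
        (((hg j).continuousOn.mono hcl).norm.pow 2).mul
          (Real.continuous_exp.comp_continuousOn (hφ.continuousOn.mono hcl).neg)
      obtain ⟨M, hM⟩ := (isCompact_closedBall (0 : CE ι) r).exists_bound_of_continuousOn c1
      have c2 : ContinuousOn (fun z => ‖g j z‖ ^ 2 * Real.exp (-(φ z + q z - ψ z))) Ω :=
        (cg.norm.pow 2).mul (Real.continuous_exp.comp_continuousOn
          ((hφΩ.continuousOn.add hq.continuousOn).sub hψ.continuousOn).neg)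
      refine ⟨c2.aestronglyMeasurable hΩ.measurableSet,
        HasFiniteIntegral.restrict_of_bounded (C := M) measure_ball_lt_top ?_⟩
      refine (ae_restrict_iff' hΩ.measurableSet).2 (Eventually.of_forall fun z hz => ?_)
      have h2 := hM z (Metric.ball_subset_closedBall hz)
      rw [Real.norm_of_nonneg (by positivity)] at h2 ⊢
      refine le_trans ?_ h2
      refine mul_le_mul_of_nonneg_left (Real.exp_le_exp.2 ?_) (by positivity)
      have := h1 z hz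
      linarith [this.1, this.2]
    have hgc : WeakClosedF Ω a g := weakClosedF_of_closed ha hΩ (fun j => (hg j).mono hΩR)
      fun z hz => hclosed z (hΩR hz)
    have hA : ∀ F, IsTestForm Ω F →
        ‖∫ z, (∑ j, g j z * conj (F j z))
            * ((Real.exp (-((fun y => φ y + q y) z - ψ z)) : ℝ) : ℂ)‖ ^ 2
          ≤ (Ir * (1 + ε)) * (∫ z, ‖TstF a (fun y => φ y + q y) ψ F z‖ ^ 2
              * Real.exp (-((fun y => φ y + q y) z - 2 * ψ z)))
            + Ir * (∫ z, curlSqF a F z * Real.exp (-(fun y => φ y + q y) z)) := by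
      intro F hF
      have h2 := basic_estimateF hΩ ha (fun j k l => (hfr.smoothα j k l).mono hΩR)
        (hC r hr0 hrR.le) hφΩ hq hψ hε hqψ (fun z hz => (h1 z hz).2)
        (fun z hz => hpos z (hΩR hz)) (fun j => ((hg j).mono hΩR).continuousOn)
        (fun z hz => hH0 z (hΩR hz)) (hHint.mono_set hΩR) (fun z hz => hdom z (hΩR hz)) hF
      refine h2.trans (le_of_eq ?_)
      ring
    have hD := dualEstF_of_basic hΩ (hfr.mono hΩR) hp hψ hη hgL hgc hA Φ hΦΩ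
    have e : ∫ z, ‖∑ j, Zbt a j (Φ j) z‖ ^ 2 * Real.exp ((fun y => φ y + q y) z - 2 * ψ z) = J := by
      refine integral_congr_ae (Eventually.of_forall fun z => ?_)
      by_cases hz : z ∈ K
      · obtain ⟨e1, e2⟩ := h0 z (hKr' hz)
        simp only [e1, e2]
        norm_num
      · have : ∑ j, Zbt a j (Φ j) z = 0 := Finset.sum_eq_zero fun j _ =>
          Zbt_eq_zero_of_notMem_tsupport fun h => hz (hΦK j h)
        simp [this]
    rw [e] at hD
    refine hD.trans ?_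
    have : Ir * (1 + ε) * J ≤ IR * (1 + ε) * J :=
      mul_le_mul_of_nonneg_right (mul_le_mul_of_nonneg_right hIrR (by positivity)) hJ0
    linarith
  have hlim : Tendsto (fun ε : ℝ => (1 + ε) * (IR * J)) (𝓝[>] 0) (𝓝 ((1 + 0) * (IR * J))) :=
    (((continuous_const.add continuous_id).mul continuous_const).tendsto 0).mono_left
      nhdsWithin_le_nhds
  have := ge_of_tendsto hlim (eventually_mem_nhdsWithin.mono fun ε hε => key ε hε)
  simpa using this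

end Claimed.Agent.R316.B4

end SecBall

/-!
# Row 316, B4-Core: holomorphic coordinates for a commuting normalised frame with `a = O(|z|²)` (assembly of the analytic chain)
-/

section SecCore
set_option linter.unusedSectionVars false
open scoped ContDiff ComplexOrder ComplexConjugate Topology
open MeasureTheory Filter
open Claimed.Agent.R316.B6E (IsTest IsTestForm cx L2w)

namespace Claimed.Agent.R316.B4

variable {ι : Type} [Fintype ι] [DecidableEq ι]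

/-- a ball on which the whole `L²` machinery works. -/
structure GoodBall (R : ℝ) (a : ι → ι → CE ι → ℂ) (α β : ι → ι → ι → CE ι → ℂ) (C K₁ : ℝ) : Prop where
  pos : 0 < R
  frame : IsFrame (Metric.ball 0 R) a α β
  small : ∀ z ∈ Metric.ball (0 : CE ι) R, ∑ j, ∑ k, ‖a j k z‖ ^ 2 ≤ 1 / 4
  bkh : ∀ r, 0 < r → r ≤ R → BKHConst (Metric.ball 0 r) a α C
  C_nonneg : 0 ≤ C
  K₁_nonneg : 0 ≤ K₁
  half : ∀ z ∈ Metric.ball (0 : CE ι) R, K₁ * ‖z‖ ^ 2 ≤ 1 / 2
  levi_ge : ∀ z ∈ Metric.ball (0 : CE ι) R, ∀ v : ι → ℂ,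
    (1 - K₁ * ‖z‖ ^ 2) * ∑ j, ‖v j‖ ^ 2 ≤ qf (leviF a α (fun y => ‖y‖ ^ 2) z) v
  grad_le : ∀ z ∈ Metric.ball (0 : CE ι) R, ∀ v : ι → ℂ,
    ‖∑ j, gradF a (fun y => ‖y‖ ^ 2) z j * v j‖ ^ 2
      ≤ ‖z‖ ^ 2 * (1 + K₁ * ‖z‖ ^ 2) * ∑ j, ‖v j‖ ^ 2
  gradSq_le : ∀ z ∈ Metric.ball (0 : CE ι) R,
    ∑ j, ‖gradF a (fun y => ‖y‖ ^ 2) z j‖ ^ 2 ≤ 4 * ‖z‖ ^ 2

/-- the Levi form of the pole weights dominates the BKH error. -/
theorem qf_leviF_poleW_ge {R : ℝ} {a : ι → ι → CE ι → ℂ} {α β : ι → ι → ι → CE ι → ℂ} {C K₁ : ℝ}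
    (hgb : GoodBall R a α β C K₁) {ε : ℝ} (hε : 0 < ε) {z : CE ι}
    (hz : z ∈ Metric.ball (0 : CE ι) R) (v : ι → ℂ) :
    ∑ j, ‖v j‖ ^ 2 ≤ qf (leviF a α
      (poleW ι (2 * (((Fintype.card ι : ℝ) + 1) * (2 * K₁) + C + 1)) ε) z) v
        - C * ∑ j, ‖v j‖ ^ 2 := by
  have ha := hgb.frame.smooth
  set n1 : ℝ := (Fintype.card ι : ℝ) + 1 with hn1
  have hn1pos : 0 < n1 := by positivity
  set A : ℝ := 2 * (n1 * (2 * K₁) + C + 1) with hA
  set S : ℝ := ∑ j, ‖v j‖ ^ 2 with hS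
  have hS0 : 0 ≤ S := Finset.sum_nonneg fun j _ => by positivity
  have hsq : ContDiff ℝ ∞ (fun y : CE ι => ‖y‖ ^ 2) := contDiff_norm_sq ℝ
  have hlog : ContDiffAt ℝ 2 (fun y : CE ι => Real.log (‖y‖ ^ 2 + ε)) z := by
    have h1 : ContDiffAt ℝ 2 (fun y : CE ι => ‖y‖ ^ 2 + ε) z :=
      ((hsq.of_le (by norm_cast)).add contDiff_const).contDiffAt
    exact h1.log (by positivity)
  have hs2 : ContDiffAt ℝ 2 (fun y : CE ι => ‖y‖ ^ 2) z := (hsq.of_le (by norm_cast)).contDiffAt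
  have e1 : leviF a α (poleW ι A ε) z
      = ((n1 : ℝ) : ℂ) • leviF a α (fun y => Real.log (‖y‖ ^ 2 + ε)) z
        + ((A : ℝ) : ℂ) • leviF a α (fun y => ‖y‖ ^ 2) z := by
    have : poleW ι A ε = fun y => n1 * Real.log (‖y‖ ^ 2 + ε) + A * ‖y‖ ^ 2 := rfl
    rw [this, leviF_add ha (contDiffAt_const.mul hlog) (contDiffAt_const.mul hs2),
      leviF_const_mul ha n1 hlog, leviF_const_mul ha A hs2]
  rw [e1, B6E.qf_add, B6E.qf_smul_real, B6E.qf_smul_real]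
  have h1 := hgb.levi_ge z hz v
  have h2 := hgb.grad_le z hz v
  have h3 := qf_leviF_log_ge (α := α) ha hgb.K₁_nonneg h1 h2 hε
  have h4 := hgb.half z hz
  have h5 : (1 / 2) * S ≤ qf (leviF a α (fun y => ‖y‖ ^ 2) z) v := by
    refine le_trans ?_ h1
    exact mul_le_mul_of_nonneg_right (by linarith) hS0
  have hA0 : 0 ≤ A := by
    have := hgb.C_nonneg
    have := hgb.K₁_nonneg
    positivity
  have h6 : n1 * (-(2 * K₁) * S) ≤ n1 * qf (leviF a α (fun y => Real.log (‖y‖ ^ 2 + ε)) z) v :=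
    mul_le_mul_of_nonneg_left h3 hn1pos.le
  have h7 : A * ((1 / 2) * S) ≤ A * qf (leviF a α (fun y => ‖y‖ ^ 2) z) v :=
    mul_le_mul_of_nonneg_left h5 hA0
  have h8 : A * ((1 / 2) * S) = (n1 * (2 * K₁) + C + 1) * S := by rw [hA]; ring
  nlinarith

/-- `∫ |u|²/W < ∞` with `0 < W ≤ M` a.e. implies `u ∈ L²`. -/
theorem memLp_of_integrableOn_div {Ω : Set (CE ι)} {u : CE ι → ℂ} {W : CE ι → ℝ} {M : ℝ}
    (hu : AEStronglyMeasurable u (volume.restrict Ω))
    (hint : IntegrableOn (fun z => ‖u z‖ ^ 2 / W z) Ω)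
    (hWpos : ∀ᵐ z ∂(volume.restrict Ω), 0 < W z) (hWM : ∀ᵐ z ∂(volume.restrict Ω), W z ≤ M) :
    MemLp u 2 (volume.restrict Ω) := by
  rw [memLp_two_iff_integrable_sq_norm hu]
  refine Integrable.mono' (hint.const_mul M) (hu.norm.pow 2) ?_
  filter_upwards [hWpos, hWM] with z h1 h2
  rw [Real.norm_eq_abs, abs_of_nonneg (by positivity)]
  have h3 : ‖u z‖ ^ 2 = W z * (‖u z‖ ^ 2 / W z) := by field_simp
  calc ‖u z‖ ^ 2 = W z * (‖u z‖ ^ 2 / W z) := h3
    _ ≤ M * (‖u z‖ ^ 2 / W z) := by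
      apply mul_le_mul_of_nonneg_right h2
      positivity

theorem ae_ne_zero [Nonempty ι] (Ω : Set (CE ι)) : ∀ᵐ z ∂(volume.restrict Ω), z ≠ (0 : CE ι) := by
  have : Nontrivial (CE ι) := by
    obtain ⟨j⟩ := ‹Nonempty ι›
    refine ⟨⟨EuclideanSpace.single j (1:ℂ), 0, ?_⟩⟩
    intro h
    have := congrArg (fun v : CE ι => v j) h
    simp at this
  refine ae_restrict_of_ae ?_
  rw [ae_iff]
  simp

/-- **solution of `Z̄ u = g` with vanishing 1-jet at `0`**, for closed `g = O(|z|²)`. -/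
theorem solve_with_pole [Nonempty ι] {R : ℝ} {a : ι → ι → CE ι → ℂ} {α β : ι → ι → ι → CE ι → ℂ}
    {C K₁ : ℝ} (hgb : GoodBall R a α β C K₁) {g : ι → CE ι → ℂ}
    (hg : ∀ j, ContDiffOn ℝ ∞ (g j) (Metric.ball 0 R))
    (hclosed : ∀ z ∈ Metric.ball (0 : CE ι) R, ∀ j k, Zb a j (g k) z = Zb a k (g j) z)
    {Kg : ℝ} (hgK : ∀ z ∈ Metric.ball (0 : CE ι) R, ∀ j, ‖g j z‖ ≤ Kg * ‖z‖ ^ 2) :
    ∃ u : CE ι → ℂ, ContDiffOn ℝ ∞ u (Metric.ball 0 R) ∧
      (∀ z ∈ Metric.ball (0 : CE ι) R, ∀ j, Zb a j u z = g j z) ∧ u 0 = 0 ∧ fderiv ℝ u 0 = 0 := by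
  have ha := hgb.frame.smooth
  have hR := hgb.pos
  set A : ℝ := 2 * (((Fintype.card ι : ℝ) + 1) * (2 * K₁) + C + 1) with hA
  have hA0 : 0 ≤ A := by
    have := hgb.C_nonneg
    have := hgb.K₁_nonneg
    positivity
  obtain ⟨C₀, hC₀, hint⟩ := pole_integral_bound hA0 (fun j => (hg j).continuousOn) hgK
  have hs1 : ∀ z ∈ Metric.ball (0 : CE ι) R, ∀ v : ι → ℂ,
      0 ≤ qf (leviF a α (fun y => ‖y‖ ^ 2) z) v := by
    intro z hz v
    refine le_trans ?_ (hgb.levi_ge z hz v)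
    have := hgb.half z hz
    exact mul_nonneg (by linarith) (Finset.sum_nonneg fun j _ => by positivity)
  -- the dual estimates for the regularised weights
  have hDε : ∀ ε : ℝ, 0 < ε →
      DualEstF (Metric.ball 0 R) a g (fun z => Real.exp (poleW ι A ε z)) C₀ := by
    intro ε hε
    have hkey := fun z hz v => qf_leviF_poleW_ge hgb hε (z := z) hz v
    have h := dualEstF_ball_smooth hR hgb.frame hgb.bkh hs1 hgb.gradSq_le
      (contDiff_poleW A hε).contDiffOn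
      (fun z hz v => le_trans (Finset.sum_nonneg fun j _ => by positivity) (hkey z hz v))
      hg hclosed (H := fun z => ∑ j, ‖g j z‖ ^ 2)
      (fun z _ => Finset.sum_nonneg fun j _ => by positivity) (hint ε hε).1
      (fun z hz v => by
        have h1 : ‖∑ j, g j z * conj (v j)‖ ≤ ∑ j, ‖g j z‖ * ‖v j‖ := by
          refine (norm_sum_le _ _).trans (le_of_eq ?_)
          refine Finset.sum_congr rfl fun j _ => ?_
          rw [norm_mul, RCLike.norm_conj]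
        calc ‖∑ j, g j z * conj (v j)‖ ^ 2 ≤ (∑ j, ‖g j z‖ * ‖v j‖) ^ 2 := by gcongr
          _ ≤ (∑ j, ‖g j z‖ ^ 2) * ∑ j, ‖v j‖ ^ 2 := Finset.sum_mul_sq_le_sq_mul_sq _ _ _
          _ ≤ _ := mul_le_mul_of_nonneg_left (hkey z hz v)
              (Finset.sum_nonneg fun j _ => by positivity))
    exact h.mono_const (fun z _ => (Real.exp_pos _).le) (hint ε hε).2
  -- the limit weight
  set W : CE ι → ℝ := fun z => ‖z‖ ^ (2 * (Fintype.card ι + 1)) * Real.exp (A * ‖z‖ ^ 2) with hW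
  have hWcont : Continuous W := by fun_prop
  have hεpos : ∀ ν : ℕ, (0 : ℝ) < 1 / ((ν : ℝ) + 1) := fun ν => by positivity
  have hbound : ∀ z ∈ Metric.ball (0 : CE ι) R, ∀ ν : ℕ,
      Real.exp (poleW ι A (1 / ((ν : ℝ) + 1)) z)
        ≤ (R ^ 2 + 1) ^ (Fintype.card ι + 1) * Real.exp (A * R ^ 2) := by
    intro z hz ν
    rw [exp_poleW A (hεpos ν)]
    have hz' : ‖z‖ < R := by simpa using hz
    have h1 : ‖z‖ ^ 2 ≤ R ^ 2 := by gcongr
    have h2 : 1 / ((ν : ℝ) + 1) ≤ 1 := by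
      rw [div_le_one (by positivity)]
      have : (0 : ℝ) ≤ ν := Nat.cast_nonneg ν
      linarith
    have h3 := (hεpos ν).le
    gcongr
  have hD : DualEstF (Metric.ball 0 R) a g W C₀ := by
    refine dualEstF_limit ha (Ων := fun _ => Metric.ball 0 R)
      (Wν := fun ν z => Real.exp (poleW ι A (1 / ((ν : ℝ) + 1)) z))
      (fun K hK _ => Eventually.of_forall fun _ => hK) (fun _ => Metric.isOpen_ball)
      (fun ν => hDε _ (hεpos ν)) (fun ν => ?_) (fun K hK _ => ?_)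
      (fun z _ => tendsto_exp_poleW A z)
    · exact (Real.continuous_exp.comp (contDiff_poleW A (hεpos ν)).continuous).aestronglyMeasurable
    · refine ⟨(R ^ 2 + 1) ^ (Fintype.card ι + 1) * Real.exp (A * R ^ 2),
        Eventually.of_forall fun ν z hz => ?_⟩
      rw [abs_of_pos (Real.exp_pos _)]
      exact hbound z (hK hz) ν
  have hW0 : ∀ z ∈ Metric.ball (0 : CE ι) R, 0 ≤ W z := fun z _ => by positivity
  have hWle : ∀ z ∈ Metric.ball (0 : CE ι) R,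
      W z ≤ (R ^ 2 + 1) ^ (Fintype.card ι + 1) * Real.exp (A * R ^ 2) := fun z hz =>
    le_of_tendsto' (tendsto_exp_poleW A z) fun ν => hbound z hz ν
  obtain ⟨u, hum, -, hui, -, huw⟩ := exists_weak_solutionF Metric.isOpen_ball ha
    (fun j => (hg j).continuousOn.locallyIntegrableOn Metric.isOpen_ball.measurableSet) hW0
    hWcont.aestronglyMeasurable (fun K hK _ => ⟨_, fun z hz => hWle z (hK hz)⟩) hC₀ hD
  have hWpos : ∀ᵐ z ∂(volume.restrict (Metric.ball (0 : CE ι) R)), 0 < W z := by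
    filter_upwards [ae_ne_zero (Metric.ball (0 : CE ι) R)] with z hz
    have : 0 < ‖z‖ := norm_pos_iff.2 hz
    positivity
  have hu2 : MemLp u 2 (volume.restrict (Metric.ball (0 : CE ι) R)) :=
    memLp_of_integrableOn_div hum hui hWpos
      ((ae_restrict_iff' Metric.isOpen_ball.measurableSet).2 (Eventually.of_forall hWle))
  obtain ⟨ũ, hũ, hũu, hũeq⟩ := weak_Zb_regular Metric.isOpen_ball ha hgb.small hu2 hg huw
  -- the pole
  have hpole : IntegrableOn (fun z => ‖ũ z‖ ^ 2 / ‖z‖ ^ (2 * (Fintype.card ι + 1)))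
      (Metric.ball 0 R) := by
    have h1 : IntegrableOn (fun z => ‖ũ z‖ ^ 2 / W z) (Metric.ball 0 R) := by
      refine (integrable_congr ?_).2 hui
      filter_upwards [hũu] with z hz
      rw [hz]
    have h2 : (fun z => ‖ũ z‖ ^ 2 / ‖z‖ ^ (2 * (Fintype.card ι + 1)))
        = fun z => ‖ũ z‖ ^ 2 / W z * Real.exp (A * ‖z‖ ^ 2) := by
      funext z
      have he : Real.exp (A * ‖z‖ ^ 2) ≠ 0 := (Real.exp_pos _).ne'
      simp only [hW]
      rw [div_mul_eq_mul_div, mul_div_mul_right _ _ he]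
    rw [h2]
    refine Integrable.mul_bdd (c := Real.exp (A * R ^ 2)) h1 (by fun_prop) ?_
    refine (ae_restrict_iff' Metric.isOpen_ball.measurableSet).2 (Eventually.of_forall fun z hz => ?_)
    rw [Real.norm_eq_abs, abs_of_pos (Real.exp_pos _)]
    have hz' : ‖z‖ < R := by simpa using hz
    have h1 : ‖z‖ ^ 2 ≤ R ^ 2 := by gcongr
    gcongr
  have hd0 : DifferentiableAt ℝ ũ 0 :=
    (hũ.contDiffAt (Metric.ball_mem_nhds 0 hR)).differentiableAt (by simp)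
  obtain ⟨h1, h2⟩ := B6E.vanish_of_integrable_pole_real hR hd0 hpole
  exact ⟨ũ, hũ, hũeq, h1, h2⟩

/-- **a good ball exists.** -/
theorem exists_goodBall {a : ι → ι → CE ι → ℂ} (ha : ∀ j k, ContDiff ℝ ∞ (a j k))
    (h0 : ∀ j k, a j k 0 = 0) (hd0 : ∀ j k, fderiv ℝ (a j k) 0 = 0) {r₁ : ℝ} (hr₁ : 0 < r₁)
    (hcomm : ∀ z ∈ Metric.ball (0 : CE ι) r₁, ∀ j k l, Zb a j (a k l) z = Zb a k (a j l) z) :
    ∃ (R : ℝ) (α β : ι → ι → ι → CE ι → ℂ) (C K K₁ : ℝ), R ≤ r₁ ∧ GoodBall R a α β C K₁ ∧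
      ∀ z ∈ Metric.ball (0 : CE ι) R, ∀ j k, ‖a j k z‖ ≤ K * ‖z‖ ^ 2 := by
  -- smallness
  have hcont : Continuous fun z : CE ι => ∑ j, ∑ k, ‖a j k z‖ ^ 2 :=
    continuous_finsetSum _ fun j _ => continuous_finsetSum _ fun k _ =>
      ((ha j k).continuous.norm.pow 2)
  have hzero : (∑ j, ∑ k, ‖a j k (0 : CE ι)‖ ^ 2) = 0 := by simp [h0]
  have hev : ∀ᶠ z in 𝓝 (0 : CE ι), ∑ j, ∑ k, ‖a j k z‖ ^ 2 < 1 / 4 := by
    have := hcont.continuousAt (x := (0 : CE ι))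
    refine this.eventually_lt continuousAt_const ?_
    rw [hzero]; norm_num
  obtain ⟨ρ, hρ, hρs⟩ := Metric.eventually_nhds_iff_ball.1 hev
  set R₁ : ℝ := min ρ r₁ with hR₁
  have hR₁pos : 0 < R₁ := lt_min hρ hr₁
  have hsmall₁ : ∀ z ∈ Metric.ball (0 : CE ι) R₁, ∑ j, ∑ k, ‖a j k z‖ ^ 2 ≤ 1 / 4 := fun z hz =>
    (hρs z (Metric.ball_subset_ball (min_le_left _ _) hz)).le
  have hcomm₁ : ∀ z ∈ Metric.ball (0 : CE ι) R₁, ∀ j k l,
      Zb a j (a k l) z = Zb a k (a j l) z := fun z hz =>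
    hcomm z (Metric.ball_subset_ball (min_le_right _ _) hz)
  obtain ⟨α, β, hfr₁⟩ := exists_struct ha Metric.isOpen_ball hsmall₁ hcomm₁
  have hhalf : R₁ / 2 < R₁ := by linarith
  obtain ⟨K, hK, hV⟩ := exists_van2 (by positivity : 0 < R₁ / 2) hfr₁ hhalf h0 hd0
  obtain ⟨M, -, hM⟩ := exists_frameBd hfr₁ hhalf
  obtain ⟨R₂, K₁, hR₂, hR₂le, hK₁, hest⟩ := normSqF_estimates ha (by positivity) hK hV
  obtain ⟨C, hC, hbkh⟩ := exists_bkhConst ι M
  set R : ℝ := min R₂ (min 1 (1 / (2 * K₁ + 1))) with hR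
  have hRpos : 0 < R := lt_min hR₂ (lt_min one_pos (by positivity))
  have hRR₂ : R ≤ R₂ := min_le_left _ _
  have hR1 : R ≤ 1 := (min_le_right _ _).trans (min_le_left _ _)
  have hRK : R ≤ 1 / (2 * K₁ + 1) := (min_le_right _ _).trans (min_le_right _ _)
  have hRhalf : R ≤ R₁ / 2 := hRR₂.trans hR₂le
  have hsub₂ : Metric.ball (0 : CE ι) R ⊆ Metric.ball 0 R₂ := Metric.ball_subset_ball hRR₂
  have hsubh : Metric.ball (0 : CE ι) R ⊆ Metric.ball 0 (R₁ / 2) := Metric.ball_subset_ball hRhalf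
  have hsub₁ : Metric.ball (0 : CE ι) R ⊆ Metric.ball 0 R₁ :=
    hsubh.trans (Metric.ball_subset_ball hhalf.le)
  refine ⟨R, α, β, C, K, K₁, ?_, ⟨hRpos, hfr₁.mono hsub₁, fun z hz => hsmall₁ z (hsub₁ hz), ?_, hC,
    hK₁, ?_, fun z hz => (hest z (hsub₂ hz)).1, fun z hz => (hest z (hsub₂ hz)).2.1,
    fun z hz => (hest z (hsub₂ hz)).2.2⟩, fun z hz => hV.a_le z (hsubh hz)⟩
  · have : R₁ ≤ r₁ := min_le_right _ _
    linarith
  · intro r _ hrR
    have hs : Metric.ball (0 : CE ι) r ⊆ Metric.ball 0 (R₁ / 2) :=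
      Metric.ball_subset_ball (hrR.trans hRhalf)
    exact hbkh _ a α β Metric.isOpen_ball
      (hfr₁.mono (hs.trans (Metric.ball_subset_ball hhalf.le))) (hM.mono hs)
  · intro z hz
    have hz' : ‖z‖ < R := by simpa using hz
    have h1 : ‖z‖ ^ 2 ≤ R * 1 := by
      have : ‖z‖ ^ 2 = ‖z‖ * ‖z‖ := sq _
      rw [this]
      exact mul_le_mul hz'.le (hz'.le.trans hR1) (norm_nonneg _) hRpos.le
    have h2 : K₁ * ‖z‖ ^ 2 ≤ K₁ * (1 / (2 * K₁ + 1)) := by
      apply mul_le_mul_of_nonneg_left _ hK₁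
      linarith
    have h3 : K₁ * (1 / (2 * K₁ + 1)) ≤ 1 / 2 := by
      rw [mul_one_div, div_le_div_iff₀ (by positivity) (by norm_num)]
      linarith
    linarith

/-- **Core theorem**: a commuting normalised frame with `a(0) = 0`, `da(0) = 0` has holomorphic coordinates near `0`. -/
theorem exists_frame_coordinates [Nonempty ι] {a : ι → ι → CE ι → ℂ}
    (ha : ∀ j k, ContDiff ℝ ∞ (a j k))
    (h0 : ∀ j k, a j k 0 = 0) (hd0 : ∀ j k, fderiv ℝ (a j k) 0 = 0) {r₁ : ℝ} (hr₁ : 0 < r₁)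
    (hcomm : ∀ z ∈ Metric.ball (0 : CE ι) r₁, ∀ j k l, Zb a j (a k l) z = Zb a k (a j l) z) :
    ∃ (r : ℝ) (w : ι → CE ι → ℂ), 0 < r ∧ r ≤ r₁ ∧
      (∀ l, ContDiffOn ℝ ∞ (w l) (Metric.ball 0 r)) ∧
      (∀ z ∈ Metric.ball (0 : CE ι) r, ∀ j l, Zb a j (w l) z = 0) ∧
      (∀ l, w l 0 = 0) ∧ (∀ l v, fderiv ℝ (w l) 0 v = v l) := by
  obtain ⟨R, α, β, C, K, K₁, hRr, hgb, haK⟩ := exists_goodBall ha h0 hd0 hr₁ hcomm
  have hsolve : ∀ l : ι, ∃ u : CE ι → ℂ, ContDiffOn ℝ ∞ u (Metric.ball 0 R) ∧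
      (∀ z ∈ Metric.ball (0 : CE ι) R, ∀ j, Zb a j u z = a j l z) ∧ u 0 = 0 ∧ fderiv ℝ u 0 = 0 :=
    fun l => solve_with_pole hgb (g := fun j => a j l) (fun j => (ha j l).contDiffOn)
      (fun z hz j k => hgb.frame.comm z hz j k l) (Kg := K) (fun z hz j => haK z hz j l)
  choose u hu1 hu2 hu3 hu4 using hsolve
  have hdu : ∀ l, ∀ z ∈ Metric.ball (0 : CE ι) R, DifferentiableAt ℝ (u l) z := fun l z hz =>
    ((hu1 l).contDiffAt (Metric.isOpen_ball.mem_nhds hz)).differentiableAt (by simp)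
  refine ⟨R, fun l z => z l - u l z, hgb.pos, hRr, fun l => contDiff_coord.contDiffOn.sub (hu1 l),
    fun z hz j l => ?_, fun l => by simp [hu3], fun l v => ?_⟩
  · rw [Zb_sub differentiableAt_coord (hdu l z hz), Zb_coord, hu2 l z hz j, sub_self]
  · have h0mem : (0 : CE ι) ∈ Metric.ball (0 : CE ι) R := Metric.mem_ball_self hgb.pos
    rw [fderiv_fun_sub differentiableAt_coord (hdu l 0 h0mem), hu4 l]
    have h1 : fderiv ℝ (fun w : CE ι => w l) 0
        = ((EuclideanSpace.proj l : CE ι →L[ℂ] ℂ).restrictScalars ℝ) :=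
      ((EuclideanSpace.proj l : CE ι →L[ℂ] ℂ).restrictScalars ℝ).fderiv
    rw [h1]
    simp

end Claimed.Agent.R316.B4

end SecCore
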