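import Claimed.Agent.R316.B4.Fried
import Claimed.Agent.R316.B4.FrameInt
import Claimed.Agent.R316.Pack014_2

set_option autoImplicit false

/-!
# Row 316, B4-Density (whole file SORRY-FREE): `L²` calculus

`L2Null μ G` (`Fried.lean`): `G ν → 0` in `L²(μ)`.  Here: comparison, change of measure, dominated convergence, convergence of norms and pairings.
Weighted spaces: `wt q = e^{-q/2}`; `f ∈ L²(Ω, e^{-q})` iff `wt q * f ∈ L²(volume.restrict Ω)` (`l2w_memLp`, `l2w_of_memLp`).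
All convergence statements of this file are of the form `L2Null (volume.restrict Ω) (fun ν z => wt q z * (X ν z - x z))`.
-/

section SecL2Calc
set_option linter.unusedSectionVars false
open scoped ContDiff ComplexOrder ComplexConjugate Topology ENNReal
open MeasureTheory Filter
open Claimed.Agent.R316.B6E (IsTest IsTestForm cx L2w)

namespace Claimed.Agent.R316.B4

section abstract

variable {α : Type} [MeasurableSpace α] {μ : Measure α}

theorem L2Null.of_le_mul {G H : ℕ → α → ℂ} (h : L2Null μ G)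
    (hm : ∀ ν, AEStronglyMeasurable (H ν) μ) {M : ℝ}
    (hle : ∀ ν, ∀ᵐ x ∂μ, ‖H ν x‖ ≤ M * ‖G ν x‖) : L2Null μ H := by
  refine ⟨fun ν => (h.1 ν).of_le_mul (hm ν) (hle ν), ?_⟩
  have h2 := ENNReal.Tendsto.const_mul (a := ENNReal.ofReal M) h.2 (Or.inr ENNReal.ofReal_ne_top)
  rw [mul_zero] at h2
  exact tendsto_of_tendsto_of_tendsto_of_le_of_le tendsto_const_nhds h2 (fun _ => zero_le)
    (fun ν => eLpNorm_le_mul_eLpNorm_of_ae_le_mul (hle ν) 2)

theorem L2Null.mono_measure {G : ℕ → α → ℂ} {μ' : Measure α} (h : L2Null μ G) (hle : μ' ≤ μ) :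
    L2Null μ' G :=
  ⟨fun ν => (h.1 ν).mono_measure hle,
    tendsto_of_tendsto_of_tendsto_of_le_of_le tendsto_const_nhds h.2 (fun _ => zero_le)
      (fun _ => eLpNorm_mono_measure _ hle)⟩

theorem L2Null.congr_ae {G H : ℕ → α → ℂ} (h : L2Null μ G) (e : ∀ ν, H ν =ᵐ[μ] G ν) :
    L2Null μ H := by
  refine ⟨fun ν => (memLp_congr_ae (e ν)).2 (h.1 ν), ?_⟩
  simp only [fun ν => eLpNorm_congr_ae (p := 2) (e ν)]
  exact h.2

theorem l2Null_of_tendsto_integral {G : ℕ → α → ℂ} (hG : ∀ ν, MemLp (G ν) 2 μ)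
    (h : Tendsto (fun ν => ∫ x, ‖G ν x‖ ^ 2 ∂μ) atTop (𝓝 0)) : L2Null μ G := by
  refine ⟨hG, ?_⟩
  have e : ∀ ν, eLpNorm (G ν) 2 μ = ENNReal.ofReal (Real.sqrt (∫ x, ‖G ν x‖ ^ 2 ∂μ)) := by
    intro ν
    rw [B6E.integral_sq_eq_eLpNorm (hG ν), Real.sqrt_sq ENNReal.toReal_nonneg,
      ENNReal.ofReal_toReal (hG ν).2.ne]
  simp only [e]
  have h1 : Tendsto (fun ν => Real.sqrt (∫ x, ‖G ν x‖ ^ 2 ∂μ)) atTop (𝓝 0) := by
    simpa [Function.comp_def] using (Real.continuous_sqrt.tendsto 0).comp h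
  simpa [Function.comp_def] using (ENNReal.continuous_ofReal.tendsto 0).comp h1

/-- dominated convergence in `L²`. -/
theorem l2Null_of_dominated {U : α → ℂ} (hU : MemLp U 2 μ) {c : ℕ → α → ℂ}
    (hc : ∀ ν, AEStronglyMeasurable (c ν) μ) {M : ℝ} (hM : ∀ ν, ∀ᵐ x ∂μ, ‖c ν x‖ ≤ M)
    (hlim : ∀ᵐ x ∂μ, Tendsto (fun ν => c ν x) atTop (𝓝 0)) :
    L2Null μ (fun ν x => c ν x * U x) := by
  have hle : ∀ ν, ∀ᵐ x ∂μ, ‖c ν x * U x‖ ≤ M * ‖U x‖ := fun ν => by
    filter_upwards [hM ν] with x hx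
    rw [norm_mul]; exact mul_le_mul_of_nonneg_right hx (norm_nonneg _)
  have hmem : ∀ ν, MemLp (fun x => c ν x * U x) 2 μ := fun ν =>
    hU.of_le_mul ((hc ν).mul hU.1) (hle ν)
  refine l2Null_of_tendsto_integral hmem ?_
  have hUi : Integrable (fun x => ‖U x‖ ^ 2) μ := (memLp_two_iff_integrable_sq_norm hU.1).1 hU
  have := tendsto_integral_of_dominated_convergence (μ := μ)
    (F := fun ν x => ‖c ν x * U x‖ ^ 2) (f := fun _ => (0 : ℝ)) (fun x => M ^ 2 * ‖U x‖ ^ 2)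
    (fun ν => ((hmem ν).1.norm.pow 2)) (hUi.const_mul _) ?_ ?_
  · simpa using this
  · intro ν
    filter_upwards [hle ν] with x hx
    rw [Real.norm_of_nonneg (by positivity), ← mul_pow]
    exact pow_le_pow_left₀ (norm_nonneg _) hx 2
  · filter_upwards [hlim] with x hx
    have h1 : Tendsto (fun ν => ‖c ν x * U x‖ ^ 2) atTop (𝓝 (‖(0 : ℂ) * U x‖ ^ 2)) :=
      ((hx.mul_const (U x)).norm).pow 2
    simpa using h1

theorem L2Null.memLp_of_sub {G : ℕ → α → ℂ} {g : α → ℂ} (hg : MemLp g 2 μ)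
    (h : L2Null μ (fun ν x => G ν x - g x)) (ν : ℕ) : MemLp (G ν) 2 μ := by
  have h1 := (h.1 ν).add hg
  have e : (fun x => G ν x - g x) + g = G ν := by
    funext x; simp
  rwa [e] at h1

theorem L2Null.tendsto_toLp {G : ℕ → α → ℂ} {g : α → ℂ} (hg : MemLp g 2 μ)
    (h : L2Null μ (fun ν x => G ν x - g x)) :
    Tendsto (fun ν => (h.memLp_of_sub hg ν).toLp (G ν)) atTop (𝓝 (hg.toLp g)) :=
  (Lp.tendsto_Lp_iff_tendsto_eLpNorm'' G (h.memLp_of_sub hg) g hg).2 h.2

/-- the squared norms converge. -/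
theorem L2Null.tendsto_integral_sq {G : ℕ → α → ℂ} {g : α → ℂ} (hg : MemLp g 2 μ)
    (h : L2Null μ (fun ν x => G ν x - g x)) :
    Tendsto (fun ν => ∫ x, ‖G ν x‖ ^ 2 ∂μ) atTop (𝓝 (∫ x, ‖g x‖ ^ 2 ∂μ)) := by
  have h1 := ((h.tendsto_toLp hg).norm).pow 2
  simpa only [l2_norm_sq_toLp] using h1

/-- the pairings converge. -/
theorem L2Null.tendsto_integral_mul_conj {G : ℕ → α → ℂ} {g k : α → ℂ} (hg : MemLp g 2 μ)
    (hk : MemLp k 2 μ) (h : L2Null μ (fun ν x => G ν x - g x)) :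
    Tendsto (fun ν => ∫ x, k x * conj (G ν x) ∂μ) atTop (𝓝 (∫ x, k x * conj (g x) ∂μ)) := by
  have h1 : Tendsto (fun ν => inner ℂ ((h.memLp_of_sub hg ν).toLp (G ν)) (hk.toLp k)) atTop
      (𝓝 (inner ℂ (hg.toLp g) (hk.toLp k))) :=
    (h.tendsto_toLp hg).inner tendsto_const_nhds
  have e : ∀ {u : α → ℂ} (hu : MemLp u 2 μ),
      inner ℂ (hu.toLp u) (hk.toLp k) = ∫ x, k x * conj (u x) ∂μ := by
    intro u hu
    rw [l2_inner_toLp]
    refine integral_congr_ae ?_
    filter_upwards [hu.coeFn_toLp] with x hx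
    rw [hx, mul_comm]
  simpa only [e] using h1

end abstract

section weights

variable {ι : Type} [Fintype ι] {Ω : Set (CE ι)} {q : CE ι → ℝ}

/-- `e^{-q/2}` as a complex number: `f ∈ L²(e^{-q})` iff `wt q * f ∈ L²`. -/
noncomputable def wt (q : CE ι → ℝ) (z : CE ι) : ℂ := ((Real.exp (-(q z) / 2) : ℝ) : ℂ)

theorem norm_wt (q : CE ι → ℝ) (z : CE ι) : ‖wt q z‖ = Real.exp (-(q z) / 2) := by
  unfold wt
  rw [Complex.norm_real, Real.norm_of_nonneg (Real.exp_pos _).le]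

theorem norm_wt_mul_sq (q : CE ι → ℝ) (z : CE ι) (c : ℂ) :
    ‖wt q z * c‖ ^ 2 = ‖c‖ ^ 2 * Real.exp (-q z) := by
  rw [norm_mul, norm_wt, mul_pow, ← Real.exp_nat_mul]
  have : ((2 : ℕ) : ℝ) * (-(q z) / 2) = -q z := by push_cast; ring
  rw [this]; ring

theorem wt_mul_wt (q : CE ι → ℝ) (z : CE ι) : wt q z * wt q z = ((Real.exp (-q z) : ℝ) : ℂ) := by
  unfold wt
  rw [← Complex.ofReal_mul, ← Real.exp_add]
  congr 2; ring

theorem conj_wt (q : CE ι → ℝ) (z : CE ι) : conj (wt q z) = wt q z := Complex.conj_ofReal _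

theorem wt_ne_zero (q : CE ι → ℝ) (z : CE ι) : wt q z ≠ 0 := by
  unfold wt
  exact_mod_cast (Real.exp_pos _).ne'

theorem continuousOn_wt (hq : ContinuousOn q Ω) : ContinuousOn (wt q) Ω :=
  Complex.continuous_ofReal.comp_continuousOn
    (Real.continuous_exp.comp_continuousOn (hq.neg.div_const 2))

theorem aesm_of_continuousOn (hΩ : IsOpen Ω) {c : CE ι → ℂ} (hc : ContinuousOn c Ω) :
    AEStronglyMeasurable c (volume.restrict Ω) :=
  hc.aestronglyMeasurable hΩ.measurableSet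

theorem l2w_memLp (hΩ : IsOpen Ω) (hq : ContinuousOn q Ω) {f : CE ι → ℂ} (h : L2w Ω q f) :
    MemLp (fun z => wt q z * f z) 2 (volume.restrict Ω) := by
  refine (memLp_two_iff_integrable_sq_norm
    ((aesm_of_continuousOn hΩ (continuousOn_wt hq)).mul h.meas)).2 ?_
  have e : (fun z => ‖wt q z * f z‖ ^ 2) = fun z => ‖f z‖ ^ 2 * Real.exp (-q z) :=
    funext fun z => norm_wt_mul_sq q z (f z)
  exact e ▸ h.int

theorem l2w_of_memLp {f : CE ι → ℂ} (hm : AEStronglyMeasurable f (volume.restrict Ω))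
    (h : MemLp (fun z => wt q z * f z) 2 (volume.restrict Ω)) : L2w Ω q f := by
  refine ⟨hm, ?_⟩
  have h1 := (memLp_two_iff_integrable_sq_norm h.1).1 h
  simp only [norm_wt_mul_sq] at h1
  exact h1

/-- on a compact subset the weight is bounded below. -/
theorem exists_norm_le_wt_mul (hq : ContinuousOn q Ω) {K : Set (CE ι)} (hK : IsCompact K)
    (hKΩ : K ⊆ Ω) : ∃ M : ℝ, 0 ≤ M ∧ ∀ z ∈ K, ∀ c : ℂ, ‖c‖ ≤ M * ‖wt q z * c‖ := by
  have hc : ContinuousOn (fun z => Real.exp (q z / 2)) K :=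
    Real.continuous_exp.comp_continuousOn ((hq.mono hKΩ).div_const 2)
  obtain ⟨M, hM⟩ := hK.exists_bound_of_continuousOn hc
  refine ⟨max M 0, le_max_right _ _, fun z hz c => ?_⟩
  have h1 : Real.exp (q z / 2) ≤ max M 0 := by
    have := hM z hz
    rw [Real.norm_of_nonneg (Real.exp_pos _).le] at this
    exact this.trans (le_max_left _ _)
  have h2 : ‖c‖ = Real.exp (q z / 2) * ‖wt q z * c‖ := by
    rw [norm_mul, norm_wt, ← mul_assoc, ← Real.exp_add]
    have : q z / 2 + -(q z) / 2 = 0 := by ring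
    rw [this, Real.exp_zero, one_mul]
  rw [h2]
  exact mul_le_mul_of_nonneg_right h1 (norm_nonneg _)

theorem l2w_locallyIntegrableOn (hΩ : IsOpen Ω) (hq : ContinuousOn q Ω) {f : CE ι → ℂ}
    (h : L2w Ω q f) : LocallyIntegrableOn f Ω := by
  rw [locallyIntegrableOn_iff hΩ.isLocallyClosed]
  intro K hKΩ hK
  obtain ⟨M, -, hM⟩ := exists_norm_le_wt_mul hq hK hKΩ
  have h1 : MemLp (fun z => wt q z * f z) 2 (volume.restrict K) :=
    (l2w_memLp hΩ hq h).mono_measure (Measure.restrict_mono hKΩ le_rfl)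
  have h2 : MemLp f 2 (volume.restrict K) :=
    h1.of_le_mul (h.meas.mono_measure (Measure.restrict_mono hKΩ le_rfl))
      ((ae_restrict_iff' hK.measurableSet).2 (Eventually.of_forall fun z hz => hM z hz _))
  have : IsFiniteMeasure (volume.restrict K) :=
    ⟨by rw [Measure.restrict_apply_univ]; exact hK.measure_lt_top⟩
  exact h2.integrable (by norm_num)

theorem l2w_memLp_of_compact (hΩ : IsOpen Ω) (hq : ContinuousOn q Ω) {K : Set (CE ι)}
    (hK : IsCompact K) (hKΩ : K ⊆ Ω) {f : CE ι → ℂ} (h : L2w Ω q f)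
    (h0 : ∀ z, z ∉ K → f z = 0) : MemLp f 2 volume := by
  obtain ⟨M, hM0, hM⟩ := exists_norm_le_wt_mul hq hK hKΩ
  have h2 : MemLp f 2 (volume.restrict Ω) :=
    (l2w_memLp hΩ hq h).of_le_mul h.meas (Eventually.of_forall fun z => by
      by_cases hz : z ∈ K
      · exact hM z hz _
      · rw [h0 z hz]; simp)
  have e : Ω.indicator f = f := by
    funext z
    by_cases hz : z ∈ Ω
    · exact Set.indicator_of_mem hz f
    · rw [Set.indicator_of_notMem hz, h0 z fun hzK => hz (hKΩ hzK)]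
  rw [← e]
  exact (memLp_indicator_iff_restrict hΩ.measurableSet).2 h2

/-- a function continuous on `Ω` times an `L²` function vanishing off a compact subset of `Ω`. -/
theorem memLp_continuousOn_mul_of_compact (hΩ : IsOpen Ω) {c u : CE ι → ℂ} (hc : ContinuousOn c Ω)
    (hu : MemLp u 2 volume) {K : Set (CE ι)} (hK : IsCompact K) (hKΩ : K ⊆ Ω)
    (hu0 : ∀ z, z ∉ K → u z = 0) : MemLp (fun y => c y * u y) 2 volume := by
  obtain ⟨M, hM⟩ := hK.exists_bound_of_continuousOn (hc.mono hKΩ)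
  have hm : AEStronglyMeasurable (Ω.indicator c) volume :=
    (aestronglyMeasurable_indicator_iff hΩ.measurableSet).2 (aesm_of_continuousOn hΩ hc)
  have e : (fun y => c y * u y) = fun y => Ω.indicator c y * u y := by
    funext y
    by_cases hy : y ∈ Ω
    · rw [Set.indicator_of_mem hy]
    · rw [hu0 y fun hyK => hy (hKΩ hyK)]; simp
  refine hu.of_le_mul (c := M) (by rw [e]; exact hm.mul hu.1) (Eventually.of_forall fun y => ?_)
  by_cases hy : y ∈ K
  · rw [norm_mul]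
    exact mul_le_mul_of_nonneg_right (hM y hy) (norm_nonneg _)
  · rw [hu0 y hy]; simp

theorem L2Null.restrict_mul {G : ℕ → CE ι → ℂ} (h : L2Null volume G) (hΩ : IsOpen Ω)
    {K : Set (CE ι)} (hK : IsCompact K) (hKΩ : K ⊆ Ω) (h0 : ∀ ν z, z ∉ K → G ν z = 0)
    {c : CE ι → ℂ} (hc : ContinuousOn c Ω) :
    L2Null (volume.restrict Ω) (fun ν z => c z * G ν z) := by
  obtain ⟨M, hM⟩ := hK.exists_bound_of_continuousOn (hc.mono hKΩ)
  have h1 : L2Null (volume.restrict Ω) G := h.mono_measure Measure.restrict_le_self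
  refine h1.of_le_mul (M := M) (fun ν => (aesm_of_continuousOn hΩ hc).mul (h1.1 ν).1)
    fun ν => Eventually.of_forall fun z => ?_
  by_cases hz : z ∈ K
  · rw [norm_mul]
    exact mul_le_mul_of_nonneg_right (hM z hz) (norm_nonneg _)
  · rw [h0 ν z hz]; simp

end weights

end Claimed.Agent.R316.B4

end SecL2Calc

/-!
# Row 316, B4-DensityCompact: compactly supported triples are approximated by test forms

Weights `p₁ = p - 2ψ`, `p₂ = p - ψ`, `p₃ = p`.  A triple `(f, v, h)` with compact support `K ⊆ Ω`: `f ∈ L²(p₂)`, weak adjoint `T^*f = v ∈ L²(p₁)`, weak curl `h ∈ L²(p₃)`.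
On the compact `K` all weights are bounded above and below, so `f_j, v, h_{jk} ∈ L²(ℂ^ι)` (they vanish off `K`).
The unweighted frame-divergence: `T^* f = - e^{-ψ} ∑ (Z_j f_j - (Z_j p₂) f_j + σ_j f_j)`, so put
`d = - e^{ψ} v + ∑_j (Z_j p₂) f_j - ∑_j σ_j f_j ∈ L²`, and `∫ ∑ f_j Z_j^t w = ∫ d w` for test `w`: test `WeakAdjF` with `u = \bar w e^{p₂}` (a test function on `Ω`), conjugate, and
expand `Z̄_j(\bar w e^{p₂}) = (\overline{Z_j w} + \bar w \overline{Z_j p₂}) e^{p₂}`.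
`moll_approxF` gives `F^ν`;  `T^*F^ν = - e^{-ψ} (∑ Z_jF^ν_j - ∑ (Z_jp₂) F^ν_j + ∑ σ_j F^ν_j) → v` in `L²(K')`; on the compact `K'` all weights, `Z_j p₂`, `σ_j` are bounded.
-/

section SecDensityCompact
set_option linter.unusedSectionVars false
open scoped ContDiff ComplexOrder ComplexConjugate Topology
open MeasureTheory Filter
open Claimed.Agent.R316.B6E (IsTest IsTestForm cx L2w)

namespace Claimed.Agent.R316.B4

variable {ι : Type} [Fintype ι] [DecidableEq ι]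

/-- the unweighted weak frame divergence `∑ Z_j f_j` of a form with weak adjoint `v`. -/
noncomputable def divW (a : ι → ι → CE ι → ℂ) (p ψ : CE ι → ℝ) (f : ι → CE ι → ℂ) (v : CE ι → ℂ)
    (z : CE ι) : ℂ :=
  - ((Real.exp (ψ z) : ℝ) : ℂ) * v z + ∑ j, gradF a (fun y => p y - ψ y) z j * f j z
    - ∑ j, sg a j z * f j z

theorem Zf_mul_exp_of_test {Ω : Set (CE ι)} (hΩ : IsOpen Ω) {a : ι → ι → CE ι → ℂ} {q : CE ι → ℝ}
    (hq : ContDiffOn ℝ ∞ q Ω) {w : CE ι → ℂ} (hw : IsTest Ω w) (j : ι) (z : CE ι) :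
    Zf a j (fun y => w y * ((Real.exp (q y) : ℝ) : ℂ)) z
      = (Zf a j w z + w z * gradF a q z j) * ((Real.exp (q z) : ℝ) : ℂ) := by
  by_cases hz : z ∈ tsupport w
  · have hzΩ := hw.supp hz
    have hq1 : DifferentiableAt ℝ q z := (hq.contDiffAt (hΩ.mem_nhds hzΩ)).differentiableAt (by simp)
    have hE : DifferentiableAt ℝ (fun y => ((Real.exp (q y) : ℝ) : ℂ)) z :=
      ((B6E.contDiffOn_cx_exp hq).contDiffAt (hΩ.mem_nhds hzΩ)).differentiableAt (by simp)
    rw [Zf_mul (hw.differentiable z) hE, Zf_exp_pos hq1]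
    ring
  · have h1 : z ∉ tsupport (fun y => w y * ((Real.exp (q y) : ℝ) : ℂ)) := fun h =>
      hz (tsupport_mul_subset_left h)
    rw [Zf_eq_zero_of_notMem_tsupport h1, Zf_eq_zero_of_notMem_tsupport hz,
      image_eq_zero_of_notMem_tsupport hz]
    simp

theorem weakDiv_of_weakAdjF {Ω : Set (CE ι)} (hΩ : IsOpen Ω) {a : ι → ι → CE ι → ℂ}
    (ha : ∀ j k, ContDiff ℝ ∞ (a j k)) {p ψ : CE ι → ℝ}
    (hp : ContDiffOn ℝ ∞ p Ω) (hψ : ContDiffOn ℝ ∞ ψ Ω)
    {f : ι → CE ι → ℂ} {v : CE ι → ℂ} (hf : ∀ j, LocallyIntegrableOn (f j) Ω)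
    (hv : LocallyIntegrableOn v Ω) (hadj : WeakAdjF Ω a p ψ f v) {w : CE ι → ℂ} (hw : IsTest Ω w) :
    ∫ z, ∑ j, f j z * Zft a j w z = ∫ z, divW a p ψ f v z * w z := by
  have hp2 : ContDiffOn ℝ ∞ (fun y => p y - ψ y) Ω := hp.sub hψ
  have hU : IsTest Ω (fun z => w z * ((Real.exp (p z - ψ z) : ℝ) : ℂ)) :=
    hw.mul_contDiffOn hΩ (B6E.contDiffOn_cx_exp hp2)
  have h1 := hadj _ hU.conj
  simp only [Zb_conj, Zf_mul_exp_of_test hΩ hp2 hw] at h1
  have h2 := congrArg conj h1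
  rw [← integral_conj, ← integral_conj] at h2
  simp only [map_mul, map_sum, Complex.conj_conj, Complex.conj_ofReal] at h2
  -- the two sides of `h2`
  set X : CE ι → ℂ := fun z => ∑ j, f j z * (Zf a j w z + w z * gradF a (fun y => p y - ψ y) z j)
    with hX
  set Y : CE ι → ℂ := fun z => v z * (w z * ((Real.exp (ψ z) : ℝ) : ℂ)) with hY
  have e1 : ∀ z, (∑ j, (Zf a j w z + w z * gradF a (fun y => p y - ψ y) z j)
      * ((Real.exp (p z - ψ z) : ℝ) : ℂ) * f j z) * ((Real.exp (-(p z - ψ z)) : ℝ) : ℂ) = X z := by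
    intro z
    have hexp : ((Real.exp (p z - ψ z) : ℝ) : ℂ) * ((Real.exp (-(p z - ψ z)) : ℝ) : ℂ) = 1 := by
      rw [← Complex.ofReal_mul, ← Real.exp_add]; simp
    rw [hX, Finset.sum_mul]
    refine Finset.sum_congr rfl fun j _ => ?_
    linear_combination ((Zf a j w z + w z * gradF a (fun y => p y - ψ y) z j) * f j z) * hexp
  have e2 : ∀ z, w z * ((Real.exp (p z - ψ z) : ℝ) : ℂ) * v z
      * ((Real.exp (-(p z - 2 * ψ z)) : ℝ) : ℂ) = Y z := by
    intro z
    have hexp : ((Real.exp (p z - ψ z) : ℝ) : ℂ) * ((Real.exp (-(p z - 2 * ψ z)) : ℝ) : ℂ)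
        = ((Real.exp (ψ z) : ℝ) : ℂ) := by
      rw [← Complex.ofReal_mul, ← Real.exp_add]; congr 2; ring
    rw [hY]
    linear_combination (w z * v z) * hexp
  simp only [e1, e2] at h2
  -- integrability
  have tG : ∀ j, IsTest Ω (fun z => w z * gradF a (fun y => p y - ψ y) z j) := fun j =>
    hw.mul_contDiffOn hΩ (contDiffOn_gradF ha hΩ hp2)
  have tE : IsTest Ω (fun z => w z * ((Real.exp (ψ z) : ℝ) : ℂ)) :=
    hw.mul_contDiffOn hΩ (B6E.contDiffOn_cx_exp hψ)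
  have iX : Integrable X := integrable_finsetSum _ fun j _ =>
    ((isTest_Zf ha hw (j := j)).add (tG j)).integrable_mul_left hΩ (hf j)
  have iY : Integrable Y := tE.integrable_mul_left hΩ hv
  have iA : Integrable (fun z => ∑ j, f j z * Zft a j w z) := integrable_finsetSum _ fun j _ =>
    (isTest_Zft ha hw (j := j)).integrable_mul_left hΩ (hf j)
  have iS : Integrable (fun z => ∑ j, f j z * (sg a j z * w z)) := integrable_finsetSum _ fun j _ =>
    (IsTest.contDiff_mul (contDiff_sg ha (j := j)) hw).integrable_mul_left hΩ (hf j)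
  have iG : Integrable (fun z => ∑ j, f j z * (w z * gradF a (fun y => p y - ψ y) z j)) :=
    integrable_finsetSum _ fun j _ => (tG j).integrable_mul_left hΩ (hf j)
  have eA : ∀ z, ∑ j, f j z * Zft a j w z
      = - X z + (∑ j, f j z * (w z * gradF a (fun y => p y - ψ y) z j)
        - ∑ j, f j z * (sg a j z * w z)) := by
    intro z
    rw [hX, ← Finset.sum_sub_distrib, ← Finset.sum_neg_distrib, ← Finset.sum_add_distrib]
    refine Finset.sum_congr rfl fun j _ => ?_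
    unfold Zft
    ring
  have eB : ∀ z, divW a p ψ f v z * w z
      = - Y z + (∑ j, f j z * (w z * gradF a (fun y => p y - ψ y) z j)
        - ∑ j, f j z * (sg a j z * w z)) := by
    intro z
    unfold divW
    rw [hY, sub_mul, add_mul, Finset.sum_mul, Finset.sum_mul]
    have s1 : ∑ j, gradF a (fun y => p y - ψ y) z j * f j z * w z
        = ∑ j, f j z * (w z * gradF a (fun y => p y - ψ y) z j) :=
      Finset.sum_congr rfl fun j _ => by ring
    have s2 : ∑ j, sg a j z * f j z * w z = ∑ j, f j z * (sg a j z * w z) :=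
      Finset.sum_congr rfl fun j _ => by ring
    rw [s1, s2]
    ring
  simp only [eA, eB]
  have iR : Integrable (fun z => ∑ j, f j z * (w z * gradF a (fun y => p y - ψ y) z j)
      - ∑ j, f j z * (sg a j z * w z)) := iG.sub iS
  have iXn : Integrable (fun z => - X z) := iX.neg
  have iYn : Integrable (fun z => - Y z) := iY.neg
  rw [integral_add iXn iR, integral_add iYn iR, integral_neg, integral_neg, h2]

theorem compact_triple_approxF {Ω : Set (CE ι)} (hΩ : IsOpen Ω) {a : ι → ι → CE ι → ℂ}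
    (ha : ∀ j k, ContDiff ℝ ∞ (a j k)) {p ψ : CE ι → ℝ}
    (hp : ContDiffOn ℝ ∞ p Ω) (hψ : ContDiffOn ℝ ∞ ψ Ω)
    {K : Set (CE ι)} (hK : IsCompact K) (hKΩ : K ⊆ Ω)
    {f : ι → CE ι → ℂ} {v : CE ι → ℂ} {h : ι → ι → CE ι → ℂ}
    (hf : ∀ j, L2w Ω (fun z => p z - ψ z) (f j)) (hv : L2w Ω (fun z => p z - 2 * ψ z) v)
    (hh : ∀ j k, L2w Ω p (h j k))
    (hf0 : ∀ j z, z ∉ K → f j z = 0) (hv0 : ∀ z, z ∉ K → v z = 0)
    (hh0 : ∀ j k z, z ∉ K → h j k z = 0)
    (hcurl : WeakCurlF Ω a f h) (hadj : WeakAdjF Ω a p ψ f v) :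
    ∃ F : ℕ → ι → CE ι → ℂ, (∀ m, IsTestForm Ω (F m)) ∧
      (∀ j, L2Null (volume.restrict Ω)
        (fun m z => wt (fun y => p y - ψ y) z * (F m j z - f j z))) ∧
      L2Null (volume.restrict Ω)
        (fun m z => wt (fun y => p y - 2 * ψ y) z * (TstF a p ψ (F m) z - v z)) ∧
      (∀ j k, L2Null (volume.restrict Ω)
        (fun m z => wt p z * (Zb a j (F m k) z - Zb a k (F m j) z - h j k z))) := by
  have cp : ContinuousOn p Ω := hp.continuousOn
  have cψ : ContinuousOn ψ Ω := hψ.continuousOn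
  have cp2 : ContinuousOn (fun z => p z - ψ z) Ω := cp.sub cψ
  have cp1 : ContinuousOn (fun z => p z - 2 * ψ z) Ω := cp.sub (continuousOn_const.mul cψ)
  have hfm : ∀ j, MemLp (f j) 2 volume := fun j =>
    l2w_memLp_of_compact hΩ cp2 hK hKΩ (hf j) (hf0 j)
  have hvm : MemLp v 2 volume := l2w_memLp_of_compact hΩ cp1 hK hKΩ hv hv0
  have hhm : ∀ j k, MemLp (h j k) 2 volume := fun j k =>
    l2w_memLp_of_compact hΩ cp hK hKΩ (hh j k) (hh0 j k)
  have cE : ContinuousOn (fun z => - ((Real.exp (ψ z) : ℝ) : ℂ)) Ω :=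
    (B6E.contDiffOn_cx_exp hψ).continuousOn.neg
  have cG : ∀ j, ContinuousOn (fun z => gradF a (fun y => p y - ψ y) z j) Ω := fun j =>
    (contDiffOn_gradF ha hΩ (hp.sub hψ)).continuousOn
  have cS : ∀ j, ContinuousOn (sg a j) Ω := fun j => (contDiff_sg ha).continuous.continuousOn
  have hdm : MemLp (divW a p ψ f v) 2 volume := by
    unfold divW
    exact ((memLp_continuousOn_mul_of_compact hΩ cE hvm hK hKΩ hv0).add
      (memLp_finsetSum _ fun j _ =>
        memLp_continuousOn_mul_of_compact hΩ (cG j) (hfm j) hK hKΩ (hf0 j))).sub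
      (memLp_finsetSum _ fun j _ =>
        memLp_continuousOn_mul_of_compact hΩ (cS j) (hfm j) hK hKΩ (hf0 j))
  have hd0 : ∀ z, z ∉ K → divW a p ψ f v z = 0 := by
    intro z hz
    unfold divW
    simp [hv0 z hz, hf0 _ z hz]
  obtain ⟨K', F, hK', hK'Ω, hF, hFs, hKK', t1, t2, t3⟩ := moll_approxF hΩ ha hK hKΩ hfm hdm hhm hf0
    hd0 hh0 (fun w hw => weakDiv_of_weakAdjF hΩ ha hp hψ
      (fun j => l2w_locallyIntegrableOn hΩ cp2 (hf j)) (l2w_locallyIntegrableOn hΩ cp1 hv) hadj hw)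
    hcurl
  have z1 : ∀ j m z, z ∉ K' → F m j z - f j z = 0 := by
    intro j m z hz
    rw [image_eq_zero_of_notMem_tsupport fun h => hz (hFs m j h), hf0 j z fun h => hz (hKK' h)]
    simp
  have z2 : ∀ m z, z ∉ K' → ∑ j, Zf a j (F m j) z - divW a p ψ f v z = 0 := by
    intro m z hz
    rw [hd0 z fun h => hz (hKK' h), Finset.sum_eq_zero fun j _ =>
      Zf_eq_zero_of_notMem_tsupport fun h => hz (hFs m j h)]
    simp
  have z3 : ∀ j k m z, z ∉ K' → Zb a j (F m k) z - Zb a k (F m j) z - h j k z = 0 := by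
    intro j k m z hz
    rw [hh0 j k z fun h => hz (hKK' h), Zb_eq_zero_of_notMem_tsupport fun h => hz (hFs m k h),
      Zb_eq_zero_of_notMem_tsupport fun h => hz (hFs m j h)]
    simp
  refine ⟨F, hF, fun j => (t1 j).restrict_mul hΩ hK' hK'Ω (z1 j) (continuousOn_wt cp2), ?_,
    fun j k => (t3 j k).restrict_mul hΩ hK' hK'Ω (z3 j k) (continuousOn_wt cp)⟩
  have cEn : ContinuousOn (fun z => ((Real.exp (-ψ z) : ℝ) : ℂ)) Ω :=
    (B6E.contDiffOn_cx_exp hψ.neg).continuousOn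
  have c0 : ContinuousOn (fun z => - (wt (fun y => p y - 2 * ψ y) z
      * ((Real.exp (-ψ z) : ℝ) : ℂ))) Ω := ((continuousOn_wt cp1).mul cEn).neg
  have cj : ∀ j, ContinuousOn (fun z => wt (fun y => p y - 2 * ψ y) z
      * ((Real.exp (-ψ z) : ℝ) : ℂ) * (gradF a (fun y => p y - ψ y) z j - sg a j z)) Ω := fun j =>
    ((continuousOn_wt cp1).mul cEn).mul ((cG j).sub (cS j))
  refine ((t2.restrict_mul hΩ hK' hK'Ω z2 c0).add (L2Null.sum Finset.univ fun j _ =>
    (t1 j).restrict_mul hΩ hK' hK'Ω (z1 j) (cj j))).congr fun m z => ?_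
  have hexp : ((Real.exp (-ψ z) : ℝ) : ℂ) * ((Real.exp (ψ z) : ℝ) : ℂ) = 1 := by
    rw [← Complex.ofReal_mul, ← Real.exp_add]; simp
  have s1 : ∑ j, wt (fun y => p y - 2 * ψ y) z * ((Real.exp (-ψ z) : ℝ) : ℂ)
        * (gradF a (fun y => p y - ψ y) z j - sg a j z) * (F m j z - f j z)
      = wt (fun y => p y - 2 * ψ y) z * ((Real.exp (-ψ z) : ℝ) : ℂ)
        * (∑ j, gradF a (fun y => p y - ψ y) z j * F m j z - ∑ j, sg a j z * F m j z
          - ∑ j, gradF a (fun y => p y - ψ y) z j * f j z + ∑ j, sg a j z * f j z) := by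
    simp only [← Finset.sum_sub_distrib, ← Finset.sum_add_distrib, Finset.mul_sum]
    exact Finset.sum_congr rfl fun j _ => by ring
  unfold TstF dlF divW
  rw [s1]
  simp only [Finset.sum_sub_distrib, Finset.sum_add_distrib]
  linear_combination (wt (fun y => p y - 2 * ψ y) z * v z) * hexp

end Claimed.Agent.R316.B4

end SecDensityCompact

/-!
# Row 316, B4-DensityCutoff: cutting off

Weights `p₁ = p - 2ψ`, `p₂ = p - ψ`, `p₃ = p`; cutoffs `η_ν` with `∑ |Z_jη_ν|² ≤ e^{ψ}`.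
Let `f ∈ L²(p₂)` be weakly closed with weak adjoint `T^*f = v ∈ L²(p₁)`.  For `η = η_ν` (real test function):
`f^η = η f`, `v^η = η v - e^{-ψ} ∑ (Z_jη) f_j`, `h^η_{jk} = (Z̄_jη) f_k - (Z̄_kη) f_j` satisfy the weak identities
(test `WeakAdjF` with `u ↦ η u`, `WeakClosedF` with `w ↦ η w`; `Z̄_j(η u) = η Z̄_j u + (Z̄_jη) u`, `Z̄_j^t(η w) = η Z̄_j^t w - (Z̄_jη) w`, `Z̄_jη = \overline{Z_jη}`), vanish off `tsupport η`, and as `ν → ∞`
`∫ |f^η - f|² e^{-p₂} → 0`, `∫ |v^η - v|² e^{-p₁} → 0`, `∫ |h^η|² e^{-p₃} → 0` by dominated convergence: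
`|e^{-ψ} ∑ Z_jη f_j|² e^{-p₁} ≤ |Zη|² |f|² e^{-p} ≤ |f|² e^{-p₂}` and `Z_jη_ν(z) = 0` eventually (`eventually_one`, `gradF_congr`, `Zf_const`).
-/

section SecDensityCutoff
set_option linter.unusedSectionVars false
open scoped ContDiff ComplexOrder ComplexConjugate Topology
open MeasureTheory Filter
open Claimed.Agent.R316.B6E (IsTest IsTestForm cx L2w)

namespace Claimed.Agent.R316.B4

variable {ι : Type} [Fintype ι] [DecidableEq ι]

/-- `η f`. -/
noncomputable def cutF (η : CE ι → ℝ) (f : ι → CE ι → ℂ) (j : ι) (z : CE ι) : ℂ := cx η z * f j z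

/-- `η v - e^{-ψ} ∑ (Z_jη) f_j`, the weak adjoint of `η f`. -/
noncomputable def cutV (a : ι → ι → CE ι → ℂ) (ψ η : CE ι → ℝ) (f : ι → CE ι → ℂ) (v : CE ι → ℂ)
    (z : CE ι) : ℂ :=
  cx η z * v z - ((Real.exp (-ψ z) : ℝ) : ℂ) * ∑ j, gradF a η z j * f j z

/-- `(Z̄_jη) f_k - (Z̄_kη) f_j`, the weak curl of `η f`. -/
noncomputable def cutH (a : ι → ι → CE ι → ℂ) (η : CE ι → ℝ) (f : ι → CE ι → ℂ) (j k : ι)
    (z : CE ι) : ℂ :=
  Zb a j (cx η) z * f k z - Zb a k (cx η) z * f j z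

theorem integrable_conj_mul_test {Ω : Set (CE ι)} (hΩ : IsOpen Ω) {w u : CE ι → ℂ}
    (hw : IsTest Ω w) (hu : LocallyIntegrableOn u Ω) : Integrable (fun z => conj (u z) * w z) := by
  have h1 := hw.conj.integrable_mul_left hΩ hu
  have h2 := (Complex.conjCLE : ℂ →L[ℝ] ℂ).integrable_comp h1
  refine h2.congr (Eventually.of_forall fun z => ?_)
  simp

theorem cut_weakCurl {Ω : Set (CE ι)} (hΩ : IsOpen Ω) {a : ι → ι → CE ι → ℂ}
    (ha : ∀ j k, ContDiff ℝ ∞ (a j k)) {η : CE ι → ℝ} (hη : IsTest Ω (cx η))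
    {f : ι → CE ι → ℂ} (hf : ∀ j, LocallyIntegrableOn (f j) Ω) (hfc : WeakClosedF Ω a f) :
    WeakCurlF Ω a (cutF η f) (cutH a η f) := by
  intro w hw j k
  have h0 := hfc _ (hη.mul hw) j k
  have e : ∀ (i : ι) (z : CE ι), Zbt a i (fun y => cx η y * w y) z
      = cx η z * Zbt a i w z - Zb a i (cx η) z * w z := by
    intro i z
    unfold Zbt
    rw [Zb_mul (hη.differentiable z) (hw.differentiable z)]
    ring
  simp only [e] at h0
  have iP : Integrable (fun z => cutF η f k z * Zbt a j w z - cutF η f j z * Zbt a k w z) := by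
    have h1 := (hη.mul (isTest_Zbt ha hw (j := j))).integrable_mul_left hΩ (hf k)
    have h2 := (hη.mul (isTest_Zbt ha hw (j := k))).integrable_mul_left hΩ (hf j)
    refine (h1.sub h2).congr (Eventually.of_forall fun z => ?_)
    simp only [cutF, Pi.sub_apply]
    ring
  have iQ : Integrable (fun z => cutH a η f j k z * w z) := by
    have h1 := ((isTest_Zb ha hη (j := j)).mul hw).integrable_mul_left hΩ (hf k)
    have h2 := ((isTest_Zb ha hη (j := k)).mul hw).integrable_mul_left hΩ (hf j)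
    refine (h1.sub h2).congr (Eventually.of_forall fun z => ?_)
    simp only [cutH, Pi.sub_apply]
    ring
  have e2 : ∀ z, f k z * (cx η z * Zbt a j w z - Zb a j (cx η) z * w z)
        - f j z * (cx η z * Zbt a k w z - Zb a k (cx η) z * w z)
      = (cutF η f k z * Zbt a j w z - cutF η f j z * Zbt a k w z) - cutH a η f j k z * w z := by
    intro z
    simp only [cutF, cutH]
    ring
  simp only [e2] at h0
  rw [integral_sub iP iQ, sub_eq_zero] at h0
  exact h0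

theorem cut_weakAdj {Ω : Set (CE ι)} (hΩ : IsOpen Ω) {a : ι → ι → CE ι → ℂ}
    (ha : ∀ j k, ContDiff ℝ ∞ (a j k)) {p ψ : CE ι → ℝ}
    (hp : ContDiffOn ℝ ∞ p Ω) (hψ : ContDiffOn ℝ ∞ ψ Ω) {η : CE ι → ℝ} (hη : IsTest Ω (cx η))
    {f : ι → CE ι → ℂ} {v : CE ι → ℂ} (hf : ∀ j, LocallyIntegrableOn (f j) Ω)
    (hv : LocallyIntegrableOn v Ω) (hadj : WeakAdjF Ω a p ψ f v) :
    WeakAdjF Ω a p ψ (cutF η f) (cutV a ψ η f v) := by
  intro u hu
  have h0 := hadj _ (hη.mul hu)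
  simp only [fun (i : ι) (z : CE ι) => Zb_mul (a := a) (j := i) (hη.differentiable z)
    (hu.differentiable z)] at h0
  have hE2 : ContDiffOn ℝ ∞ (fun z => ((Real.exp (-(p z - ψ z)) : ℝ) : ℂ)) Ω :=
    B6E.contDiffOn_cx_exp (hp.sub hψ).neg
  have hE1 : ContDiffOn ℝ ∞ (fun z => ((Real.exp (-(p z - 2 * ψ z)) : ℝ) : ℂ)) Ω :=
    B6E.contDiffOn_cx_exp (hp.sub (contDiffOn_const.mul hψ)).neg
  -- the three integrals
  set P : CE ι → ℂ := fun z => (∑ j, Zb a j u z * conj (cutF η f j z))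
    * ((Real.exp (-(p z - ψ z)) : ℝ) : ℂ) with hP
  set Q : CE ι → ℂ := fun z => (∑ j, Zb a j (cx η) z * u z * conj (f j z))
    * ((Real.exp (-(p z - ψ z)) : ℝ) : ℂ) with hQ
  set R : CE ι → ℂ := fun z => cx η z * u z * conj (v z)
    * ((Real.exp (-(p z - 2 * ψ z)) : ℝ) : ℂ) with hR
  have iP : Integrable P := by
    have h1 : ∀ j, Integrable (fun z => conj (f j z) * (cx η z * Zb a j u z
        * ((Real.exp (-(p z - ψ z)) : ℝ) : ℂ))) := fun j =>
      integrable_conj_mul_test hΩ ((hη.mul (isTest_Zb ha hu (j := j))).mul_contDiffOn hΩ hE2) (hf j)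
    refine (integrable_finsetSum Finset.univ fun j _ => h1 j).congr
      (Eventually.of_forall fun z => ?_)
    simp only [hP, cutF, Finset.sum_mul, map_mul]
    refine Finset.sum_congr rfl fun j _ => ?_
    have : conj (cx η z) = cx η z := Complex.conj_ofReal _
    rw [this]; ring
  have iQ : Integrable Q := by
    have h1 : ∀ j, Integrable (fun z => conj (f j z) * (Zb a j (cx η) z * u z
        * ((Real.exp (-(p z - ψ z)) : ℝ) : ℂ))) := fun j =>
      integrable_conj_mul_test hΩ (((isTest_Zb ha hη (j := j)).mul hu).mul_contDiffOn hΩ hE2) (hf j)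
    refine (integrable_finsetSum Finset.univ fun j _ => h1 j).congr
      (Eventually.of_forall fun z => ?_)
    simp only [hQ, Finset.sum_mul]
    refine Finset.sum_congr rfl fun j _ => ?_
    ring
  have iR : Integrable R := by
    have h1 := integrable_conj_mul_test hΩ ((hη.mul hu).mul_contDiffOn hΩ hE1) hv
    refine h1.congr (Eventually.of_forall fun z => ?_)
    simp only [hR]
    ring
  have eL : ∀ z, (∑ j, (Zb a j (cx η) z * u z + cx η z * Zb a j u z) * conj (f j z))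
      * ((Real.exp (-(p z - ψ z)) : ℝ) : ℂ) = Q z + P z := by
    intro z
    simp only [hP, hQ, cutF, map_mul]
    rw [← add_mul, ← Finset.sum_add_distrib]
    congr 1
    refine Finset.sum_congr rfl fun j _ => ?_
    have : conj (cx η z) = cx η z := Complex.conj_ofReal _
    rw [this]; ring
  simp only [eL] at h0
  rw [integral_add iQ iP] at h0
  have eR : ∀ z, u z * conj (cutV a ψ η f v z) * ((Real.exp (-(p z - 2 * ψ z)) : ℝ) : ℂ)
      = R z - Q z := by
    intro z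
    have hexp : ((Real.exp (-(p z - ψ z)) : ℝ) : ℂ)
        = ((Real.exp (-ψ z) : ℝ) : ℂ) * ((Real.exp (-(p z - 2 * ψ z)) : ℝ) : ℂ) := by
      rw [← Complex.ofReal_mul, ← Real.exp_add]; congr 2; ring
    have hc : conj (cx η z) = cx η z := Complex.conj_ofReal _
    simp only [hR, hQ, cutV, map_sub, map_mul, map_sum, Complex.conj_ofReal, hc, Zb_cx]
    rw [hexp]
    have s1 : ∑ j, conj (gradF a η z j) * u z * conj (f j z)
        = u z * ∑ j, conj (gradF a η z j) * conj (f j z) := by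
      rw [Finset.mul_sum]
      exact Finset.sum_congr rfl fun j _ => by ring
    rw [s1]
    ring
  simp only [eR]
  rw [integral_sub iR iQ]
  show ∫ z, P z = _
  linear_combination h0

theorem wt_mul_exp_neg (p ψ : CE ι → ℝ) (z : CE ι) :
    wt (fun y => p y - 2 * ψ y) z * ((Real.exp (-ψ z) : ℝ) : ℂ)
      = wt ψ z * wt (fun y => p y - ψ y) z := by
  unfold wt
  rw [← Complex.ofReal_mul, ← Complex.ofReal_mul, ← Real.exp_add, ← Real.exp_add]
  congr 2; ring

theorem wt_eq_mul (p ψ : CE ι → ℝ) (z : CE ι) :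
    wt p z = wt ψ z * wt (fun y => p y - ψ y) z := by
  unfold wt
  rw [← Complex.ofReal_mul, ← Real.exp_add]
  congr 2; ring

section cutseq

variable {Ω : Set (CE ι)} {a : ι → ι → CE ι → ℂ} {ψ : CE ι → ℝ} {η : ℕ → CE ι → ℝ}

theorem norm_wt_mul_gradF_le (hη : IsCutoffSeqF Ω a ψ η) (ν : ℕ) {z : CE ι} (hz : z ∈ Ω) (j : ι) :
    ‖wt ψ z * gradF a (η ν) z j‖ ≤ 1 := by
  rw [← sq_le_one_iff₀ (norm_nonneg _), norm_wt_mul_sq]
  have h1 : ‖gradF a (η ν) z j‖ ^ 2 ≤ Real.exp (ψ z) :=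
    (Finset.single_le_sum (f := fun j => ‖gradF a (η ν) z j‖ ^ 2) (fun i _ => by positivity)
      (Finset.mem_univ j)).trans (hη.grad_le ν z hz)
  calc ‖gradF a (η ν) z j‖ ^ 2 * Real.exp (-ψ z) ≤ Real.exp (ψ z) * Real.exp (-ψ z) :=
        mul_le_mul_of_nonneg_right h1 (Real.exp_pos _).le
    _ = 1 := by rw [← Real.exp_add]; simp

theorem norm_wt_mul_Zb_le (hη : IsCutoffSeqF Ω a ψ η) (ν : ℕ) {z : CE ι} (hz : z ∈ Ω) (j : ι) :
    ‖wt ψ z * Zb a j (cx (η ν)) z‖ ≤ 1 := by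
  have h := norm_wt_mul_gradF_le hη ν hz j
  rw [norm_mul] at h ⊢
  rwa [Zb_cx, RCLike.norm_conj]

theorem cutoff_eventually_gradF (hη : IsCutoffSeqF Ω a ψ η) {z : CE ι} (hz : z ∈ Ω) (j : ι) :
    ∀ᶠ ν in atTop, gradF a (η ν) z j = 0 := by
  filter_upwards [hη.eventually_one z hz] with ν hν
  rw [gradF_congr hν]
  exact Zf_const _

theorem cutoff_eventually_one (hη : IsCutoffSeqF Ω a ψ η) {z : CE ι} (hz : z ∈ Ω) :
    ∀ᶠ ν in atTop, η ν z = 1 := by
  filter_upwards [hη.eventually_one z hz] with ν hν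
  exact hν.self_of_nhds

theorem tendsto_zero_of_eventually_eq {c : ℕ → ℂ} (h : ∀ᶠ ν in atTop, c ν = 0) :
    Tendsto c atTop (𝓝 0) :=
  tendsto_const_nhds.congr' (h.mono fun _ hν => hν.symm)

/-- `(η_ν - 1) U → 0` in `L²`. -/
theorem l2Null_cutoff_sub_one (hΩ : IsOpen Ω) (hη : IsCutoffSeqF Ω a ψ η) {U : CE ι → ℂ}
    (hU : MemLp U 2 (volume.restrict Ω)) :
    L2Null (volume.restrict Ω) (fun ν z => (cx (η ν) z - 1) * U z) := by
  refine l2Null_of_dominated hU (M := 1)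
    (fun ν => ((hη.test ν).continuous.sub continuous_const).aestronglyMeasurable)
    (fun ν => Eventually.of_forall fun z => ?_)
    ((ae_restrict_iff' hΩ.measurableSet).2 (Eventually.of_forall fun z hz => ?_))
  · have h0 := hη.nonneg ν z
    have h1 := hη.le_one ν z
    have : cx (η ν) z - 1 = ((η ν z - 1 : ℝ) : ℂ) := by simp [cx]
    rw [this, Complex.norm_real, Real.norm_eq_abs, abs_le]
    constructor <;> linarith
  · refine tendsto_zero_of_eventually_eq ?_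
    filter_upwards [cutoff_eventually_one hη hz] with ν hν
    simp [cx, hν]

/-- `e^{-ψ/2} (Z_jη_ν) U → 0` in `L²`. -/
theorem l2Null_cutoff_gradF (hΩ : IsOpen Ω) (ha : ∀ j k, ContDiff ℝ ∞ (a j k))
    (hψ : ContinuousOn ψ Ω) (hη : IsCutoffSeqF Ω a ψ η) {U : CE ι → ℂ}
    (hU : MemLp U 2 (volume.restrict Ω)) (j : ι) :
    L2Null (volume.restrict Ω) (fun ν z => (wt ψ z * gradF a (η ν) z j) * U z) := by
  refine l2Null_of_dominated hU (M := 1)
    (fun ν => (aesm_of_continuousOn hΩ (continuousOn_wt hψ)).mul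
      (contDiff_Zf ha (hη.test ν).smooth).continuous.aestronglyMeasurable)
    (fun ν => (ae_restrict_iff' hΩ.measurableSet).2 (Eventually.of_forall fun z hz =>
      norm_wt_mul_gradF_le hη ν hz j))
    ((ae_restrict_iff' hΩ.measurableSet).2 (Eventually.of_forall fun z hz => ?_))
  refine tendsto_zero_of_eventually_eq ?_
  filter_upwards [cutoff_eventually_gradF hη hz j] with ν hν
  rw [hν, mul_zero]

/-- `e^{-ψ/2} (Z̄_jη_ν) U → 0` in `L²`. -/
theorem l2Null_cutoff_Zb (hΩ : IsOpen Ω) (ha : ∀ j k, ContDiff ℝ ∞ (a j k))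
    (hψ : ContinuousOn ψ Ω) (hη : IsCutoffSeqF Ω a ψ η) {U : CE ι → ℂ}
    (hU : MemLp U 2 (volume.restrict Ω)) (j : ι) :
    L2Null (volume.restrict Ω) (fun ν z => (wt ψ z * Zb a j (cx (η ν)) z) * U z) := by
  refine l2Null_of_dominated hU (M := 1)
    (fun ν => (aesm_of_continuousOn hΩ (continuousOn_wt hψ)).mul
      (contDiff_Zb ha (hη.test ν).smooth).continuous.aestronglyMeasurable)
    (fun ν => (ae_restrict_iff' hΩ.measurableSet).2 (Eventually.of_forall fun z hz =>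
      norm_wt_mul_Zb_le hη ν hz j))
    ((ae_restrict_iff' hΩ.measurableSet).2 (Eventually.of_forall fun z hz => ?_))
  refine tendsto_zero_of_eventually_eq ?_
  filter_upwards [cutoff_eventually_gradF hη hz j] with ν hν
  rw [Zb_cx, hν]
  simp

variable {p : CE ι → ℝ} {f : ι → CE ι → ℂ} {v : CE ι → ℂ}

theorem cut_l2Null_F (hΩ : IsOpen Ω) (hp : ContinuousOn p Ω) (hψ : ContinuousOn ψ Ω)
    (hη : IsCutoffSeqF Ω a ψ η) (hf : ∀ j, L2w Ω (fun z => p z - ψ z) (f j)) (j : ι) :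
    L2Null (volume.restrict Ω)
      (fun ν z => wt (fun y => p y - ψ y) z * (cutF (η ν) f j z - f j z)) :=
  (l2Null_cutoff_sub_one hΩ hη (l2w_memLp (q := fun z => p z - ψ z) hΩ (hp.sub hψ) (hf j))).congr fun ν z => by
    simp only [cutF]; ring

theorem cut_l2Null_V (hΩ : IsOpen Ω) (ha : ∀ j k, ContDiff ℝ ∞ (a j k)) (hp : ContinuousOn p Ω)
    (hψ : ContinuousOn ψ Ω) (hη : IsCutoffSeqF Ω a ψ η)
    (hf : ∀ j, L2w Ω (fun z => p z - ψ z) (f j)) (hv : L2w Ω (fun z => p z - 2 * ψ z) v) :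
    L2Null (volume.restrict Ω)
      (fun ν z => wt (fun y => p y - 2 * ψ y) z * (cutV a ψ (η ν) f v z - v z)) := by
  refine ((l2Null_cutoff_sub_one hΩ hη
    (l2w_memLp (q := fun z => p z - 2 * ψ z) hΩ (hp.sub (continuousOn_const.mul hψ)) hv)).sub
    (L2Null.sum Finset.univ fun j _ => l2Null_cutoff_gradF hΩ ha hψ hη
      (l2w_memLp (q := fun z => p z - ψ z) hΩ (hp.sub hψ) (hf j)) j)).congr fun ν z => ?_
  have s1 : ∑ j, wt ψ z * gradF a (η ν) z j * (wt (fun y => p y - ψ y) z * f j z)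
      = (wt ψ z * wt (fun y => p y - ψ y) z) * ∑ j, gradF a (η ν) z j * f j z := by
    rw [Finset.mul_sum]
    exact Finset.sum_congr rfl fun j _ => by ring
  rw [s1, ← wt_mul_exp_neg]
  simp only [cutV]
  ring

theorem cut_l2Null_H (hΩ : IsOpen Ω) (ha : ∀ j k, ContDiff ℝ ∞ (a j k)) (hp : ContinuousOn p Ω)
    (hψ : ContinuousOn ψ Ω) (hη : IsCutoffSeqF Ω a ψ η)
    (hf : ∀ j, L2w Ω (fun z => p z - ψ z) (f j)) (j k : ι) :
    L2Null (volume.restrict Ω) (fun ν z => wt p z * cutH a (η ν) f j k z) := by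
  refine ((l2Null_cutoff_Zb hΩ ha hψ hη (l2w_memLp (q := fun z => p z - ψ z) hΩ (hp.sub hψ) (hf k)) j).sub
    (l2Null_cutoff_Zb hΩ ha hψ hη (l2w_memLp (q := fun z => p z - ψ z) hΩ (hp.sub hψ) (hf j)) k)).congr fun ν z => ?_
  rw [wt_eq_mul p ψ z]
  simp only [cutH]
  ring

end cutseq

end Claimed.Agent.R316.B4

end SecDensityCutoff

/-!
# Row 316, B4-Density: test forms are dense for the graph norm

Combine `cutoff_tripleF` (with `δ/4`) and `compact_triple_approxF` (with `δ/4`): `‖x + y‖² ≤ 2‖x‖² + 2‖y‖²` under the integrals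
(all integrands are integrable: `L2w`, test functions), and
`curlSqF a F = ½ ∑∑ ‖Z̄_jF_k - Z̄_kF_j‖² ≤ ∑∑ ‖Z̄_jF_k - Z̄_kF_j - h'_{jk}‖² + ∑∑ ‖h'_{jk}‖²`; `∫ z, curlSqF … = ∫ z in Ω, …` because `F` is supported in `Ω`.
-/

section SecDensity
set_option linter.unusedSectionVars false
open scoped ContDiff ComplexOrder ComplexConjugate Topology ENNReal
open MeasureTheory Filter
open Claimed.Agent.R316.B6E (IsTest IsTestForm cx L2w)

namespace Claimed.Agent.R316.B4

variable {ι : Type} [Fintype ι] [DecidableEq ι]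

theorem l2Null_of_le {α : Type} [MeasurableSpace α] {μ : Measure α} {G : ℕ → α → ℂ}
    (hm : ∀ ν, MemLp (G ν) 2 μ) {ε : ℕ → ℝ≥0∞} (hε : Tendsto ε atTop (𝓝 0))
    (hle : ∀ ν, eLpNorm (G ν) 2 μ ≤ ε ν) : L2Null μ G :=
  ⟨hm, tendsto_of_tendsto_of_tendsto_of_le_of_le tendsto_const_nhds hε (fun _ => zero_le) hle⟩

theorem l2w_of_memLp_sub {Ω : Set (CE ι)} (hΩ : IsOpen Ω) {q : CE ι → ℝ} (hq : ContinuousOn q Ω)
    {X x : CE ι → ℂ} (hx : L2w Ω q x) (hm : AEStronglyMeasurable X (volume.restrict Ω))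
    (h : MemLp (fun z => wt q z * (X z - x z)) 2 (volume.restrict Ω)) : L2w Ω q X := by
  refine l2w_of_memLp hm ?_
  have h1 := h.add (l2w_memLp hΩ hq hx)
  have e : (fun z => wt q z * (X z - x z)) + (fun z => wt q z * x z) = fun z => wt q z * X z := by
    funext z
    simp only [Pi.add_apply]
    ring
  rwa [e] at h1

/-- **density lemma**. -/
theorem density_tripleF {Ω : Set (CE ι)} (hΩ : IsOpen Ω) {a : ι → ι → CE ι → ℂ}
    (ha : ∀ j k, ContDiff ℝ ∞ (a j k)) {p ψ : CE ι → ℝ}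
    (hp : ContDiffOn ℝ ∞ p Ω) (hψ : ContDiffOn ℝ ∞ ψ Ω) {η : ℕ → CE ι → ℝ}
    (hη : IsCutoffSeqF Ω a ψ η) {f : ι → CE ι → ℂ} {v : CE ι → ℂ}
    (hf : ∀ j, L2w Ω (fun z => p z - ψ z) (f j)) (hv : L2w Ω (fun z => p z - 2 * ψ z) v)
    (hfc : WeakClosedF Ω a f) (hadj : WeakAdjF Ω a p ψ f v) :
    ∃ F : ℕ → ι → CE ι → ℂ, (∀ ν, IsTestForm Ω (F ν)) ∧
      (∀ j, L2Null (volume.restrict Ω)
        (fun ν z => wt (fun y => p y - ψ y) z * (F ν j z - f j z))) ∧
      L2Null (volume.restrict Ω)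
        (fun ν z => wt (fun y => p y - 2 * ψ y) z * (TstF a p ψ (F ν) z - v z)) ∧
      (∀ j k, L2Null (volume.restrict Ω)
        (fun ν z => wt p z * (Zb a j (F ν k) z - Zb a k (F ν j) z))) := by
  have cp : ContinuousOn p Ω := hp.continuousOn
  have cψ : ContinuousOn ψ Ω := hψ.continuousOn
  have cp2 : ContinuousOn (fun z => p z - ψ z) Ω := cp.sub cψ
  have cp1 : ContinuousOn (fun z => p z - 2 * ψ z) Ω := cp.sub (continuousOn_const.mul cψ)
  have hfl : ∀ j, LocallyIntegrableOn (f j) Ω := fun j => l2w_locallyIntegrableOn hΩ cp2 (hf j)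
  have hvl : LocallyIntegrableOn v Ω := l2w_locallyIntegrableOn hΩ cp1 hv
  have c1 := cut_l2Null_F hΩ cp cψ hη hf
  have c2 := cut_l2Null_V hΩ ha cp cψ hη hf hv
  have c3 := cut_l2Null_H hΩ ha cp cψ hη hf
  set ε : ℕ → ℝ≥0∞ := fun ν => ENNReal.ofReal (1 / ((ν : ℝ) + 1)) with hεdef
  have hε0 : ∀ ν, 0 < ε ν := fun ν => by
    rw [hεdef]; exact ENNReal.ofReal_pos.2 (by positivity)
  have hε : Tendsto ε atTop (𝓝 0) := by
    have := (ENNReal.continuous_ofReal.tendsto 0).comp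
      (tendsto_one_div_add_atTop_nhds_zero_nat (𝕜 := ℝ))
    rw [ENNReal.ofReal_zero] at this
    exact this
  have key : ∀ ν, ∃ F : ι → CE ι → ℂ, IsTestForm Ω F ∧
      (∀ j, MemLp (fun z => wt (fun y => p y - ψ y) z * (F j z - cutF (η ν) f j z)) 2
          (volume.restrict Ω) ∧
        eLpNorm (fun z => wt (fun y => p y - ψ y) z * (F j z - cutF (η ν) f j z)) 2
          (volume.restrict Ω) ≤ ε ν) ∧
      (MemLp (fun z => wt (fun y => p y - 2 * ψ y) z * (TstF a p ψ F z - cutV a ψ (η ν) f v z)) 2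
          (volume.restrict Ω) ∧
        eLpNorm (fun z => wt (fun y => p y - 2 * ψ y) z
          * (TstF a p ψ F z - cutV a ψ (η ν) f v z)) 2 (volume.restrict Ω) ≤ ε ν) ∧
      (∀ j k, MemLp (fun z => wt p z * (Zb a j (F k) z - Zb a k (F j) z - cutH a (η ν) f j k z)) 2
          (volume.restrict Ω) ∧
        eLpNorm (fun z => wt p z * (Zb a j (F k) z - Zb a k (F j) z - cutH a (η ν) f j k z)) 2
          (volume.restrict Ω) ≤ ε ν) := by
    intro ν
    have hT := hη.test ν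
    have mη : AEStronglyMeasurable (cx (η ν)) (volume.restrict Ω) :=
      hT.continuous.aestronglyMeasurable
    have mG : ∀ j, AEStronglyMeasurable (fun z => gradF a (η ν) z j) (volume.restrict Ω) :=
      fun j => (contDiff_Zf ha hT.smooth).continuous.aestronglyMeasurable
    have mZ : ∀ j, AEStronglyMeasurable (Zb a j (cx (η ν))) (volume.restrict Ω) :=
      fun j => (contDiff_Zb ha hT.smooth).continuous.aestronglyMeasurable
    have mE : AEStronglyMeasurable (fun z => ((Real.exp (-ψ z) : ℝ) : ℂ)) (volume.restrict Ω) :=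
      aesm_of_continuousOn hΩ (B6E.contDiffOn_cx_exp hψ.neg).continuousOn
    have l1 : ∀ j, L2w Ω (fun z => p z - ψ z) (cutF (η ν) f j) := fun j =>
      l2w_of_memLp_sub hΩ cp2 (hf j) (mη.mul (hf j).meas) ((c1 j).1 ν)
    have l2 : L2w Ω (fun z => p z - 2 * ψ z) (cutV a ψ (η ν) f v) :=
      l2w_of_memLp_sub hΩ cp1 hv ((mη.mul hv.meas).sub (mE.mul
        (Finset.aestronglyMeasurable_fun_sum _ fun j _ => (mG j).mul (hf j).meas))) (c2.1 ν)
    have l3 : ∀ j k, L2w Ω p (cutH a (η ν) f j k) := fun j k =>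
      l2w_of_memLp (((mZ j).mul (hf k).meas).sub ((mZ k).mul (hf j).meas)) ((c3 j k).1 ν)
    have s1 : ∀ j z, z ∉ tsupport (cx (η ν)) → cutF (η ν) f j z = 0 := by
      intro j z hz
      simp [cutF, image_eq_zero_of_notMem_tsupport hz]
    have s2 : ∀ z, z ∉ tsupport (cx (η ν)) → cutV a ψ (η ν) f v z = 0 := by
      intro z hz
      have : ∀ j, gradF a (η ν) z j = 0 := fun j => Zf_eq_zero_of_notMem_tsupport hz
      simp [cutV, image_eq_zero_of_notMem_tsupport hz, this]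
    have s3 : ∀ j k z, z ∉ tsupport (cx (η ν)) → cutH a (η ν) f j k z = 0 := by
      intro j k z hz
      simp [cutH, Zb_eq_zero_of_notMem_tsupport hz]
    obtain ⟨G, hG, t1, t2, t3⟩ := compact_triple_approxF hΩ ha hp hψ hT.compact hT.supp l1 l2 l3
      s1 s2 s3 (cut_weakCurl hΩ ha hT hfl hfc) (cut_weakAdj hΩ ha hp hψ hT hfl hvl hadj)
    have e1 := eventually_all.2 fun j => ENNReal.tendsto_nhds_zero.1 (t1 j).2 _ (hε0 ν)
    have e2 := ENNReal.tendsto_nhds_zero.1 t2.2 _ (hε0 ν)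
    have e3 := eventually_all.2 fun j => eventually_all.2 fun k =>
      ENNReal.tendsto_nhds_zero.1 (t3 j k).2 _ (hε0 ν)
    obtain ⟨m, h1, h2, h3⟩ := (e1.and (e2.and e3)).exists
    exact ⟨G m, hG m, fun j => ⟨(t1 j).1 m, h1 j⟩, ⟨t2.1 m, h2⟩, fun j k => ⟨(t3 j k).1 m, h3 j k⟩⟩
  choose F hF h1 h2 h3 using key
  refine ⟨F, hF, fun j => ?_, ?_, fun j k => ?_⟩
  · exact ((l2Null_of_le (fun ν => (h1 ν j).1) hε (fun ν => (h1 ν j).2)).add (c1 j)).congr
      fun ν z => by ring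
  · exact ((l2Null_of_le (fun ν => (h2 ν).1) hε (fun ν => (h2 ν).2)).add c2).congr
      fun ν z => by ring
  · exact ((l2Null_of_le (fun ν => (h3 ν j k).1) hε (fun ν => (h3 ν j k).2)).add (c3 j k)).congr
      fun ν z => by ring

end Claimed.Agent.R316.B4

end SecDensity

/-!
# Row 316, B4-DualFn: the estimate extends from test forms to all weakly closed `f` in the domain of the weak adjoint

For `(f,v)` weakly closed with weak adjoint `v` take `F_δ` from `density_tripleF`, apply `hA` to `F_δ`, let `δ → 0`: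
the pairing with `g` is continuous in `L²(e^{-p₂})` by Cauchy–Schwarz (`B6E.sq_integral_le_of_sq_le`), `∫|T^*F_δ|² e^{-p₁} → ∫ |v|² e^{-p₁}` (`|‖x‖ - ‖y‖| ≤ ‖x - y‖` in `L²`), `∫ curlSqF F_δ e^{-p} → 0`.
`∫ z, … = ∫ z in Ω, …` for integrands containing the test form `F_δ`.
-/

section SecDualFn
set_option linter.unusedSectionVars false
open scoped ContDiff ComplexOrder ComplexConjugate Topology
open MeasureTheory Filter
open Claimed.Agent.R316.B6E (IsTest IsTestForm cx L2w)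

namespace Claimed.Agent.R316.B4

variable {ι : Type} [Fintype ι] [DecidableEq ι]

theorem memLp_conj {α : Type} [MeasurableSpace α] {μ : Measure α} {u : α → ℂ}
    (hu : MemLp u 2 μ) : MemLp (fun x => conj (u x)) 2 μ :=
  hu.of_le (Complex.continuous_conj.comp_aestronglyMeasurable hu.1)
    (Eventually.of_forall fun x => by rw [RCLike.norm_conj])

theorem integrable_mul_conj {α : Type} [MeasurableSpace α] {μ : Measure α} {k u : α → ℂ}
    (hk : MemLp k 2 μ) (hu : MemLp u 2 μ) : Integrable (fun x => k x * conj (u x)) μ :=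
  hk.integrable_mul (memLp_conj hu)

theorem estimate_of_densityF {Ω : Set (CE ι)} (hΩ : IsOpen Ω) {a : ι → ι → CE ι → ℂ}
    (ha : ∀ j k, ContDiff ℝ ∞ (a j k)) {p ψ : CE ι → ℝ}
    (hp : ContDiffOn ℝ ∞ p Ω) (hψ : ContDiffOn ℝ ∞ ψ Ω) {η : ℕ → CE ι → ℝ}
    (hη : IsCutoffSeqF Ω a ψ η) {g : ι → CE ι → ℂ}
    (hg : ∀ j, L2w Ω (fun z => p z - ψ z) (g j)) {C C' : ℝ}
    (hA : ∀ F, IsTestForm Ω F →
      ‖∫ z, (∑ j, g j z * conj (F j z)) * ((Real.exp (-(p z - ψ z)) : ℝ) : ℂ)‖ ^ 2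
        ≤ C * (∫ z, ‖TstF a p ψ F z‖ ^ 2 * Real.exp (-(p z - 2 * ψ z)))
          + C' * (∫ z, curlSqF a F z * Real.exp (-p z)))
    {f : ι → CE ι → ℂ} {v : CE ι → ℂ}
    (hf : ∀ j, L2w Ω (fun z => p z - ψ z) (f j)) (hv : L2w Ω (fun z => p z - 2 * ψ z) v)
    (hfc : WeakClosedF Ω a f) (hadj : WeakAdjF Ω a p ψ f v) :
    ‖∫ z in Ω, (∑ j, g j z * conj (f j z)) * ((Real.exp (-(p z - ψ z)) : ℝ) : ℂ)‖ ^ 2
      ≤ C * ∫ z in Ω, ‖v z‖ ^ 2 * Real.exp (-(p z - 2 * ψ z)) := by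
  have cp : ContinuousOn p Ω := hp.continuousOn
  have cψ : ContinuousOn ψ Ω := hψ.continuousOn
  have cp2 : ContinuousOn (fun z => p z - ψ z) Ω := cp.sub cψ
  have cp1 : ContinuousOn (fun z => p z - 2 * ψ z) Ω := cp.sub (continuousOn_const.mul cψ)
  obtain ⟨F, hF, t1, t2, t3⟩ := density_tripleF hΩ ha hp hψ hη hf hv hfc hadj
  have mg := fun j => l2w_memLp hΩ cp2 (hg j)
  have mf := fun j => l2w_memLp hΩ cp2 (hf j)
  have mv := l2w_memLp hΩ cp1 hv
  have t1' : ∀ j, L2Null (volume.restrict Ω) (fun ν z => wt (fun y => p y - ψ y) z * F ν j z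
      - wt (fun y => p y - ψ y) z * f j z) := fun j => (t1 j).congr fun ν z => by ring
  have t2' : L2Null (volume.restrict Ω) (fun ν z => wt (fun y => p y - 2 * ψ y) z
      * TstF a p ψ (F ν) z - wt (fun y => p y - 2 * ψ y) z * v z) := t2.congr fun ν z => by ring
  -- pointwise form of the pairing
  have epair : ∀ (u : ι → CE ι → ℂ) (z : CE ι),
      (∑ j, g j z * conj (u j z)) * ((Real.exp (-(p z - ψ z)) : ℝ) : ℂ)
        = ∑ j, (wt (fun y => p y - ψ y) z * g j z)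
          * conj (wt (fun y => p y - ψ y) z * u j z) := by
    intro u z
    rw [Finset.sum_mul]
    refine Finset.sum_congr rfl fun j _ => ?_
    have hw := wt_mul_wt (fun y => p y - ψ y) z
    rw [map_mul, conj_wt]
    linear_combination (-(g j z * conj (u j z))) * hw
  -- the pairing converges
  have hL : Tendsto (fun ν => ∫ z, (∑ j, g j z * conj (F ν j z))
      * ((Real.exp (-(p z - ψ z)) : ℝ) : ℂ)) atTop
      (𝓝 (∫ z in Ω, (∑ j, g j z * conj (f j z)) * ((Real.exp (-(p z - ψ z)) : ℝ) : ℂ))) := by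
    have h1 := tendsto_finsetSum Finset.univ fun j _ =>
      (t1' j).tendsto_integral_mul_conj (mf j) (mg j)
    have e1 : ∀ ν, ∫ z, (∑ j, g j z * conj (F ν j z)) * ((Real.exp (-(p z - ψ z)) : ℝ) : ℂ)
        = ∑ j, ∫ z in Ω, (wt (fun y => p y - ψ y) z * g j z)
          * conj (wt (fun y => p y - ψ y) z * F ν j z) := by
      intro ν
      rw [← integral_finsetSum _ fun j _ =>
        integrable_mul_conj (mg j) ((t1' j).memLp_of_sub (mf j) ν)]
      simp only [← epair]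
      refine (setIntegral_eq_integral_of_forall_compl_eq_zero fun z hz => ?_).symm
      simp [fun j => (hF ν j).eq_zero_of_notMem hz]
    have e2 : ∫ z in Ω, (∑ j, g j z * conj (f j z)) * ((Real.exp (-(p z - ψ z)) : ℝ) : ℂ)
        = ∑ j, ∫ z in Ω, (wt (fun y => p y - ψ y) z * g j z)
          * conj (wt (fun y => p y - ψ y) z * f j z) := by
      rw [← integral_finsetSum _ fun j _ => integrable_mul_conj (mg j) (mf j)]
      simp only [← epair]
    simp only [e1, e2]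
    exact h1
  -- the norms of the adjoints converge
  have hR1 : Tendsto (fun ν => ∫ z, ‖TstF a p ψ (F ν) z‖ ^ 2 * Real.exp (-(p z - 2 * ψ z))) atTop
      (𝓝 (∫ z in Ω, ‖v z‖ ^ 2 * Real.exp (-(p z - 2 * ψ z)))) := by
    have h1 := t2'.tendsto_integral_sq mv
    simp only [norm_wt_mul_sq] at h1
    have e1 : ∀ ν, ∫ z, ‖TstF a p ψ (F ν) z‖ ^ 2 * Real.exp (-(p z - 2 * ψ z))
        = ∫ z in Ω, ‖TstF a p ψ (F ν) z‖ ^ 2 * Real.exp (-(p z - 2 * ψ z)) := by
      intro ν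
      refine (setIntegral_eq_integral_of_forall_compl_eq_zero fun z hz => ?_).symm
      simp [(isTest_TstF ha hΩ hp hψ (hF ν)).eq_zero_of_notMem hz]
    simp only [e1]
    exact h1
  -- the curls tend to zero
  have hR2 : Tendsto (fun ν => ∫ z, curlSqF a (F ν) z * Real.exp (-p z)) atTop (𝓝 0) := by
    have h1 := tendsto_finsetSum Finset.univ fun j _ =>
      tendsto_finsetSum Finset.univ fun k _ => (t3 j k).tendsto_integral
    simp only [norm_wt_mul_sq, Finset.sum_const_zero] at h1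
    have h2 := h1.const_mul (1 / 2 : ℝ)
    rw [mul_zero] at h2
    have e1 : ∀ ν, ∫ z, curlSqF a (F ν) z * Real.exp (-p z)
        = 1 / 2 * ∑ j, ∑ k, ∫ z in Ω, ‖Zb a j (F ν k) z - Zb a k (F ν j) z‖ ^ 2
          * Real.exp (-p z) := by
      intro ν
      have hi : ∀ j k, Integrable (fun z => ‖Zb a j (F ν k) z - Zb a k (F ν j) z‖ ^ 2
          * Real.exp (-p z)) (volume.restrict Ω) := by
        intro j k
        have := (memLp_two_iff_integrable_sq_norm ((t3 j k).1 ν).1).1 ((t3 j k).1 ν)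
        simp only [norm_wt_mul_sq] at this
        exact this
      have e2 : ∫ z, curlSqF a (F ν) z * Real.exp (-p z)
          = ∫ z in Ω, curlSqF a (F ν) z * Real.exp (-p z) := by
        refine (setIntegral_eq_integral_of_forall_compl_eq_zero fun z hz => ?_).symm
        have : ∀ j k, Zb a j (F ν k) z = 0 := fun j k =>
          Zb_eq_zero_of_notMem_tsupport fun h => hz ((hF ν k).supp h)
        simp [curlSqF, this]
      rw [e2]
      simp only [← integral_finsetSum _ fun k _ => hi _ k]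
      rw [← integral_finsetSum _ fun j _ => integrable_finsetSum _ fun k _ => hi j k,
        ← integral_const_mul]
      refine integral_congr_ae (Eventually.of_forall fun z => ?_)
      simp only [curlSqF, Finset.sum_mul, Finset.mul_sum]
      refine Finset.sum_congr rfl fun j _ => Finset.sum_congr rfl fun k _ => ?_
      ring
    simp only [e1]
    exact h2
  have hlim := le_of_tendsto_of_tendsto' (hL.norm.pow 2)
    ((hR1.const_mul C).add (hR2.const_mul C')) (fun ν => hA (F ν) (hF ν))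
  simpa using hlim

end Claimed.Agent.R316.B4

end SecDualFn

/-!
# Row 316, B4-Dual: basic estimate on test forms + density + projection ⇒ dual estimate

Setting: `μ = volume.restrict Ω`, `H1 = Lp ℂ 2 μ`, `H2 = PiLp 2 (fun _ : ι => Lp ℂ 2 μ)` (UNWEIGHTED; the weights are
put into the functions: `f ∈ L²(e^{-p₂})` is represented by `\tilde f_j = e^{-p₂/2} f_j`, `v ∈ L²(e^{-p₁})` by
`e^{-p₁/2} v`; `p₁ = p - 2ψ`, `p₂ = p - ψ`).  Apply `B6E.hilbert_projection_estimate`: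
* `𝒢 = { γ_{w,j,k} }`, `γ = \overline{e^{p₂/2} Z̄_j^t w} e_k - \overline{e^{p₂/2} Z̄_k^t w} e_j` (`w` test): `f ⊥ 𝒢 ⇔ WeakClosedF Ω a f`.
* `𝒯 = { ((e^{-p₂/2} Z̄_j u)_j , e^{-p₁/2} u) }` (`u` test): the condition of `hilbert_projection_estimate` is `WeakAdjF`.
* `horth` = `weakClosedF_Zb` (here the commutation of the frame is used); `hg` = `hgc`.
* `hest` = `estimate_of_densityF`.
* finally, given a test form `Φ` put `F_j = \bar Φ_j e^{p₂}` (test form), `V = T^*F` (`weakAdjF_test`), and translate with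
  `TstF_of_dual`:  `⟨g,F⟩_{p₂} = ∫ ∑ g_j Φ_j`,  `∫ |T^*F|² e^{-p₁} = ∫ |∑ Z̄_j^tΦ_j|² e^{p₁}`.
-/

section SecDual
set_option linter.unusedSectionVars false
open scoped ContDiff ComplexOrder ComplexConjugate Topology
open MeasureTheory Filter
open Claimed.Agent.R316.B6E (IsTest IsTestForm cx L2w)

namespace Claimed.Agent.R316.B4

variable {ι : Type} [Fintype ι] [DecidableEq ι] {Ω : Set (CE ι)} {q : CE ι → ℝ}

theorem wt_mul_wt_neg (q : CE ι → ℝ) (z : CE ι) : wt q z * wt (fun y => - q y) z = 1 := by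
  unfold wt
  rw [← Complex.ofReal_mul, ← Real.exp_add]
  have : -q z / 2 + - -q z / 2 = 0 := by ring
  rw [this]; simp

theorem memLp_continuousOn_mul_test (hΩ : IsOpen Ω) {c : CE ι → ℂ} (hc : ContinuousOn c Ω)
    {w : CE ι → ℂ} (hw : IsTest Ω w) : MemLp (fun z => c z * w z) 2 (volume.restrict Ω) :=
  (memLp_continuousOn_mul_of_compact hΩ hc (hw.continuous.memLp_of_hasCompactSupport hw.compact)
    hw.compact hw.supp (fun _ hz => image_eq_zero_of_notMem_tsupport hz)).restrict Ω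

theorem inner_toLp_toLp {α : Type} [MeasurableSpace α] {μ : Measure α} {u w : α → ℂ}
    (hu : MemLp u 2 μ) (hw : MemLp w 2 μ) :
    inner ℂ (hu.toLp u) (hw.toLp w) = ∫ x, conj (u x) * w x ∂μ := by
  rw [l2_inner_toLp]
  refine integral_congr_ae ?_
  filter_upwards [hu.coeFn_toLp] with x hx
  rw [hx]

/-- scalar pairing in the weighted space. -/
theorem inner_toLp_wt {u x : CE ι → ℂ} (hu : MemLp (fun z => wt q z * u z) 2 (volume.restrict Ω))
    (hx : MemLp (fun z => wt q z * x z) 2 (volume.restrict Ω)) :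
    inner ℂ (hu.toLp _) (hx.toLp _)
      = conj (∫ z in Ω, u z * conj (x z) * ((Real.exp (-q z) : ℝ) : ℂ)) := by
  rw [inner_toLp_toLp, ← integral_conj]
  refine integral_congr_ae (Eventually.of_forall fun z => ?_)
  have hw := wt_mul_wt q z
  simp only [map_mul, conj_wt, Complex.conj_conj, Complex.conj_ofReal]
  linear_combination (conj (u z) * x z) * hw

theorem integrable_pairing_wt {u x : CE ι → ℂ}
    (hu : MemLp (fun z => wt q z * u z) 2 (volume.restrict Ω))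
    (hx : MemLp (fun z => wt q z * x z) 2 (volume.restrict Ω)) :
    Integrable (fun z => u z * conj (x z) * ((Real.exp (-q z) : ℝ) : ℂ)) (volume.restrict Ω) := by
  refine (integrable_mul_conj hu hx).congr (Eventually.of_forall fun z => ?_)
  have hw := wt_mul_wt q z
  simp only [map_mul, conj_wt]
  linear_combination (u z * conj (x z)) * hw

/-- `e^{-q/2} X` as an element of `L²(Ω)^ι`. -/
noncomputable def tl (Ω : Set (CE ι)) (q : CE ι → ℝ) (X : ι → CE ι → ℂ)
    (hX : ∀ j, MemLp (fun z => wt q z * X j z) 2 (volume.restrict Ω)) :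
    PiLp 2 (fun _ : ι => Lp ℂ 2 (volume.restrict Ω)) :=
  WithLp.toLp 2 (fun j => (hX j).toLp _)

theorem inner_tl_tl {Y X : ι → CE ι → ℂ}
    (hY : ∀ j, MemLp (fun z => wt q z * Y j z) 2 (volume.restrict Ω))
    (hX : ∀ j, MemLp (fun z => wt q z * X j z) 2 (volume.restrict Ω)) :
    inner ℂ (tl Ω q Y hY) (tl Ω q X hX)
      = conj (∫ z in Ω, (∑ j, Y j z * conj (X j z)) * ((Real.exp (-q z) : ℝ) : ℂ)) := by
  rw [PiLp.inner_apply]
  simp only [tl, inner_toLp_wt, Finset.sum_mul]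
  rw [integral_finsetSum _ fun j _ => integrable_pairing_wt (hY j) (hX j), map_sum]

theorem exists_toLp_wt_eq (hΩ : IsOpen Ω) (hq : ContinuousOn q Ω) (v : Lp ℂ 2 (volume.restrict Ω)) :
    ∃ (x : CE ι → ℂ) (hx : MemLp (fun z => wt q z * x z) 2 (volume.restrict Ω)),
      AEStronglyMeasurable x (volume.restrict Ω) ∧ v = hx.toLp _ := by
  have e : (fun z => wt q z * (wt (fun y => - q y) z * v z)) = v := by
    funext z
    rw [← mul_assoc, wt_mul_wt_neg, one_mul]
  have hx : MemLp (fun z => wt q z * (wt (fun y => - q y) z * v z)) 2 (volume.restrict Ω) := by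
    rw [e]; exact Lp.memLp v
  refine ⟨fun z => wt (fun y => - q y) z * v z, hx,
    (aesm_of_continuousOn hΩ (continuousOn_wt hq.neg)).mul (Lp.aestronglyMeasurable v), ?_⟩
  ext1
  filter_upwards [hx.coeFn_toLp] with z hz
  rw [hz, ← mul_assoc, wt_mul_wt_neg, one_mul]

theorem exists_tl_eq (hΩ : IsOpen Ω) (hq : ContinuousOn q Ω)
    (f : PiLp 2 (fun _ : ι => Lp ℂ 2 (volume.restrict Ω))) :
    ∃ (X : ι → CE ι → ℂ) (hX : ∀ j, MemLp (fun z => wt q z * X j z) 2 (volume.restrict Ω)),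
      (∀ j, AEStronglyMeasurable (X j) (volume.restrict Ω)) ∧ f = tl Ω q X hX := by
  choose X hX hm he using fun j => exists_toLp_wt_eq hΩ hq (f j)
  refine ⟨X, hX, hm, ?_⟩
  ext1 j
  exact he j

/-- the vector `γ_{w,j,k}` representing `f ↦ ∫ (f_k Z̄_j^t w - f_j Z̄_k^t w)`. -/
noncomputable def gamV (Ω : Set (CE ι)) (j k : ι) (A : ι → Lp ℂ 2 (volume.restrict Ω)) :
    PiLp 2 (fun _ : ι => Lp ℂ 2 (volume.restrict Ω)) :=
  WithLp.toLp 2 (Pi.single k (A j) - Pi.single j (A k))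

theorem inner_gamV (x : PiLp 2 (fun _ : ι => Lp ℂ 2 (volume.restrict Ω))) (j k : ι)
    (A : ι → Lp ℂ 2 (volume.restrict Ω)) :
    inner ℂ x (gamV Ω j k A) = inner ℂ (x k) (A j) - inner ℂ (x j) (A k) := by
  have h : ∀ (i : ι) (B : Lp ℂ 2 (volume.restrict Ω)) (l : ι),
      inner ℂ (x l) ((Pi.single i B : ι → Lp ℂ 2 (volume.restrict Ω)) l)
        = if l = i then inner ℂ (x i) B else 0 := by
    intro i B l
    by_cases hl : l = i
    · subst hl; simp
    · simp [hl]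
  rw [PiLp.inner_apply]
  simp only [gamV, Pi.sub_apply, inner_sub_right, Finset.sum_sub_distrib, h,
    Finset.sum_ite_eq', Finset.mem_univ, if_true]

/-- the vectors `A_i = \overline{e^{q/2} Z̄_i^t w}`. -/
noncomputable def gamA (hΩ : IsOpen Ω) (hq : ContinuousOn q Ω) {a : ι → ι → CE ι → ℂ}
    (ha : ∀ j k, ContDiff ℝ ∞ (a j k)) {w : CE ι → ℂ} (hw : IsTest Ω w) (i : ι) :
    Lp ℂ 2 (volume.restrict Ω) :=
  (memLp_conj (memLp_continuousOn_mul_test hΩ (continuousOn_wt hq.neg)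
    (isTest_Zbt ha hw (j := i)))).toLp _

theorem inner_tl_gamV (hΩ : IsOpen Ω) (hq : ContinuousOn q Ω) {a : ι → ι → CE ι → ℂ}
    (ha : ∀ j k, ContDiff ℝ ∞ (a j k)) {w : CE ι → ℂ} (hw : IsTest Ω w) {X : ι → CE ι → ℂ}
    (hX : ∀ j, MemLp (fun z => wt q z * X j z) 2 (volume.restrict Ω)) (j k : ι) :
    inner ℂ (tl Ω q X hX) (gamV Ω j k (gamA hΩ hq ha hw))
      = conj (∫ z, (X k z * Zbt a j w z - X j z * Zbt a k w z)) := by
  have h1 : ∀ i l, inner ℂ ((tl Ω q X hX) l) (gamA hΩ hq ha hw i)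
      = conj (∫ z in Ω, X l z * Zbt a i w z) := by
    intro i l
    show inner ℂ ((hX l).toLp _) (MemLp.toLp _ _) = _
    rw [inner_toLp_toLp, ← integral_conj]
    refine integral_congr_ae (Eventually.of_forall fun z => ?_)
    simp only [map_mul, conj_wt]
    linear_combination (conj (X l z) * conj (Zbt a i w z)) * wt_mul_wt_neg q z
  have hI : ∀ i l, Integrable (fun z => X l z * Zbt a i w z) (volume.restrict Ω) := by
    intro i l
    refine ((hX l).integrable_mul (memLp_continuousOn_mul_test hΩ (continuousOn_wt hq.neg)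
      (isTest_Zbt ha hw (j := i)))).congr (Eventually.of_forall fun z => ?_)
    simp only [Pi.mul_apply]
    linear_combination (X l z * Zbt a i w z) * wt_mul_wt_neg q z
  rw [inner_gamV, h1, h1, ← map_sub, ← integral_sub (hI j k) (hI k j)]
  congr 1
  refine setIntegral_eq_integral_of_forall_compl_eq_zero fun z hz => ?_
  have : ∀ i, Zbt a i w z = 0 := fun i =>
    Zbt_eq_zero_of_notMem_tsupport fun h => hz (hw.supp h)
  simp [this]

/-- **dual estimate from the basic estimate**. -/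
theorem dualEstF_of_basic (hΩ : IsOpen Ω) {a : ι → ι → CE ι → ℂ}
    {α β : ι → ι → ι → CE ι → ℂ} (hfr : IsFrame Ω a α β) {p ψ : CE ι → ℝ}
    (hp : ContDiffOn ℝ ∞ p Ω) (hψ : ContDiffOn ℝ ∞ ψ Ω) {η : ℕ → CE ι → ℝ}
    (hη : IsCutoffSeqF Ω a ψ η) {g : ι → CE ι → ℂ}
    (hg : ∀ j, L2w Ω (fun z => p z - ψ z) (g j)) (hgc : WeakClosedF Ω a g)
    {C C' : ℝ}
    (hA : ∀ F, IsTestForm Ω F →
      ‖∫ z, (∑ j, g j z * conj (F j z)) * ((Real.exp (-(p z - ψ z)) : ℝ) : ℂ)‖ ^ 2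
        ≤ C * (∫ z, ‖TstF a p ψ F z‖ ^ 2 * Real.exp (-(p z - 2 * ψ z)))
          + C' * (∫ z, curlSqF a F z * Real.exp (-p z))) :
    DualEstF Ω a g (fun z => Real.exp (p z - 2 * ψ z)) C := by
  intro Φ hΦ
  have ha := hfr.smooth
  have cp : ContinuousOn p Ω := hp.continuousOn
  have cψ : ContinuousOn ψ Ω := hψ.continuousOn
  have cp2 : ContinuousOn (fun z => p z - ψ z) Ω := cp.sub cψ
  have cp1 : ContinuousOn (fun z => p z - 2 * ψ z) Ω := cp.sub (continuousOn_const.mul cψ)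
  -- test functions in the weighted spaces
  have mT2 : ∀ {u : CE ι → ℂ}, IsTest Ω u →
      MemLp (fun z => wt (fun y => p y - ψ y) z * u z) 2 (volume.restrict Ω) := fun hu =>
    memLp_continuousOn_mul_test hΩ (continuousOn_wt cp2) hu
  have mT1 : ∀ {u : CE ι → ℂ}, IsTest Ω u →
      MemLp (fun z => wt (fun y => p y - 2 * ψ y) z * u z) 2 (volume.restrict Ω) := fun hu =>
    memLp_continuousOn_mul_test hΩ (continuousOn_wt cp1) hu
  have mg := fun j => l2w_memLp hΩ cp2 (hg j)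
  set 𝒯 : Set (PiLp 2 (fun _ : ι => Lp ℂ 2 (volume.restrict Ω)) × Lp ℂ 2 (volume.restrict Ω)) :=
    {τ | ∃ (u : CE ι → ℂ) (hu : IsTest Ω u),
      τ = (tl Ω (fun y => p y - ψ y) (fun j => Zb a j u) (fun j => mT2 (isTest_Zb ha hu)),
        (mT1 hu).toLp _)} with h𝒯
  set 𝒢 : Set (PiLp 2 (fun _ : ι => Lp ℂ 2 (volume.restrict Ω))) :=
    {γ | ∃ (w : CE ι → ℂ) (hw : IsTest Ω w) (j k : ι), γ = gamV Ω j k (gamA hΩ cp2 ha hw)} with h𝒢
  -- whole space integrals against test functions are integrals over `Ω`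
  have eadjL : ∀ {u : CE ι → ℂ}, IsTest Ω u → ∀ X : ι → CE ι → ℂ,
      ∫ z in Ω, (∑ j, Zb a j u z * conj (X j z)) * ((Real.exp (-(p z - ψ z)) : ℝ) : ℂ)
        = ∫ z, (∑ j, Zb a j u z * conj (X j z)) * ((Real.exp (-(p z - ψ z)) : ℝ) : ℂ) := by
    intro u hu X
    refine setIntegral_eq_integral_of_forall_compl_eq_zero fun z hz => ?_
    have : ∀ j, Zb a j u z = 0 := fun j =>
      Zb_eq_zero_of_notMem_tsupport fun h => hz (hu.supp h)
    simp [this]
  have eadjR : ∀ {u : CE ι → ℂ}, IsTest Ω u → ∀ x : CE ι → ℂ,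
      ∫ z in Ω, u z * conj (x z) * ((Real.exp (-(p z - 2 * ψ z)) : ℝ) : ℂ)
        = ∫ z, u z * conj (x z) * ((Real.exp (-(p z - 2 * ψ z)) : ℝ) : ℂ) := by
    intro u hu x
    refine setIntegral_eq_integral_of_forall_compl_eq_zero fun z hz => ?_
    simp [hu.eq_zero_of_notMem hz]
  -- the adjoint relation in the Hilbert spaces
  have adj_iff : ∀ {X : ι → CE ι → ℂ} {x : CE ι → ℂ}
      (hX : ∀ j, MemLp (fun z => wt (fun y => p y - ψ y) z * X j z) 2 (volume.restrict Ω))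
      (hx : MemLp (fun z => wt (fun y => p y - 2 * ψ y) z * x z) 2 (volume.restrict Ω)),
      (∀ τ ∈ 𝒯, inner ℂ τ.1 (tl Ω (fun y => p y - ψ y) X hX) = inner ℂ τ.2 (hx.toLp _))
        ↔ WeakAdjF Ω a p ψ X x := by
    intro X x hX hx
    constructor
    · intro h u hu
      have h1 := h _ ⟨u, hu, rfl⟩
      simp only [inner_tl_tl, inner_toLp_wt] at h1
      have h2 := (starRingEnd ℂ).injective h1
      rw [eadjL hu, eadjR hu] at h2
      exact h2
    · rintro h τ ⟨u, hu, rfl⟩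
      simp only [inner_tl_tl, inner_toLp_wt]
      rw [eadjL hu, eadjR hu, h u hu]
  have hmain := B6E.hilbert_projection_estimate 𝒢 𝒯 ?_ (tl Ω (fun y => p y - ψ y) g mg) ?_ C ?_
  rotate_left
  · -- `horth`
    rintro τ ⟨u, hu, rfl⟩ γ ⟨w, hw, j, k, rfl⟩
    rw [inner_tl_gamV, weakClosedF_Zb hfr hΩ hu w hw j k, map_zero]
  · -- `hg`
    rintro γ ⟨w, hw, j, k, rfl⟩
    rw [inner_tl_gamV, hgc w hw j k, map_zero]
  · -- `hest`
    intro f v hγ hτ
    obtain ⟨X, hX, hXm, rfl⟩ := exists_tl_eq hΩ cp2 f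
    obtain ⟨x, hx, hxm, rfl⟩ := exists_toLp_wt_eq hΩ cp1 v
    have hcl : WeakClosedF Ω a X := by
      intro w hw j k
      have h1 := hγ _ ⟨w, hw, j, k, rfl⟩
      rw [inner_tl_gamV] at h1
      exact (map_eq_zero (starRingEnd ℂ)).1 h1
    have hadj : WeakAdjF Ω a p ψ X x := (adj_iff hX hx).1 hτ
    have h1 := estimate_of_densityF hΩ ha hp hψ hη hg hA
      (fun j => l2w_of_memLp (hXm j) (hX j)) (l2w_of_memLp hxm hx) hcl hadj
    rw [inner_tl_tl, RCLike.norm_conj, l2_norm_sq_toLp]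
    simp only [norm_wt_mul_sq]
    exact h1
  -- apply to `F = \bar Φ e^{p₂}`
  have hF : IsTestForm Ω (fun j y => conj (Φ j y) * ((Real.exp (p y - ψ y) : ℝ) : ℂ)) := fun j =>
    (hΦ j).conj.mul_contDiffOn hΩ (B6E.contDiffOn_cx_exp (hp.sub hψ))
  have hV := isTest_TstF ha hΩ hp hψ hF
  have h2 := hmain (tl Ω (fun y => p y - ψ y) _ (fun j => mT2 (hF j))) ((mT1 hV).toLp _)
    ((adj_iff _ _).2 (weakAdjF_test ha hΩ hp hψ hF))
  rw [inner_tl_tl, RCLike.norm_conj, l2_norm_sq_toLp] at h2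
  simp only [norm_wt_mul_sq] at h2
  have e1 : ∫ z in Ω, (∑ j, g j z * conj (conj (Φ j z) * ((Real.exp (p z - ψ z) : ℝ) : ℂ)))
      * ((Real.exp (-(p z - ψ z)) : ℝ) : ℂ) = ∫ z, ∑ j, g j z * Φ j z := by
    have e : ∀ z, (∑ j, g j z * conj (conj (Φ j z) * ((Real.exp (p z - ψ z) : ℝ) : ℂ)))
        * ((Real.exp (-(p z - ψ z)) : ℝ) : ℂ) = ∑ j, g j z * Φ j z := by
      intro z
      have hexp : ((Real.exp (p z - ψ z) : ℝ) : ℂ) * ((Real.exp (-(p z - ψ z)) : ℝ) : ℂ) = 1 := by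
        rw [← Complex.ofReal_mul, ← Real.exp_add]; simp
      rw [Finset.sum_mul]
      refine Finset.sum_congr rfl fun j _ => ?_
      simp only [map_mul, Complex.conj_conj, Complex.conj_ofReal]
      linear_combination (g j z * Φ j z) * hexp
    simp only [e]
    refine setIntegral_eq_integral_of_forall_compl_eq_zero fun z hz => ?_
    simp [fun j => (hΦ j).eq_zero_of_notMem hz]
  have e2 : ∫ z in Ω, ‖TstF a p ψ (fun j y => conj (Φ j y) * ((Real.exp (p y - ψ y) : ℝ) : ℂ)) z‖ ^ 2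
      * Real.exp (-(p z - 2 * ψ z))
      = ∫ z, ‖∑ j, Zbt a j (Φ j) z‖ ^ 2 * Real.exp (p z - 2 * ψ z) := by
    have e : ∫ z in Ω, ‖TstF a p ψ (fun j y => conj (Φ j y)
          * ((Real.exp (p y - ψ y) : ℝ) : ℂ)) z‖ ^ 2 * Real.exp (-(p z - 2 * ψ z))
        = ∫ z in Ω, ‖∑ j, Zbt a j (Φ j) z‖ ^ 2 * Real.exp (p z - 2 * ψ z) := by
      refine setIntegral_congr_fun hΩ.measurableSet fun z hz => ?_
      rw [TstF_of_dual ha hΩ hp hψ hΦ hz, norm_mul, RCLike.norm_conj, Complex.norm_real,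
        Real.norm_of_nonneg (Real.exp_pos _).le, mul_pow, Real.exp_neg]
      have := (Real.exp_pos (p z - 2 * ψ z)).ne'
      field_simp
    rw [e]
    refine setIntegral_eq_integral_of_forall_compl_eq_zero fun z hz => ?_
    simp [sum_Zbt_eq_zero_of_notMem hΦ hz]
  rw [e1, e2] at h2
  exact h2

end Claimed.Agent.R316.B4

end SecDual
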