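import Claimed.Agent.R316.Pack015_2
import Claimed.Agent.R316.B4.FrameInt

set_option autoImplicit false

/-!
# Row 316, B4-FriedA: Friedrichs' commutator, uniform `L²` bound

`E` a finite dimensional real inner product space, `ρ_ν = wsRho ν`, `ρ_ν * f = wsMol ν f` (`R316/B6E/Moll.lean`, `MollWeak.lean`: `wsMol_fderiv_apply`,
`integrable_fderiv_wsRho_smul`, `wsMol_eLpNorm_le` and its proof by Jensen).
`friedK ν b e f = b ∂_e(ρ_ν * f) - ∂_e(ρ_ν * (b f))`.

1. (`wsRho_scale`) the bumps `wsB ν` have the fixed ratio `rOut / rIn = 2`, so by the definition of `ContDiffBump.toFun`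
   (`(someContDiffBumpBase E).toFun (rOut / rIn) (rIn⁻¹ • (x - c))`) `wsB ν x = wsB 0 ((ν+1) • x)`; with `integral_comp_smul` :
   `wsRho ν x = (ν+1)^d wsRho 0 ((ν+1) • x)`, `d = finrank ℝ E`.
2. (`integral_norm_fderiv_wsRho_mul_norm`) `∫ ‖fderiv ℝ (wsRho ν) t‖ ‖t‖ dt = ∫ ‖fderiv ℝ (wsRho 0) y‖ ‖y‖ dy =: C₀` (chain rule + change of variables `y = (ν+1) t`).
   (Only `≤ C₀` is needed.  Alternative for 2: `‖t‖ ≤ 1/(ν+1)` on the support and `∫ ‖fderiv (wsRho ν)‖ = (ν+1) ∫ ‖fderiv (wsRho 0)‖`.)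
3. (`friedK_eq`) `friedK ν b e f x = ∫ (b x - b y) (∂_e ρ_ν)(x - y) f y dy` (`wsMol_fderiv_apply` for `f` and for `b f`).
4. With `‖b x - b y‖ ≤ L ‖x - y‖` (`L = sup ‖fderiv b‖`, mean value inequality, `b` smooth with compact support):
   `‖friedK ν b e f x‖ ≤ ∫ κ_ν(x - y) ‖f y‖ dy`, `κ_ν(t) = L ‖t‖ ‖fderiv ℝ (wsRho ν) t‖`, `∫ κ_ν ≤ L C₀`.
   Young's inequality `‖κ * |f|‖₂ ≤ ‖κ‖₁ ‖f‖₂` (`young_lintegral_sq`): Cauchy–Schwarz `(∫ κ(x-y) |f y|)² ≤ (∫ κ) ∫ κ(x-y) |f y|² dy` and Tonelli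
   (copy the proof of `wsMol_lintegral_rpow_le` in `Moll.lean`, where the kernel is a probability density).
-/

section SecFriedA
set_option linter.unusedSectionVars false
open MeasureTheory Filter Topology
open scoped ContDiff ENNReal
open Claimed.Agent.R316.B6E (wsRho wsMol wsB)

namespace Claimed.Agent.R316.B4

variable {E : Type} [NormedAddCommGroup E] [InnerProductSpace ℝ E] [FiniteDimensional ℝ E]
  [MeasurableSpace E] [BorelSpace E]

/-- Friedrichs' commutator `[b ∂_e, ρ_ν *] f`. -/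
noncomputable def friedK (ν : ℕ) (b : E → ℂ) (e : E) (f : E → ℂ) (x : E) : ℂ :=
  b x * fderiv ℝ (wsMol ν f) x e - fderiv ℝ (wsMol ν (fun y => b y * f y)) x e

theorem wsB_scale (ν : ℕ) (x : E) :
    (wsB ν : ContDiffBump (0 : E)) x = (wsB 0 : ContDiffBump (0 : E)) (((ν : ℝ) + 1) • x) := by
  rw [ContDiffBump.apply, ContDiffBump.apply]
  have hs : (0 : ℝ) < (ν : ℝ) + 1 := by positivity
  have h1 : (wsB ν : ContDiffBump (0 : E)).rOut / (wsB ν : ContDiffBump (0 : E)).rIn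
      = (wsB 0 : ContDiffBump (0 : E)).rOut / (wsB 0 : ContDiffBump (0 : E)).rIn := by
    show (1 / ((ν : ℝ) + 1)) / (1 / (2 * ((ν : ℝ) + 1)))
      = (1 / (((0 : ℕ) : ℝ) + 1)) / (1 / (2 * (((0 : ℕ) : ℝ) + 1)))
    field_simp
  have h2 : (wsB ν : ContDiffBump (0 : E)).rIn⁻¹ • (x - 0)
      = (wsB 0 : ContDiffBump (0 : E)).rIn⁻¹ • (((ν : ℝ) + 1) • x - 0) := by
    show (1 / (2 * ((ν : ℝ) + 1)))⁻¹ • (x - 0)
      = (1 / (2 * (((0 : ℕ) : ℝ) + 1)))⁻¹ • (((ν : ℝ) + 1) • x - 0)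
    rw [sub_zero, sub_zero, smul_smul]
    congr 1
    simp
  rw [h1, h2]

theorem wsRho_scale (ν : ℕ) (x : E) :
    wsRho ν x = ((ν : ℝ) + 1) ^ Module.finrank ℝ E * wsRho 0 (((ν : ℝ) + 1) • x) := by
  have hs : (0 : ℝ) < (ν : ℝ) + 1 := by positivity
  unfold wsRho
  rw [ContDiffBump.normed_def, ContDiffBump.normed_def]
  have h1 : ∫ y : E, (wsB ν : ContDiffBump (0 : E)) y
      = (((ν : ℝ) + 1) ^ Module.finrank ℝ E)⁻¹ * ∫ y : E, (wsB 0 : ContDiffBump (0 : E)) y := by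
    simp only [wsB_scale ν]
    rw [Measure.integral_comp_smul_of_nonneg volume _ _ (hR := hs.le), smul_eq_mul]
  rw [h1, wsB_scale ν x]
  have h0 : (0 : ℝ) < ∫ y : E, (wsB 0 : ContDiffBump (0 : E)) y := (wsB 0).integral_pos
  field_simp

theorem fderiv_wsRho_scale (ν : ℕ) (t : E) :
    fderiv ℝ (wsRho ν) t = (((ν : ℝ) + 1) ^ Module.finrank ℝ E * ((ν : ℝ) + 1)) •
      fderiv ℝ (wsRho 0) (((ν : ℝ) + 1) • t) := by
  have e : (wsRho ν : E → ℝ)
      = fun x => ((ν : ℝ) + 1) ^ Module.finrank ℝ E * wsRho 0 (((ν : ℝ) + 1) • x) :=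
    funext (wsRho_scale ν)
  have hd : DifferentiableAt ℝ (fun x : E => wsRho 0 (((ν : ℝ) + 1) • x)) t :=
    (((B6E.wsRho_contDiff 0).differentiable (by simp)).comp
      (differentiable_id.const_smul ((ν : ℝ) + 1))).differentiableAt
  rw [e, fderiv_const_mul hd, fderiv_comp_smul, smul_smul]

theorem continuous_fderiv_wsRho (ν : ℕ) : Continuous (fun t : E => fderiv ℝ (wsRho ν) t) :=
  (B6E.wsRho_contDiff ν).continuous_fderiv (by simp)

theorem integrable_norm_fderiv_wsRho_mul_norm (ν : ℕ) :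
    Integrable (fun t : E => ‖fderiv ℝ (wsRho ν) t‖ * ‖t‖) volume := by
  have hc : Continuous (fun t : E => ‖fderiv ℝ (wsRho ν) t‖ * ‖t‖) :=
    (continuous_fderiv_wsRho ν).norm.mul continuous_norm
  refine hc.integrable_of_hasCompactSupport ?_
  have h1 : HasCompactSupport (fun t : E => ‖fderiv ℝ (wsRho ν) t‖) :=
    ((B6E.wsRho_hasCompactSupport (E := E) ν).fderiv ℝ).norm
  exact h1.mul_right

theorem integral_norm_fderiv_wsRho_mul_norm (ν : ℕ) :
    ∫ t : E, ‖fderiv ℝ (wsRho ν) t‖ * ‖t‖ = ∫ t : E, ‖fderiv ℝ (wsRho 0) t‖ * ‖t‖ := by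
  have hs : (0 : ℝ) < (ν : ℝ) + 1 := by positivity
  have e : ∀ t : E, ‖fderiv ℝ (wsRho ν) t‖ * ‖t‖
      = ((ν : ℝ) + 1) ^ Module.finrank ℝ E *
        (fun y : E => ‖fderiv ℝ (wsRho 0) y‖ * ‖y‖) (((ν : ℝ) + 1) • t) := by
    intro t
    simp only
    rw [fderiv_wsRho_scale, norm_smul, norm_smul, Real.norm_of_nonneg (by positivity),
      Real.norm_of_nonneg hs.le]
    ring
  have h := Measure.integral_comp_smul_of_nonneg volume
    (fun y : E => ‖fderiv ℝ (wsRho 0) y‖ * ‖y‖) ((ν : ℝ) + 1) (hR := hs.le)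
  rw [integral_congr_ae (Eventually.of_forall e), integral_const_mul, h,
    smul_eq_mul, ← mul_assoc, mul_inv_cancel₀ (by positivity), one_mul]

theorem integral_norm_fderiv_wsRho_mul_norm_le :
    ∃ C₀ : ℝ, 0 ≤ C₀ ∧ ∀ ν : ℕ, Integrable (fun t : E => ‖fderiv ℝ (wsRho ν) t‖ * ‖t‖) volume ∧
      ∫ t : E, ‖fderiv ℝ (wsRho ν) t‖ * ‖t‖ ≤ C₀ :=
  ⟨∫ t : E, ‖fderiv ℝ (wsRho 0) t‖ * ‖t‖, integral_nonneg fun t => by positivity, fun ν =>
    ⟨integrable_norm_fderiv_wsRho_mul_norm ν, (integral_norm_fderiv_wsRho_mul_norm ν).le⟩⟩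

/-- Young's inequality `L¹ * L² ⊆ L²` (lintegral form) for a nonnegative continuous integrable kernel. -/
theorem young_lintegral_sq {κ : E → ℝ} (hκ : Continuous κ) (hκ0 : ∀ t, 0 ≤ κ t)
    (hκi : Integrable κ volume) {f : E → ℂ} (hf : AEStronglyMeasurable f volume) :
    ∫⁻ x, (∫⁻ y, ENNReal.ofReal (κ (x - y)) * ‖f y‖ₑ) ^ (2 : ℝ)
      ≤ ENNReal.ofReal (∫ t, κ t) ^ (2 : ℝ) * ∫⁻ x, ‖f x‖ₑ ^ (2 : ℝ) := by
  set f' := hf.mk f with hf'
  have hsm : StronglyMeasurable f' := hf.stronglyMeasurable_mk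
  have hae : f =ᵐ[volume] f' := hf.ae_eq_mk
  have hL : ∀ x, ∫⁻ y, ENNReal.ofReal (κ (x - y)) * ‖f y‖ₑ
      = ∫⁻ y, ENNReal.ofReal (κ (x - y)) * ‖f' y‖ₑ := by
    intro x
    refine lintegral_congr_ae ?_
    filter_upwards [hae] with y hy
    rw [hy]
  have hR : ∫⁻ x, ‖f x‖ₑ ^ (2 : ℝ) = ∫⁻ x, ‖f' x‖ₑ ^ (2 : ℝ) := by
    refine lintegral_congr_ae ?_
    filter_upwards [hae] with x hx
    rw [hx]
  simp only [hL]
  rw [hR]
  set μκ : Measure E := volume.withDensity (fun y => ENNReal.ofReal (κ y)) with hμκ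
  set m : ℝ≥0∞ := ENNReal.ofReal (∫ t, κ t) with hm
  have hmass : μκ Set.univ = m := by
    rw [hμκ, withDensity_apply _ MeasurableSet.univ, Measure.restrict_univ,
      ← ofReal_integral_eq_lintegral_ofReal hκi (Eventually.of_forall hκ0)]
  have hκm : Measurable fun y => ENNReal.ofReal (κ y) := hκ.measurable.ennreal_ofReal
  have h1 : ∀ x, ∫⁻ y, ENNReal.ofReal (κ (x - y)) * ‖f' y‖ₑ = ∫⁻ t, ‖f' (x - t)‖ₑ ∂μκ := by
    intro x
    have hmx : Measurable fun y => ‖f' (x - y)‖ₑ :=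
      (hsm.comp_measurable (measurable_const.sub measurable_id)).enorm
    rw [hμκ, lintegral_withDensity_eq_lintegral_mul _ hκm hmx,
      ← lintegral_sub_left_eq_self (fun t => ((fun y => ENNReal.ofReal (κ y))
        * fun y => ‖f' (x - y)‖ₑ) t) x]
    refine lintegral_congr fun y => ?_
    simp only [Pi.mul_apply, sub_sub_cancel]
  have h2 : ∀ x, (∫⁻ t, ‖f' (x - t)‖ₑ ∂μκ) ^ (2 : ℝ)
      ≤ (∫⁻ t, ‖f' (x - t)‖ₑ ^ (2 : ℝ) ∂μκ) * m := by
    intro x
    have hmx : StronglyMeasurable fun y => f' (x - y) :=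
      hsm.comp_measurable (measurable_const.sub measurable_id)
    have h := eLpNorm'_le_eLpNorm'_mul_rpow_measure_univ (f := fun y => f' (x - y)) (μ := μκ)
      (p := 1) (q := 2) one_pos (by norm_num) hmx.aestronglyMeasurable
    simp only [eLpNorm', ENNReal.rpow_one, div_one] at h
    rw [hmass] at h
    calc (∫⁻ t, ‖f' (x - t)‖ₑ ∂μκ) ^ (2 : ℝ)
        ≤ ((∫⁻ t, ‖f' (x - t)‖ₑ ^ (2 : ℝ) ∂μκ) ^ (1 / 2 : ℝ) * m ^ (1 - 1 / 2 : ℝ)) ^ (2 : ℝ) :=
          ENNReal.rpow_le_rpow h (by norm_num)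
      _ = (∫⁻ t, ‖f' (x - t)‖ₑ ^ (2 : ℝ) ∂μκ) * m := by
          rw [ENNReal.mul_rpow_of_nonneg _ _ (by norm_num), ← ENNReal.rpow_mul, ← ENNReal.rpow_mul]
          norm_num
  have hm2 : Measurable (Function.uncurry fun (x y : E) => ‖f' (x - y)‖ₑ ^ (2 : ℝ)) := by
    have : StronglyMeasurable fun z : E × E => f' (z.1 - z.2) :=
      hsm.comp_measurable (measurable_fst.sub measurable_snd)
    exact this.enorm.pow_const 2
  simp only [h1]
  calc ∫⁻ x, (∫⁻ t, ‖f' (x - t)‖ₑ ∂μκ) ^ (2 : ℝ)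
      ≤ ∫⁻ x, (∫⁻ t, ‖f' (x - t)‖ₑ ^ (2 : ℝ) ∂μκ) * m := lintegral_mono h2
    _ = (∫⁻ x, ∫⁻ t, ‖f' (x - t)‖ₑ ^ (2 : ℝ) ∂μκ) * m := by
        rw [lintegral_mul_const']
        rw [hm]; exact ENNReal.ofReal_ne_top
    _ = (∫⁻ t, (∫⁻ x, ‖f' (x - t)‖ₑ ^ (2 : ℝ)) ∂μκ) * m := by
        rw [lintegral_lintegral_swap hm2.aemeasurable]
    _ = (∫⁻ _t, (∫⁻ x, ‖f' x‖ₑ ^ (2 : ℝ)) ∂μκ) * m := by
        congr 1
        refine lintegral_congr fun y => ?_
        exact lintegral_sub_right_eq_self (fun x => ‖f' x‖ₑ ^ (2 : ℝ)) y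
    _ = m ^ (2 : ℝ) * ∫⁻ x, ‖f' x‖ₑ ^ (2 : ℝ) := by
        rw [lintegral_const, hmass]
        have : m ^ (2 : ℝ) = m * m := by
          rw [show (2 : ℝ) = ((2 : ℕ) : ℝ) by norm_num, ENNReal.rpow_natCast, sq]
        rw [this]
        ring

theorem locallyIntegrable_continuous_mul {b f : E → ℂ} (hb : Continuous b)
    (hf : LocallyIntegrable f volume) : LocallyIntegrable (fun y => b y * f y) volume :=
  locallyIntegrableOn_univ.1 ((locallyIntegrableOn_univ.2 hf).continuousOn_mul hb.continuousOn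
    isClosed_univ.isLocallyClosed)

theorem friedK_eq (ν : ℕ) {b : E → ℂ} (hb : Continuous b) (e : E) {f : E → ℂ}
    (hf : LocallyIntegrable f volume) (x : E) :
    friedK ν b e f x = ∫ y, (fderiv ℝ (wsRho ν) (x - y) e : ℝ) • ((b x - b y) * f y) := by
  have hbf : LocallyIntegrable (fun y => b y * f y) volume := locallyIntegrable_continuous_mul hb hf
  unfold friedK
  rw [B6E.wsMol_fderiv_apply ν hf, B6E.wsMol_fderiv_apply ν hbf, ← integral_const_mul,
    ← integral_sub ((B6E.integrable_fderiv_wsRho_smul ν hf x e).const_mul _)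
      (B6E.integrable_fderiv_wsRho_smul ν hbf x e)]
  refine integral_congr_ae (Eventually.of_forall fun y => ?_)
  simp only [Complex.real_smul]
  ring

theorem continuous_friedK (ν : ℕ) {b : E → ℂ} (hb : Continuous b) (e : E) {f : E → ℂ}
    (hf : LocallyIntegrable f volume) : Continuous (friedK ν b e f) := by
  have hbf : LocallyIntegrable (fun y => b y * f y) volume := locallyIntegrable_continuous_mul hb hf
  unfold friedK
  exact (hb.mul (((B6E.wsMol_contDiff ν hf).continuous_fderiv (by simp)).clm_apply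
    continuous_const)).sub
    (((B6E.wsMol_contDiff ν hbf).continuous_fderiv (by simp)).clm_apply continuous_const)

/-- a smooth compactly supported function is Lipschitz. -/
theorem exists_lipschitz_of_compactSupport {b : E → ℂ} (hb : ContDiff ℝ ∞ b)
    (hbc : HasCompactSupport b) :
    ∃ L : ℝ, 0 ≤ L ∧ (∀ x, ‖fderiv ℝ b x‖ ≤ L) ∧ ∀ x y, ‖b x - b y‖ ≤ L * ‖x - y‖ := by
  obtain ⟨L, hL⟩ := (hb.continuous_fderiv (by simp)).bounded_above_of_compact_support
    (hbc.fderiv ℝ)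
  refine ⟨L, (norm_nonneg _).trans (hL 0), hL, fun x y => ?_⟩
  exact Convex.norm_image_sub_le_of_norm_fderiv_le
    (fun z _ => (hb.differentiable (by simp)).differentiableAt) (fun z _ => hL z) convex_univ
    (Set.mem_univ y) (Set.mem_univ x)

/-- **uniform bound of the commutator.** -/
theorem friedK_eLpNorm_le {b : E → ℂ} (hb : ContDiff ℝ ∞ b) (hbc : HasCompactSupport b) :
    ∃ C : ℝ, 0 ≤ C ∧ ∀ (ν : ℕ) (e : E) (f : E → ℂ), MemLp f 2 volume →
      MemLp (friedK ν b e f) 2 volume ∧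
        eLpNorm (friedK ν b e f) 2 volume ≤ ENNReal.ofReal (C * ‖e‖) * eLpNorm f 2 volume := by
  obtain ⟨L, hL0, -, hL⟩ := exists_lipschitz_of_compactSupport hb hbc
  obtain ⟨C₀, hC₀, hC⟩ := integral_norm_fderiv_wsRho_mul_norm_le (E := E)
  refine ⟨L * C₀, mul_nonneg hL0 hC₀, fun ν e f hf => ?_⟩
  have hfl : LocallyIntegrable f volume := hf.locallyIntegrable (by norm_num)
  set κ : E → ℝ := fun t => (L * ‖e‖) * (‖fderiv ℝ (wsRho ν) t‖ * ‖t‖) with hκ
  have hκc : Continuous κ :=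
    continuous_const.mul ((continuous_fderiv_wsRho ν).norm.mul continuous_norm)
  have hκ0 : ∀ t, 0 ≤ κ t := fun t => by positivity
  have hκi : Integrable κ volume := (hC ν).1.const_mul _
  have hκint : ∫ t, κ t ≤ L * C₀ * ‖e‖ := by
    rw [hκ, integral_const_mul]
    calc L * ‖e‖ * ∫ t : E, ‖fderiv ℝ (wsRho ν) t‖ * ‖t‖ ≤ L * ‖e‖ * C₀ :=
          mul_le_mul_of_nonneg_left (hC ν).2 (by positivity)
      _ = L * C₀ * ‖e‖ := by ring
  have hpt : ∀ x, ‖friedK ν b e f x‖ₑ ≤ ∫⁻ y, ENNReal.ofReal (κ (x - y)) * ‖f y‖ₑ := by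
    intro x
    rw [friedK_eq ν hb.continuous e hfl x]
    refine (enorm_integral_le_lintegral_enorm _).trans (lintegral_mono fun y => ?_)
    rw [enorm_smul, enorm_mul, ← mul_assoc]
    refine mul_le_mul_left ?_ _
    rw [← ofReal_norm, ← ofReal_norm, ← ENNReal.ofReal_mul (norm_nonneg _)]
    refine ENNReal.ofReal_le_ofReal ?_
    have h1 : ‖fderiv ℝ (wsRho ν) (x - y) e‖ ≤ ‖fderiv ℝ (wsRho ν) (x - y)‖ * ‖e‖ :=
      (fderiv ℝ (wsRho ν) (x - y)).le_opNorm e
    calc ‖fderiv ℝ (wsRho ν) (x - y) e‖ * ‖b x - b y‖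
        ≤ (‖fderiv ℝ (wsRho ν) (x - y)‖ * ‖e‖) * (L * ‖x - y‖) :=
          mul_le_mul h1 (hL x y) (norm_nonneg _) (by positivity)
      _ = κ (x - y) := by rw [hκ]; ring
  have hY := young_lintegral_sq hκc hκ0 hκi hf.1
  have hmeas : AEStronglyMeasurable (friedK ν b e f) volume :=
    (continuous_friedK ν hb.continuous e hfl).aestronglyMeasurable
  have hle : eLpNorm (friedK ν b e f) 2 volume
      ≤ ENNReal.ofReal (L * C₀ * ‖e‖) * eLpNorm f 2 volume := by
    rw [eLpNorm_eq_lintegral_rpow_enorm_toReal (by norm_num) (by norm_num),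
      eLpNorm_eq_lintegral_rpow_enorm_toReal (by norm_num) (by norm_num)]
    simp only [ENNReal.toReal_ofNat]
    calc (∫⁻ x, ‖friedK ν b e f x‖ₑ ^ (2 : ℝ)) ^ (1 / 2 : ℝ)
        ≤ (ENNReal.ofReal (∫ t, κ t) ^ (2 : ℝ) * ∫⁻ x, ‖f x‖ₑ ^ (2 : ℝ)) ^ (1 / 2 : ℝ) := by
          refine ENNReal.rpow_le_rpow (le_trans (lintegral_mono fun x => ?_) hY) (by norm_num)
          exact ENNReal.rpow_le_rpow (hpt x) (by norm_num)
      _ = ENNReal.ofReal (∫ t, κ t) * (∫⁻ x, ‖f x‖ₑ ^ (2 : ℝ)) ^ (1 / 2 : ℝ) := by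
          rw [ENNReal.mul_rpow_of_nonneg _ _ (by norm_num), ← ENNReal.rpow_mul]
          norm_num
      _ ≤ ENNReal.ofReal (L * C₀ * ‖e‖) * (∫⁻ x, ‖f x‖ₑ ^ (2 : ℝ)) ^ (1 / 2 : ℝ) :=
          mul_le_mul_left (ENNReal.ofReal_le_ofReal hκint) _
  exact ⟨⟨hmeas, hle.trans_lt (ENNReal.mul_lt_top ENNReal.ofReal_lt_top hf.2)⟩, hle⟩

end Claimed.Agent.R316.B4

end SecFriedA

/-!
# Row 316, B4-FriedB: Friedrichs' lemma  `b ∂_e(ρ_ν * f) - ∂_e(ρ_ν * (b f)) → - (∂_e b) f` in `L²`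

SORRY-FREE.  Convergence to `0` in `L²` is packaged as `L2Null μ G` (closed under `add, sub, neg, sum, const_mul, bdd_mul, shift`; `L2Null.tendsto_integral`).

1. (`friedK_tendsto_of_smooth`) for `g` smooth with compact support: `∂_e(ρ_ν * g) = ρ_ν * ∂_e g` (`HasCompactSupport.hasFDerivAt_convolution_right`, or
   `wsMol_fderiv_apply` + integration by parts), so `friedK ν b e g = b (ρ_ν * ∂_e g) - ρ_ν * ∂_e(b g) → b ∂_e g - ∂_e (b g) = - (∂_e b) g` in `L²`
   (`wsMol_tendsto_eLpNorm`, `b` bounded).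
2. (`friedrichs_compact`) `f ∈ L²`, `δ > 0`: choose `g = wsMol μ f₁`, `f₁` continuous with compact support close to `f` (`MemLp.exists_hasCompactSupport_eLpNorm_sub_le`), or any
   smooth compactly supported `g` with `‖f - g‖₂ < δ`;  `friedK` is additive in `f`;
   `‖friedK ν b e f + (∂_e b) f‖₂ ≤ ‖friedK ν b e (f-g)‖₂ + ‖friedK ν b e g + (∂_e b) g‖₂ + ‖(∂_e b)(f-g)‖₂ ≤ (C + sup|∂_e b|) δ + o(1)` (`friedK_eLpNorm_le`;
   reduce to `‖e‖ ≤ 1` by homogeneity or apply the bound to `e/‖e‖`).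
3. (`friedrichs`) `b` only smooth, `f = 0` off the compact `K`: take `χ` smooth with compact support, `χ = 1` on a neighbourhood of `cthickening 1 K`
   (`exists_contMDiffMap_one_nhds_of_subset_interior` / `B6E.exists_isTest_eq_one`), `b' = χ b`.  Then `b f = b' f`, `wsMol ν f` is supported in `cthickening 1 K`
   (`wsMol_support_subset`), where `b = b'`, and `∂_e b = ∂_e b'` on `K`: the two expressions coincide pointwise.
4. Wirtinger versions on `CE ι`: `dz k = ½(∂_{e_k} - i ∂_{i e_k})`, `dzb k = ½(∂_{e_k} + i ∂_{i e_k})`; triangle inequality; pass from `eLpNorm` to `∫ ‖·‖²` with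
   `B6E.tendsto_integral_sq_of_eLpNorm`.
-/

section SecFriedB
set_option linter.unusedSectionVars false
open MeasureTheory Filter Topology
open scoped ContDiff ENNReal ComplexConjugate
open Claimed.Agent.R316.B6E (wsRho wsMol wsB)

namespace Claimed.Agent.R316.B4

section l2null

variable {α : Type} [MeasurableSpace α] {μ : Measure α}

/-- `G ν → 0` in `L²(μ)`. -/
def L2Null (μ : Measure α) (G : ℕ → α → ℂ) : Prop :=
  (∀ ν, MemLp (G ν) 2 μ) ∧ Tendsto (fun ν => eLpNorm (G ν) 2 μ) atTop (𝓝 0)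

theorem L2Null.congr {G H : ℕ → α → ℂ} (h : L2Null μ G) (e : ∀ ν x, H ν x = G ν x) :
    L2Null μ H := by
  have : H = G := by funext ν x; exact e ν x
  rw [this]; exact h

theorem L2Null.add {G H : ℕ → α → ℂ} (h1 : L2Null μ G) (h2 : L2Null μ H) :
    L2Null μ (fun ν x => G ν x + H ν x) := by
  refine ⟨fun ν => (h1.1 ν).add (h2.1 ν), ?_⟩
  have h := h1.2.add h2.2
  rw [add_zero] at h
  exact tendsto_of_tendsto_of_tendsto_of_le_of_le tendsto_const_nhds h (fun _ => zero_le)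
    (fun ν => eLpNorm_add_le (h1.1 ν).1 (h2.1 ν).1 (by norm_num))

theorem L2Null.bdd_mul {G : ℕ → α → ℂ} (h : L2Null μ G) {b : α → ℂ}
    (hb : AEStronglyMeasurable b μ) {M : ℝ} (hM : ∀ x, ‖b x‖ ≤ M) :
    L2Null μ (fun ν x => b x * G ν x) := by
  have hle : ∀ ν, ∀ᵐ x ∂μ, ‖b x * G ν x‖ ≤ M * ‖G ν x‖ := fun ν =>
    Eventually.of_forall fun x => by
      rw [norm_mul]; exact mul_le_mul_of_nonneg_right (hM x) (norm_nonneg _)
  refine ⟨fun ν => (h.1 ν).of_le_mul (hb.mul (h.1 ν).1) (hle ν), ?_⟩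
  have h2 := ENNReal.Tendsto.const_mul (a := ENNReal.ofReal M) h.2 (Or.inr ENNReal.ofReal_ne_top)
  rw [mul_zero] at h2
  exact tendsto_of_tendsto_of_tendsto_of_le_of_le tendsto_const_nhds h2 (fun _ => zero_le)
    (fun ν => eLpNorm_le_mul_eLpNorm_of_ae_le_mul (hle ν) 2)

theorem L2Null.const_mul {G : ℕ → α → ℂ} (h : L2Null μ G) (c : ℂ) :
    L2Null μ (fun ν x => c * G ν x) :=
  h.bdd_mul (b := fun _ => c) aestronglyMeasurable_const (M := ‖c‖) (fun _ => le_rfl)

theorem L2Null.neg {G : ℕ → α → ℂ} (h : L2Null μ G) : L2Null μ (fun ν x => - G ν x) :=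
  (h.const_mul (-1)).congr fun ν x => by ring

theorem L2Null.sub {G H : ℕ → α → ℂ} (h1 : L2Null μ G) (h2 : L2Null μ H) :
    L2Null μ (fun ν x => G ν x - H ν x) :=
  (h1.add h2.neg).congr fun ν x => by ring

theorem L2Null.zero : L2Null μ (fun _ _ => (0 : ℂ)) := by
  refine ⟨fun _ => MemLp.zero, ?_⟩
  have h0 : eLpNorm (fun _ : α => (0 : ℂ)) 2 μ = 0 := eLpNorm_zero
  show Tendsto (fun _ : ℕ => eLpNorm (fun _ : α => (0 : ℂ)) 2 μ) atTop (𝓝 0)
  rw [h0]
  exact tendsto_const_nhds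

theorem L2Null.sum {β : Type} (s : Finset β) {G : β → ℕ → α → ℂ} (h : ∀ i ∈ s, L2Null μ (G i)) :
    L2Null μ (fun ν x => ∑ i ∈ s, G i ν x) := by
  classical
  induction s using Finset.induction_on with
  | empty => simpa using L2Null.zero
  | insert i s hi ih =>
    simp only [Finset.sum_insert hi]
    exact (h i (Finset.mem_insert_self i s)).add
      (ih fun k hk => h k (Finset.mem_insert_of_mem hk))

theorem L2Null.shift {G : ℕ → α → ℂ} (h : L2Null μ G) (ν0 : ℕ) :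
    L2Null μ (fun ν => G (ν + ν0)) :=
  ⟨fun _ => h.1 _, h.2.comp (tendsto_add_atTop_nat ν0)⟩

theorem L2Null.tendsto_integral {G : ℕ → α → ℂ} (h : L2Null μ G) :
    Tendsto (fun ν => ∫ x, ‖G ν x‖ ^ 2 ∂μ) atTop (𝓝 0) :=
  B6E.tendsto_integral_sq_of_eLpNorm h.1 h.2

end l2null

section general

variable {E : Type} [NormedAddCommGroup E] [InnerProductSpace ℝ E] [FiniteDimensional ℝ E]
  [MeasurableSpace E] [BorelSpace E]

theorem l2Null_wsMol {f : E → ℂ} (hf : MemLp f 2 volume) :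
    L2Null volume (fun ν x => wsMol ν f x - f x) :=
  ⟨fun ν => (B6E.wsMol_memLp ν (by norm_num) (by norm_num) hf).sub hf,
    B6E.wsMol_tendsto_eLpNorm (p := 2) (by norm_num) (by norm_num) hf⟩

theorem fderiv_wsMol_of_smooth (ν : ℕ) {g : E → ℂ} (hg : ContDiff ℝ ∞ g)
    (hgc : HasCompactSupport g) (x e : E) :
    fderiv ℝ (wsMol ν g) x e = wsMol ν (fun a => fderiv ℝ g a e) x := by
  have hg1 : ContDiff ℝ 1 g := hg.of_le (by simp)
  have hρ : LocallyIntegrable (wsRho ν : E → ℝ) volume :=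
    (B6E.wsRho_integrable ν).locallyIntegrable
  have h1 := hgc.hasFDerivAt_convolution_right (ContinuousLinearMap.lsmul ℝ ℝ) hρ hg1 x
  unfold wsMol
  rw [h1.fderiv, convolution_precompR_apply _ hρ (hgc.fderiv ℝ)
    (hg1.continuous_fderiv (by simp)) x e]

theorem memLp_fderiv_apply_of_smooth {g : E → ℂ} (hg : ContDiff ℝ ∞ g)
    (hgc : HasCompactSupport g) (e : E) : MemLp (fun a => fderiv ℝ g a e) 2 volume :=
  ((hg.continuous_fderiv (by simp)).clm_apply continuous_const).memLp_of_hasCompactSupport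
    (hgc.fderiv_apply (𝕜 := ℝ) e)

/-- the Friedrichs remainder `[b ∂_e, ρ_ν *] f + (∂_e b) f`. -/
noncomputable def friedT (ν : ℕ) (b : E → ℂ) (e : E) (f : E → ℂ) (x : E) : ℂ :=
  friedK ν b e f x + fderiv ℝ b x e * f x

theorem friedK_tendsto_of_smooth {b : E → ℂ} (hb : ContDiff ℝ ∞ b) (hbc : HasCompactSupport b)
    {g : E → ℂ} (hg : ContDiff ℝ ∞ g) (hgc : HasCompactSupport g) (e : E) :
    L2Null volume (fun ν => friedT ν b e g) := by
  obtain ⟨M, hM⟩ := hb.continuous.bounded_above_of_compact_support hbc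
  have hbg : ContDiff ℝ ∞ (fun y => b y * g y) := hb.mul hg
  have hbgc : HasCompactSupport (fun y => b y * g y) := hgc.mul_left
  have t1 := l2Null_wsMol (memLp_fderiv_apply_of_smooth hg hgc e)
  have t2 := l2Null_wsMol (memLp_fderiv_apply_of_smooth hbg hbgc e)
  refine ((t1.bdd_mul hb.continuous.aestronglyMeasurable hM).sub t2).congr fun ν x => ?_
  unfold friedT friedK
  rw [fderiv_wsMol_of_smooth ν hg hgc, fderiv_wsMol_of_smooth ν hbg hbgc]
  have hd : fderiv ℝ (fun y => b y * g y) x e = b x * fderiv ℝ g x e + g x * fderiv ℝ b x e := by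
    rw [fderiv_fun_mul (hb.differentiable (by simp)).differentiableAt
      (hg.differentiable (by simp)).differentiableAt]
    simp
  rw [hd]
  ring

theorem friedK_sub (ν : ℕ) {b : E → ℂ} (hb : Continuous b) (e : E) {f g : E → ℂ}
    (hf : LocallyIntegrable f volume) (hg : LocallyIntegrable g volume) (x : E) :
    friedK ν b e (fun y => f y - g y) x = friedK ν b e f x - friedK ν b e g x := by
  have hbf := locallyIntegrable_continuous_mul hb hf
  have hbg := locallyIntegrable_continuous_mul hb hg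
  have d : ∀ {u : E → ℂ}, LocallyIntegrable u volume → DifferentiableAt ℝ (wsMol ν u) x :=
    fun hu => ((B6E.wsMol_contDiff ν hu).differentiable (by simp)).differentiableAt
  unfold friedK
  simp only [mul_sub]
  rw [B6E.wsMol_sub ν hf hg, B6E.wsMol_sub ν hbf hbg, fderiv_fun_sub (d hf) (d hg),
    fderiv_fun_sub (d hbf) (d hbg)]
  simp only [sub_apply]
  ring

theorem friedT_memLp_and_le {b : E → ℂ} (hb : ContDiff ℝ ∞ b) (hbc : HasCompactSupport b) :
    ∃ C : ℝ, 0 ≤ C ∧ ∀ (ν : ℕ) (e : E) (f : E → ℂ), MemLp f 2 volume →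
      MemLp (friedT ν b e f) 2 volume ∧
        eLpNorm (friedT ν b e f) 2 volume ≤ ENNReal.ofReal (C * ‖e‖) * eLpNorm f 2 volume := by
  obtain ⟨C, hC0, hC⟩ := friedK_eLpNorm_le hb hbc
  obtain ⟨L, hL0, hL, -⟩ := exists_lipschitz_of_compactSupport hb hbc
  refine ⟨C + L, add_nonneg hC0 hL0, fun ν e f hf => ?_⟩
  obtain ⟨h1, h2⟩ := hC ν e f hf
  have hc : Continuous (fun x => fderiv ℝ b x e) :=
    (hb.continuous_fderiv (by simp)).clm_apply continuous_const
  have hle : ∀ᵐ x ∂(volume : Measure E), ‖fderiv ℝ b x e * f x‖ ≤ (L * ‖e‖) * ‖f x‖ :=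
    Eventually.of_forall fun x => by
      rw [norm_mul]
      exact mul_le_mul_of_nonneg_right (((fderiv ℝ b x).le_opNorm e).trans
        (mul_le_mul_of_nonneg_right (hL x) (norm_nonneg _))) (norm_nonneg _)
  have h3 : MemLp (fun x => fderiv ℝ b x e * f x) 2 volume :=
    hf.of_le_mul (hc.aestronglyMeasurable.mul hf.1) hle
  refine ⟨h1.add h3, ?_⟩
  calc eLpNorm (friedT ν b e f) 2 volume
      ≤ eLpNorm (friedK ν b e f) 2 volume + eLpNorm (fun x => fderiv ℝ b x e * f x) 2 volume :=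
        eLpNorm_add_le h1.1 h3.1 (by norm_num)
    _ ≤ ENNReal.ofReal (C * ‖e‖) * eLpNorm f 2 volume
          + ENNReal.ofReal (L * ‖e‖) * eLpNorm f 2 volume :=
        add_le_add h2 (eLpNorm_le_mul_eLpNorm_of_ae_le_mul hle 2)
    _ = ENNReal.ofReal ((C + L) * ‖e‖) * eLpNorm f 2 volume := by
        rw [← add_mul, ← ENNReal.ofReal_add (by positivity) (by positivity), add_mul]

theorem friedrichs_compact {b : E → ℂ} (hb : ContDiff ℝ ∞ b) (hbc : HasCompactSupport b)
    {f : E → ℂ} (hf : MemLp f 2 volume) (e : E) :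
    L2Null volume (fun ν => friedT ν b e f) := by
  obtain ⟨C, hC0, hC⟩ := friedT_memLp_and_le hb hbc
  refine ⟨fun ν => (hC ν e f hf).1, ?_⟩
  rw [ENNReal.tendsto_nhds_zero]
  intro ε hε
  -- reduce to a real `ε`
  obtain ⟨η, hη, hηε⟩ : ∃ η : ℝ, 0 < η ∧ ENNReal.ofReal η ≤ ε := by
    rcases eq_or_ne ε ⊤ with rfl | hne
    · exact ⟨1, one_pos, le_top⟩
    · exact ⟨ε.toReal, ENNReal.toReal_pos hε.ne' hne, (ENNReal.ofReal_toReal hne).le⟩
  set A : ℝ := C * ‖e‖ with hA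
  have hA0 : 0 ≤ A := by positivity
  set δ : ℝ := η / (2 * (A + 1)) with hδ
  have hδ0 : 0 < δ := by positivity
  obtain ⟨g, hgc, hg, hfg⟩ := hf.exist_eLpNorm_sub_le (by norm_num) (by norm_num) hδ0
  have hgm : MemLp g 2 volume := hg.continuous.memLp_of_hasCompactSupport hgc
  have hfl : LocallyIntegrable f volume := hf.locallyIntegrable (by norm_num)
  have hgl : LocallyIntegrable g volume := hgm.locallyIntegrable (by norm_num)
  have hsub : MemLp (fun y => f y - g y) 2 volume := hf.sub hgm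
  have hη2 : (0 : ℝ≥0∞) < ENNReal.ofReal (η / 2) := by
    rw [ENNReal.ofReal_pos]; positivity
  filter_upwards [(ENNReal.tendsto_nhds_zero.1 (friedK_tendsto_of_smooth hb hbc hg hgc e).2) _ hη2]
    with ν hν
  have hdec : friedT ν b e f = fun x => friedT ν b e (fun y => f y - g y) x + friedT ν b e g x := by
    funext x
    unfold friedT
    rw [friedK_sub ν hb.continuous e hfl hgl]
    ring
  obtain ⟨m1, l1⟩ := hC ν e _ hsub
  have m2 := (hC ν e g hgm).1
  have l2 : eLpNorm (fun y => f y - g y) 2 volume ≤ ENNReal.ofReal δ := hfg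
  calc eLpNorm (friedT ν b e f) 2 volume
      ≤ eLpNorm (friedT ν b e (fun y => f y - g y)) 2 volume + eLpNorm (friedT ν b e g) 2 volume := by
        rw [hdec]; exact eLpNorm_add_le m1.1 m2.1 (by norm_num)
    _ ≤ ENNReal.ofReal A * ENNReal.ofReal δ + ENNReal.ofReal (η / 2) :=
        add_le_add (l1.trans (mul_le_mul_right l2 _)) hν
    _ = ENNReal.ofReal (A * δ + η / 2) := by
        rw [← ENNReal.ofReal_mul hA0, ← ENNReal.ofReal_add (by positivity) (by positivity)]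
    _ ≤ ENNReal.ofReal η := by
        refine ENNReal.ofReal_le_ofReal ?_
        have : A * δ ≤ η / 2 := by
          rw [hδ, mul_div_assoc', div_le_iff₀ (by positivity)]
          nlinarith
        linarith
    _ ≤ ε := hηε

/-- **Friedrichs' lemma.** -/
theorem friedrichs {b : E → ℂ} (hb : ContDiff ℝ ∞ b) {f : E → ℂ} (hf : MemLp f 2 volume)
    {K : Set E} (hK : IsCompact K) (hf0 : ∀ x, x ∉ K → f x = 0) (e : E) :
    L2Null volume (fun ν => friedT ν b e f) := by
  obtain ⟨R, hR⟩ := hK.cthickening (r := 1) |>.isBounded.subset_closedBall (0 : E)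
  have hR' : Metric.cthickening 1 K ⊆ Metric.closedBall (0 : E) (max R 0) :=
    hR.trans (Metric.closedBall_subset_closedBall (le_max_left _ _))
  set R₁ : ℝ := max R 0 with hR₁
  have hR0 : 0 ≤ R₁ := le_max_right _ _
  let χ : ContDiffBump (0 : E) := ⟨R₁ + 1, R₁ + 2, by positivity, by linarith⟩
  set b' : E → ℂ := fun x => ((χ x : ℝ) : ℂ) * b x with hb'
  have hχs : ContDiff ℝ ∞ (fun x => ((χ x : ℝ) : ℂ)) :=
    Complex.ofRealCLM.contDiff.comp χ.contDiff
  have hb's : ContDiff ℝ ∞ b' := hχs.mul hb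
  have hb'c : HasCompactSupport b' := by
    have h1 : HasCompactSupport (fun x => ((χ x : ℝ) : ℂ)) :=
      χ.hasCompactSupport.comp_left (g := fun t : ℝ => (t : ℂ)) (by simp)
    exact h1.mul_right
  have hone : ∀ x ∈ Metric.cthickening 1 K, b' =ᶠ[𝓝 x] b := by
    intro x hx
    have hx1 : x ∈ Metric.ball (0 : E) (R₁ + 1) :=
      Metric.closedBall_subset_ball (by linarith) (hR' hx)
    filter_upwards [Metric.isOpen_ball.mem_nhds hx1] with y hy
    have : χ y = 1 := χ.one_of_mem_closedBall (Metric.ball_subset_closedBall hy)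
    simp [hb', this]
  refine (friedrichs_compact hb's hb'c hf e).congr fun ν x => ?_
  have e1 : (fun y => b y * f y) = fun y => b' y * f y := by
    funext y
    by_cases hy : y ∈ K
    · rw [(hone y (Metric.self_subset_cthickening K hy)).self_of_nhds]
    · rw [hf0 y hy]; simp
  have e2 : b x * fderiv ℝ (wsMol ν f) x e = b' x * fderiv ℝ (wsMol ν f) x e := by
    by_cases hx : x ∈ Metric.cthickening 1 K
    · rw [(hone x hx).self_of_nhds]
    · have hts : tsupport (wsMol ν f) ⊆ Metric.cthickening 1 K := by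
        refine closure_minimal ?_ Metric.isClosed_cthickening
        refine (B6E.wsMol_support_subset' ν hf0).trans (Metric.cthickening_mono ?_ K)
        rw [div_le_one (by positivity)]
        have : (0 : ℝ) ≤ ν := Nat.cast_nonneg ν
        linarith
      rw [fderiv_of_notMem_tsupport (𝕜 := ℝ) (fun h => hx (hts h))]
      simp
  have e3 : fderiv ℝ b x e * f x = fderiv ℝ b' x e * f x := by
    by_cases hx : x ∈ K
    · rw [(hone x (Metric.self_subset_cthickening K hx)).fderiv_eq]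
    · rw [hf0 x hx]; simp
  unfold friedT friedK
  rw [e1, e2, e3]

end general

variable {ι : Type} [Fintype ι] [DecidableEq ι]

/-- Friedrichs remainder for `∂_k`. -/
noncomputable def friedDz (ν : ℕ) (b : CE ι → ℂ) (k : ι) (f : CE ι → ℂ) (x : CE ι) : ℂ :=
  b x * dz k (wsMol ν f) x - dz k (wsMol ν (fun y => b y * f y)) x + dz k b x * f x

/-- Friedrichs remainder for `∂̄_k`. -/
noncomputable def friedDzb (ν : ℕ) (b : CE ι → ℂ) (k : ι) (f : CE ι → ℂ) (x : CE ι) : ℂ :=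
  b x * dzb k (wsMol ν f) x - dzb k (wsMol ν (fun y => b y * f y)) x + dzb k b x * f x

theorem friedrichs_dz {b : CE ι → ℂ} (hb : ContDiff ℝ ∞ b) {f : CE ι → ℂ} (hf : MemLp f 2 volume)
    {K : Set (CE ι)} (hK : IsCompact K) (hf0 : ∀ x, x ∉ K → f x = 0) (k : ι) :
    L2Null volume (fun ν => friedDz ν b k f) := by
  refine (((friedrichs hb hf hK hf0 (eb k)).sub
    ((friedrichs hb hf hK hf0 (Complex.I • eb k)).const_mul Complex.I)).const_mul
      (1 / 2)).congr fun ν x => ?_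
  unfold friedDz friedT friedK dz
  ring

theorem friedrichs_dzb {b : CE ι → ℂ} (hb : ContDiff ℝ ∞ b) {f : CE ι → ℂ} (hf : MemLp f 2 volume)
    {K : Set (CE ι)} (hK : IsCompact K) (hf0 : ∀ x, x ∉ K → f x = 0) (k : ι) :
    L2Null volume (fun ν => friedDzb ν b k f) := by
  refine (((friedrichs hb hf hK hf0 (eb k)).add
    ((friedrichs hb hf hK hf0 (Complex.I • eb k)).const_mul Complex.I)).const_mul
      (1 / 2)).congr fun ν x => ?_
  unfold friedDzb friedT friedK dzb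
  ring

end Claimed.Agent.R316.B4

end SecFriedB

/-!
# Row 316, B4-MollF: mollification of compactly supported `L²` forms with `L²` weak frame-divergence and frame-curl

Port of `B6E.moll_approx` (`R316/B6E/MollWeak.lean`, sorry-free: copy its structure: `δ`, `ν₀`, `K' = cthickening δ K`, extension of the weak identities to all smooth compactly
supported `w` by the cutoff `θ`), plus Friedrichs' lemma.  `F^ν_j = wsMol (ν+ν₀) (f_j)`.

Test the weak identities with `w = rhoAt k x` (`y ↦ ρ_k(x-y)`), use `dz_wsMol`, `dzb_wsMol`, `wsMol_eq_integral_rhoAt`: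
`Z̄_j^t w = - ∂̄_j w - ∑_l a_{jl} ∂_l w - \bar σ_j w`, hence
`∫ f_k Z̄_j^t w = ∂̄_j(ρ*f_k)(x) + ∑_l ∂_l(ρ*(a_{jl} f_k))(x) - (ρ*(\bar σ_j f_k))(x)`, so
`Z̄_j F_k - Z̄_k F_j - ρ*h_{jk} = ∑_l [a_{jl} ∂_l(ρ*f_k) - ∂_l(ρ*(a_{jl} f_k))] + ρ*(\bar σ_j f_k) - (j ↔ k)`
`→ - ∑_l (∂_l a_{jl}) f_k + \bar σ_j f_k - (j ↔ k) = 0` in `L²` by `friedrichs_dz`, `tendsto_wsMol_sq` and `\bar σ_j = ∑_l ∂_l a_{jl}`.
In the same way `∑_j Z_j F_j - ρ*d → 0` (`friedrichs_dzb` with `b = \bar a_{jk}`, `σ_j = ∑_k ∂̄_k \bar a_{jk}`).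
`L²` convergence of finite sums: `‖∑_{i<m} x_i‖² ≤ m ∑ ‖x_i‖²`, squeeze.
-/

section SecMollF
set_option linter.unusedSectionVars false
open scoped ContDiff ComplexOrder ComplexConjugate Topology
open MeasureTheory Filter
open Claimed.Agent.R316.B6E (IsTest IsTestForm cx L2w wsMol rhoAt)

namespace Claimed.Agent.R316.B4

variable {ι : Type} [Fintype ι] [DecidableEq ι]

/-- remainder of `Z̄_j (ρ_ν * u)`. -/
noncomputable def remZb (a : ι → ι → CE ι → ℂ) (j : ι) (ν : ℕ) (u : CE ι → ℂ) (x : CE ι) : ℂ :=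
  ∑ l, friedDz ν (a j l) l u x
    + (wsMol ν (fun y => conj (sg a j y) * u y) x - conj (sg a j x) * u x)

/-- remainder of `Z_j (ρ_ν * u)`. -/
noncomputable def remZf (a : ι → ι → CE ι → ℂ) (j : ι) (ν : ℕ) (u : CE ι → ℂ) (x : CE ι) : ℂ :=
  ∑ l, friedDzb ν (fun y => conj (a j l y)) l u x
    + (wsMol ν (fun y => sg a j y * u y) x - sg a j x * u x)

theorem contDiff_conj_comp {c : CE ι → ℂ} (hc : ContDiff ℝ ∞ c) :
    ContDiff ℝ ∞ (fun y => conj (c y)) :=
  Complex.conjCLE.contDiff.comp hc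

theorem Zb_wsMol {a : ι → ι → CE ι → ℂ} (ha : ∀ j k, ContDiff ℝ ∞ (a j k)) (ν : ℕ)
    {u : CE ι → ℂ} (hu : LocallyIntegrable u volume) (j : ι) (x : CE ι) :
    Zb a j (wsMol ν u) x = (∫ y, u y * Zbt a j (rhoAt ν x) y) + remZb a j ν u x := by
  have hT := B6E.rhoAt_isTest (ι := ι) ν x
  have hau : ∀ l, LocallyIntegrable (fun y => a j l y * u y) volume := fun l =>
    locallyIntegrable_continuous_mul (ha j l).continuous hu
  have hsu : LocallyIntegrable (fun y => conj (sg a j y) * u y) volume :=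
    locallyIntegrable_continuous_mul (contDiff_conj_comp (contDiff_sg ha)).continuous hu
  have i1 : Integrable (fun y => u y * dzb j (rhoAt ν x) y) volume :=
    (hT.dzb (j := j)).integrable_mul_left isOpen_univ (locallyIntegrableOn_univ.2 hu)
  have i2 : ∀ l, Integrable (fun y => (a j l y * u y) * dz l (rhoAt ν x) y) volume := fun l =>
    (hT.dz (j := l)).integrable_mul_left isOpen_univ (locallyIntegrableOn_univ.2 (hau l))
  have i3 : Integrable (fun y => (conj (sg a j y) * u y) * rhoAt ν x y) volume :=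
    hT.integrable_mul_left isOpen_univ (locallyIntegrableOn_univ.2 hsu)
  have e : ∀ y, u y * Zbt a j (rhoAt ν x) y
      = - (u y * dzb j (rhoAt ν x) y + ∑ l, (a j l y * u y) * dz l (rhoAt ν x) y
        + (conj (sg a j y) * u y) * rhoAt ν x y) := by
    intro y
    unfold Zbt Zb
    have hs : ∑ l, u y * (a j l y * dz l (rhoAt ν x) y)
        = ∑ l, (a j l y * u y) * dz l (rhoAt ν x) y :=
      Finset.sum_congr rfl fun l _ => by ring
    rw [mul_neg, mul_add, mul_add, Finset.mul_sum, hs]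
    ring
  have i2s : Integrable (fun y => ∑ l, (a j l y * u y) * dz l (rhoAt ν x) y) volume :=
    integrable_finsetSum _ fun l _ => i2 l
  have i12 : Integrable (fun y => u y * dzb j (rhoAt ν x) y
      + ∑ l, (a j l y * u y) * dz l (rhoAt ν x) y) volume := i1.add i2s
  have hint : ∫ y, u y * Zbt a j (rhoAt ν x) y
      = dzb j (wsMol ν u) x + ∑ l, dz l (wsMol ν (fun y => a j l y * u y)) x
        - wsMol ν (fun y => conj (sg a j y) * u y) x := by
    simp only [e]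
    rw [integral_neg, integral_add i12 i3, integral_add i1 i2s,
      integral_finsetSum _ fun l _ => i2 l, B6E.dzb_wsMol ν hu, B6E.wsMol_eq_integral_rhoAt]
    simp only [B6E.dz_wsMol ν (hau _), Finset.sum_neg_distrib]
    ring
  rw [hint]
  unfold remZb friedDz Zb
  rw [conj_sg, Finset.sum_mul]
  simp only [Finset.sum_add_distrib, Finset.sum_sub_distrib]
  ring

theorem Zf_wsMol {a : ι → ι → CE ι → ℂ} (ha : ∀ j k, ContDiff ℝ ∞ (a j k)) (ν : ℕ)
    {u : CE ι → ℂ} (hu : LocallyIntegrable u volume) (j : ι) (x : CE ι) :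
    Zf a j (wsMol ν u) x = (∫ y, u y * Zft a j (rhoAt ν x) y) + remZf a j ν u x := by
  have hT := B6E.rhoAt_isTest (ι := ι) ν x
  have hau : ∀ l, LocallyIntegrable (fun y => conj (a j l y) * u y) volume := fun l =>
    locallyIntegrable_continuous_mul (contDiff_conj_comp (ha j l)).continuous hu
  have hsu : LocallyIntegrable (fun y => sg a j y * u y) volume :=
    locallyIntegrable_continuous_mul (contDiff_sg ha).continuous hu
  have i1 : Integrable (fun y => u y * dz j (rhoAt ν x) y) volume :=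
    (hT.dz (j := j)).integrable_mul_left isOpen_univ (locallyIntegrableOn_univ.2 hu)
  have i2 : ∀ l, Integrable (fun y => (conj (a j l y) * u y) * dzb l (rhoAt ν x) y) volume :=
    fun l => (hT.dzb (j := l)).integrable_mul_left isOpen_univ
      (locallyIntegrableOn_univ.2 (hau l))
  have i3 : Integrable (fun y => (sg a j y * u y) * rhoAt ν x y) volume :=
    hT.integrable_mul_left isOpen_univ (locallyIntegrableOn_univ.2 hsu)
  have e : ∀ y, u y * Zft a j (rhoAt ν x) y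
      = - (u y * dz j (rhoAt ν x) y + ∑ l, (conj (a j l y) * u y) * dzb l (rhoAt ν x) y
        + (sg a j y * u y) * rhoAt ν x y) := by
    intro y
    unfold Zft Zf
    have hs : ∑ l, u y * (conj (a j l y) * dzb l (rhoAt ν x) y)
        = ∑ l, (conj (a j l y) * u y) * dzb l (rhoAt ν x) y :=
      Finset.sum_congr rfl fun l _ => by ring
    rw [mul_neg, mul_add, mul_add, Finset.mul_sum, hs]
    ring
  have i2s : Integrable (fun y => ∑ l, (conj (a j l y) * u y) * dzb l (rhoAt ν x) y) volume :=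
    integrable_finsetSum _ fun l _ => i2 l
  have i12 : Integrable (fun y => u y * dz j (rhoAt ν x) y
      + ∑ l, (conj (a j l y) * u y) * dzb l (rhoAt ν x) y) volume := i1.add i2s
  have hint : ∫ y, u y * Zft a j (rhoAt ν x) y
      = dz j (wsMol ν u) x + ∑ l, dzb l (wsMol ν (fun y => conj (a j l y) * u y)) x
        - wsMol ν (fun y => sg a j y * u y) x := by
    simp only [e]
    rw [integral_neg, integral_add i12 i3, integral_add i1 i2s,
      integral_finsetSum _ fun l _ => i2 l, B6E.dz_wsMol ν hu, B6E.wsMol_eq_integral_rhoAt]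
    simp only [B6E.dzb_wsMol ν (hau _), Finset.sum_neg_distrib]
    ring
  rw [hint]
  unfold remZf friedDzb Zf
  have hs : sg a j x = ∑ l, dzb l (fun y => conj (a j l y)) x := rfl
  rw [hs, Finset.sum_mul]
  simp only [Finset.sum_add_distrib, Finset.sum_sub_distrib]
  ring

/-- a continuous function times an `L²` function vanishing off a compact set is `L²`. -/
theorem memLp_continuous_mul_of_compact {c u : CE ι → ℂ} (hc : Continuous c)
    (hu : MemLp u 2 volume) {K : Set (CE ι)} (hK : IsCompact K) (hu0 : ∀ z, z ∉ K → u z = 0) :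
    MemLp (fun y => c y * u y) 2 volume := by
  obtain ⟨M, hM⟩ := hK.exists_bound_of_continuousOn hc.continuousOn
  refine hu.of_le_mul (c := M) (hc.aestronglyMeasurable.mul hu.1) (Eventually.of_forall fun y => ?_)
  by_cases hy : y ∈ K
  · rw [norm_mul]
    exact mul_le_mul_of_nonneg_right (hM y hy) (norm_nonneg _)
  · rw [hu0 y hy]; simp

theorem l2Null_remZb {a : ι → ι → CE ι → ℂ} (ha : ∀ j k, ContDiff ℝ ∞ (a j k))
    {u : CE ι → ℂ} (hu : MemLp u 2 volume) {K : Set (CE ι)} (hK : IsCompact K)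
    (hu0 : ∀ z, z ∉ K → u z = 0) (j : ι) : L2Null volume (fun ν => remZb a j ν u) :=
  (L2Null.sum Finset.univ fun l _ => friedrichs_dz (ha j l) hu hK hu0 l).add
    (l2Null_wsMol (memLp_continuous_mul_of_compact
      (contDiff_conj_comp (contDiff_sg ha)).continuous hu hK hu0))

theorem l2Null_remZf {a : ι → ι → CE ι → ℂ} (ha : ∀ j k, ContDiff ℝ ∞ (a j k))
    {u : CE ι → ℂ} (hu : MemLp u 2 volume) {K : Set (CE ι)} (hK : IsCompact K)
    (hu0 : ∀ z, z ∉ K → u z = 0) (j : ι) : L2Null volume (fun ν => remZf a j ν u) :=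
  (L2Null.sum Finset.univ fun l _ =>
      friedrichs_dzb (contDiff_conj_comp (ha j l)) hu hK hu0 l).add
    (l2Null_wsMol (memLp_continuous_mul_of_compact (contDiff_sg ha).continuous hu hK hu0))

/-- scalar version: `u ∈ L²` with compact support and weak `Z̄_j u = h_j ∈ L²`; then `Z̄_j (ρ_ν * u) → h_j` in `L²`.
(Used for the `H¹` regularity.) -/
theorem moll_approx_scalar {a : ι → ι → CE ι → ℂ} (ha : ∀ j k, ContDiff ℝ ∞ (a j k))
    {K : Set (CE ι)} (hK : IsCompact K) {u : CE ι → ℂ} {h : ι → CE ι → ℂ}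
    (hu : MemLp u 2 volume) (hh : ∀ j, MemLp (h j) 2 volume)
    (hu0 : ∀ z, z ∉ K → u z = 0)
    (hweak : WeakZb Set.univ a u h) (j : ι) :
    Tendsto (fun ν : ℕ => ∫ z, ‖Zb a j (wsMol ν u) z - h j z‖ ^ 2) atTop (𝓝 0) := by
  refine (((l2Null_wsMol (hh j)).add (l2Null_remZb ha hu hK hu0 j)).congr
    (H := fun ν z => Zb a j (wsMol ν u) z - h j z) fun ν z => ?_).tendsto_integral
  rw [Zb_wsMol ha ν (hu.locallyIntegrable (by norm_num)), hweak _ (B6E.rhoAt_isTest ν z) j,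
    B6E.wsMol_eq_integral_rhoAt]
  ring

theorem Zbt_congr {a : ι → ι → CE ι → ℂ} {j : ι} {u v : CE ι → ℂ} {z : CE ι} (h : u =ᶠ[𝓝 z] v) :
    Zbt a j u z = Zbt a j v z := by
  unfold Zbt
  rw [Zb_congr h, h.self_of_nhds]

theorem Zft_congr {a : ι → ι → CE ι → ℂ} {j : ι} {u v : CE ι → ℂ} {z : CE ι} (h : u =ᶠ[𝓝 z] v) :
    Zft a j u z = Zft a j v z := by
  unfold Zft
  rw [Zf_congr h, h.self_of_nhds]

/-- **mollification step of the density lemma, frame version**. -/
theorem moll_approxF {Ω : Set (CE ι)} (hΩ : IsOpen Ω) {a : ι → ι → CE ι → ℂ}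
    (ha : ∀ j k, ContDiff ℝ ∞ (a j k)) {K : Set (CE ι)} (hK : IsCompact K)
    (hKΩ : K ⊆ Ω) {f : ι → CE ι → ℂ} {d : CE ι → ℂ} {h : ι → ι → CE ι → ℂ}
    (hf : ∀ j, MemLp (f j) 2 volume) (hd : MemLp d 2 volume) (hh : ∀ j k, MemLp (h j k) 2 volume)
    (hf0 : ∀ j z, z ∉ K → f j z = 0) (hd0 : ∀ z, z ∉ K → d z = 0)
    (hh0 : ∀ j k z, z ∉ K → h j k z = 0)
    (hdiv : ∀ w, IsTest Ω w → ∫ z, ∑ j, f j z * Zft a j w z = ∫ z, d z * w z)
    (hcurl : WeakCurlF Ω a f h) :
    ∃ (K' : Set (CE ι)) (F : ℕ → ι → CE ι → ℂ), IsCompact K' ∧ K' ⊆ Ω ∧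
      (∀ ν, IsTestForm Ω (F ν)) ∧ (∀ ν j, tsupport (F ν j) ⊆ K') ∧ K ⊆ K' ∧
      (∀ j, L2Null volume (fun ν z => F ν j z - f j z)) ∧
      L2Null volume (fun ν z => ∑ j, Zf a j (F ν j) z - d z) ∧
      (∀ j k, L2Null volume (fun ν z => Zb a j (F ν k) z - Zb a k (F ν j) z - h j k z)) := by
  obtain ⟨δ, hδ, hδΩ⟩ := hK.exists_cthickening_subset_open hΩ hKΩ
  obtain ⟨ν0, hν0⟩ := exists_nat_one_div_lt hδ
  have hle : ∀ ν : ℕ, 1 / (((ν + ν0 : ℕ) : ℝ) + 1) ≤ δ := by
    intro ν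
    refine le_trans ?_ hν0.le
    apply one_div_le_one_div_of_le (by positivity)
    push_cast
    have : (0:ℝ) ≤ ν := Nat.cast_nonneg ν
    linarith
  have hfl : ∀ j, LocallyIntegrable (f j) volume := fun j => (hf j).locallyIntegrable (by norm_num)
  have hfl' : ∀ j, LocallyIntegrableOn (f j) Set.univ volume := fun j =>
    locallyIntegrableOn_univ.2 (hfl j)
  obtain ⟨θ, hθ, -, hθ1⟩ := B6E.exists_isTest_eq_one hΩ hK hKΩ
  -- near `K` the function `θ w` is `w`
  have hnear : ∀ (w : CE ι → ℂ) (z : CE ι), z ∈ K → (fun y => cx θ y * w y) =ᶠ[𝓝 z] w := by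
    intro w z hz
    have h1 : ∀ᶠ y in 𝓝 z, θ y = 1 := hθ1.filter_mono (nhds_le_nhdsSet hz)
    filter_upwards [h1] with y hy
    simp [cx, hy]
  have ext_div : ∀ w : CE ι → ℂ, ContDiff ℝ ∞ w →
      ∫ z, ∑ j, f j z * Zft a j w z = ∫ z, d z * w z := by
    intro w hw
    have h1 := hdiv _ (hθ.mul_contDiffOn hΩ hw.contDiffOn)
    have e1 : ∀ z, ∑ j, f j z * Zft a j (fun y => cx θ y * w y) z = ∑ j, f j z * Zft a j w z := by
      intro z
      refine Finset.sum_congr rfl fun j _ => ?_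
      by_cases hz : z ∈ K
      · rw [Zft_congr (hnear w z hz)]
      · rw [hf0 j z hz]; simp
    have e2 : ∀ z, d z * (cx θ z * w z) = d z * w z := by
      intro z
      by_cases hz : z ∈ K
      · have h3 : cx θ z * w z = w z := (hnear w z hz).self_of_nhds
        rw [h3]
      · rw [hd0 z hz]; simp
    simpa only [e1, e2] using h1
  have ext_curl : ∀ w : CE ι → ℂ, ContDiff ℝ ∞ w → ∀ j k,
      ∫ z, (f k z * Zbt a j w z - f j z * Zbt a k w z) = ∫ z, h j k z * w z := by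
    intro w hw j k
    have h1 := hcurl _ (hθ.mul_contDiffOn hΩ hw.contDiffOn) j k
    have e1 : ∀ z, f k z * Zbt a j (fun y => cx θ y * w y) z
          - f j z * Zbt a k (fun y => cx θ y * w y) z
        = f k z * Zbt a j w z - f j z * Zbt a k w z := by
      intro z
      by_cases hz : z ∈ K
      · rw [Zbt_congr (hnear w z hz), Zbt_congr (hnear w z hz)]
      · rw [hf0 j z hz, hf0 k z hz]; simp
    have e2 : ∀ z, h j k z * (cx θ z * w z) = h j k z * w z := by
      intro z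
      by_cases hz : z ∈ K
      · have h3 : cx θ z * w z = w z := (hnear w z hz).self_of_nhds
        rw [h3]
      · rw [hh0 j k z hz]; simp
    simpa only [e1, e2] using h1
  -- the mollified identities
  have mdiv : ∀ (k : ℕ) (x : CE ι), ∑ j, Zf a j (wsMol k (f j)) x - d x
      = (wsMol k d x - d x) + ∑ j, remZf a j k (f j) x := by
    intro k x
    simp only [Zf_wsMol ha k (hfl _)]
    rw [Finset.sum_add_distrib, ← integral_finsetSum _ fun j _ =>
      (isTest_Zft ha (B6E.rhoAt_isTest k x) (j := j)).integrable_mul_left isOpen_univ (hfl' j),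
      ext_div _ (B6E.rhoAt_contDiff k x), B6E.wsMol_eq_integral_rhoAt]
    ring
  have mcurl : ∀ (k : ℕ) (x : CE ι) (i j : ι),
      Zb a i (wsMol k (f j)) x - Zb a j (wsMol k (f i)) x - h i j x
        = (wsMol k (h i j) x - h i j x) + (remZb a i k (f j) x - remZb a j k (f i) x) := by
    intro k x i j
    have h1 := ext_curl _ (B6E.rhoAt_contDiff k x) i j
    rw [integral_sub
      ((isTest_Zbt ha (B6E.rhoAt_isTest k x) (j := i)).integrable_mul_left isOpen_univ (hfl' j))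
      ((isTest_Zbt ha (B6E.rhoAt_isTest k x) (j := j)).integrable_mul_left isOpen_univ (hfl' i))]
      at h1
    rw [Zb_wsMol ha k (hfl _), Zb_wsMol ha k (hfl _), B6E.wsMol_eq_integral_rhoAt]
    linear_combination h1
  have hsupp : ∀ ν j, tsupport (wsMol (ν + ν0) (f j)) ⊆ Metric.cthickening δ K := by
    intro ν j
    refine closure_minimal ?_ Metric.isClosed_cthickening
    exact (B6E.wsMol_support_subset' _ (hf0 j)).trans (Metric.cthickening_mono (hle ν) K)
  refine ⟨Metric.cthickening δ K, fun ν j => wsMol (ν + ν0) (f j), hK.cthickening, hδΩ,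
    fun ν j => ⟨B6E.wsMol_contDiff _ (hfl j), ?_, (hsupp ν j).trans hδΩ⟩, hsupp,
    Metric.self_subset_cthickening K, fun j => (l2Null_wsMol (hf j)).shift ν0, ?_, fun j k => ?_⟩
  · exact hK.cthickening.of_isClosed_subset (isClosed_tsupport _) (hsupp ν j)
  · simp only [mdiv]
    exact ((l2Null_wsMol hd).add (L2Null.sum Finset.univ fun j _ =>
      l2Null_remZf ha (hf j) hK (hf0 j) j)).shift ν0
  · simp only [mcurl]
    exact ((l2Null_wsMol (hh j k)).add ((l2Null_remZb ha (hf k) hK (hf0 k) j).sub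
      (l2Null_remZb ha (hf j) hK (hf0 j) k))).shift ν0

end Claimed.Agent.R316.B4

end SecMollF
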