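import Claimed.Agent.R316.Pack015_2

set_option autoImplicit false

/-!
# Row 316, B4-GeoParam: reparametrisation of embedded parametrisations; `IsLocalParam` (Def_0500) versus `IsParam` (Core)

`IsParam.comp_injOn`.  Let `τ : U' → U` be smooth, injective, with injective (hence bijective: same finite dimension) derivative.
1. `τ` is an open map on `U'` and `(τ|U')⁻¹` is continuous on `τ '' U'`: inverse function theorem at every point
   (`ContDiffAt.toOpenPartialHomeomorph`, `HasStrictFDerivAt.map_nhds_eq_of_equiv`; the derivative is an equivalence by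
   `LinearEquiv.ofInjectiveEndo` / `ContinuousLinearEquiv.ofBijective` or `LinearMap.injective_iff_surjective`).
2. smoothness, immersion (chain rule `fderiv_comp`, `U` is open so `Φ` is differentiable at `τ z`), injectivity: direct.
3. image: `O := τ '' U'` is open, `O ⊆ U`.  `Φ '' O = {y ∈ Φ '' U | invFunOn Φ U y ∈ O}`; by `continuousOn_iff'` applied to `h.cont_inv` there is an
   open `W'` with `(invFunOn Φ U) ⁻¹' O ∩ Φ '' U = W' ∩ Φ '' U`; with `Φ '' U = M ∩ W`: `Φ '' O = M ∩ (W ∩ W')`.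
4. `invFunOn (Φ ∘ τ) U' y = invFunOn τ U' (invFunOn Φ U y)` for `y ∈ (Φ ∘ τ) '' U'` (both sides are the unique preimage); compose continuity.
The two translation lemmas are the special case of a linear isometry (repeat the argument, or transport every clause by hand:
`fderiv_comp`, `LinearIsometryEquiv.fderiv`, `Homeomorph`).
-/

section SecGeoParam
open scoped ContDiff ComplexOrder ComplexConjugate Topology

namespace Claimed.Agent.R316.B4

variable {V : Type} [NormedAddCommGroup V] [NormedSpace ℝ V]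
variable {ι : Type} [Fintype ι]

section gen

variable {E E' : Type} [NormedAddCommGroup E] [NormedSpace ℝ E] [NormedAddCommGroup E']
  [NormedSpace ℝ E'] [CompleteSpace E']

/-- the six clauses of a parametrisation, for an arbitrary model space -/
def GpClauses (M : Set V) (Φ : E → V) (U : Set E) : Prop :=
  IsOpen U ∧ ContDiffOn ℝ ∞ Φ U ∧ (∀ u ∈ U, Function.Injective (fderiv ℝ Φ u)) ∧
    Set.InjOn Φ U ∧ (∃ W : Set V, IsOpen W ∧ Φ '' U = M ∩ W) ∧
    ContinuousOn (Function.invFunOn Φ U) (Φ '' U)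

theorem gp_invFunOn_eq {α β : Type} [Nonempty α] {f : α → β} {s : Set α} (hf : Set.InjOn f s) {a : α}
    (ha : a ∈ s) : Function.invFunOn f s (f a) = a :=
  hf (Function.invFunOn_mem ⟨a, ha, rfl⟩) ha (Function.invFunOn_eq ⟨a, ha, rfl⟩)

theorem gp_isOpen_image {τ : E' → E} {U' : Set E'} (hU' : IsOpen U')
    (hτ : ContDiffOn ℝ ∞ τ U')
    (hder : ∀ z ∈ U', ∃ A : E' ≃L[ℝ] E, (A : E' →L[ℝ] E) = fderiv ℝ τ z) :
    ∀ O ⊆ U', IsOpen O → IsOpen (τ '' O) := by
  intro O hO hOo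
  rw [isOpen_iff_mem_nhds]
  rintro _ ⟨z, hz, rfl⟩
  obtain ⟨A, hA⟩ := hder z (hO hz)
  have h1 : ContDiffAt ℝ ∞ τ z := hτ.contDiffAt (hU'.mem_nhds (hO hz))
  have h2 : HasStrictFDerivAt τ (A : E' →L[ℝ] E) z := by
    rw [hA]
    exact h1.hasStrictFDerivAt (by simp)
  rw [← h2.map_nhds_eq_of_equiv]
  exact Filter.image_mem_map (hOo.mem_nhds hz)

theorem gp_continuousOn_inv [Nonempty E'] {τ : E' → E} {U' : Set E'} (hU' : IsOpen U')
    (hτ : ContDiffOn ℝ ∞ τ U') (hinj : Set.InjOn τ U')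
    (hder : ∀ z ∈ U', ∃ A : E' ≃L[ℝ] E, (A : E' →L[ℝ] E) = fderiv ℝ τ z) :
    ContinuousOn (Function.invFunOn τ U') (τ '' U') := by
  rw [continuousOn_iff']
  intro O hO
  refine ⟨τ '' (O ∩ U'), gp_isOpen_image hU' hτ hder _ Set.inter_subset_right (hO.inter hU'), ?_⟩
  ext y
  constructor
  · rintro ⟨h1, z, hz, rfl⟩
    rw [Set.mem_preimage, gp_invFunOn_eq hinj hz] at h1
    exact ⟨⟨z, ⟨h1, hz⟩, rfl⟩, ⟨z, hz, rfl⟩⟩
  · rintro ⟨⟨z, ⟨h1, hz⟩, rfl⟩, _⟩
    refine ⟨?_, ⟨z, hz, rfl⟩⟩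
    rw [Set.mem_preimage, gp_invFunOn_eq hinj hz]
    exact h1

theorem gp_comp [Nonempty E] [Nonempty E'] {M : Set V} {Φ : E → V} {U : Set E} (h : GpClauses M Φ U)
    {τ : E' → E} {U' : Set E'} (hU' : IsOpen U') (hτ : ContDiffOn ℝ ∞ τ U')
    (hinj : Set.InjOn τ U')
    (hder : ∀ z ∈ U', ∃ A : E' ≃L[ℝ] E, (A : E' →L[ℝ] E) = fderiv ℝ τ z)
    (hmaps : Set.MapsTo τ U' U) : GpClauses M (Φ ∘ τ) U' := by
  obtain ⟨hU, hsm, himm, hΦinj, ⟨W, hW, hWe⟩, hci⟩ := h
  have hcinj : Set.InjOn (Φ ∘ τ) U' := hΦinj.comp hinj hmaps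
  refine ⟨hU', hsm.comp hτ hmaps, fun z hz => ?_, hcinj, ?_, ?_⟩
  · have h1 : DifferentiableAt ℝ Φ (τ z) :=
      (hsm.contDiffAt (hU.mem_nhds (hmaps hz))).differentiableAt (by simp)
    have h2 : DifferentiableAt ℝ τ z := (hτ.contDiffAt (hU'.mem_nhds hz)).differentiableAt (by simp)
    rw [fderiv_comp z h1 h2]
    obtain ⟨A, hA⟩ := hder z hz
    rw [← hA]
    exact (himm _ (hmaps hz)).comp A.injective
  · have hO : IsOpen (τ '' U') := gp_isOpen_image hU' hτ hder _ subset_rfl hU'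
    obtain ⟨W', hW', hWe'⟩ := (continuousOn_iff'.1 hci) _ hO
    refine ⟨W ∩ W', hW.inter hW', ?_⟩
    have h1 : (Φ ∘ τ) '' U' = Function.invFunOn Φ U ⁻¹' (τ '' U') ∩ Φ '' U := by
      ext y
      constructor
      · rintro ⟨z, hz, rfl⟩
        refine ⟨?_, ⟨τ z, hmaps hz, rfl⟩⟩
        rw [Set.mem_preimage, Function.comp_apply, gp_invFunOn_eq hΦinj (hmaps hz)]
        exact ⟨z, hz, rfl⟩
      · rintro ⟨h1, x, hx, rfl⟩
        rw [Set.mem_preimage, gp_invFunOn_eq hΦinj hx] at h1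
        obtain ⟨z, hz, rfl⟩ := h1
        exact ⟨z, hz, rfl⟩
    rw [h1, hWe', hWe]
    ext y
    simp only [Set.mem_inter_iff]
    tauto
  · have h1 : ContinuousOn (Function.invFunOn τ U' ∘ Function.invFunOn Φ U) ((Φ ∘ τ) '' U') := by
      refine (gp_continuousOn_inv hU' hτ hinj hder).comp (hci.mono ?_) ?_
      · rintro _ ⟨z, hz, rfl⟩
        exact ⟨τ z, hmaps hz, rfl⟩
      · rintro _ ⟨z, hz, rfl⟩
        rw [Function.comp_apply, gp_invFunOn_eq hΦinj (hmaps hz)]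
        exact ⟨z, hz, rfl⟩
    refine h1.congr ?_
    rintro _ ⟨z, hz, rfl⟩
    rw [gp_invFunOn_eq hcinj hz, Function.comp_apply, Function.comp_apply,
      gp_invFunOn_eq hΦinj (hmaps hz), gp_invFunOn_eq hinj hz]

theorem gp_congr [Nonempty E] {M : Set V} {Φ Φ' : E → V} {U : Set E} (h : GpClauses M Φ U)
    (he : Set.EqOn Φ Φ' U) : GpClauses M Φ' U := by
  obtain ⟨hU, hsm, himm, hΦinj, ⟨W, hW, hWe⟩, hci⟩ := h
  have hinj' : Set.InjOn Φ' U := (he.injOn_iff).1 hΦinj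
  have him : Φ' '' U = Φ '' U := (he.image_eq).symm
  refine ⟨hU, hsm.congr fun x hx => (he hx).symm, fun z hz => ?_, hinj', ⟨W, hW, by rw [him, hWe]⟩, ?_⟩
  · have h1 : Φ' =ᶠ[𝓝 z] Φ := Filter.eventually_of_mem (hU.mem_nhds hz) fun x hx => (he hx).symm
    rw [h1.fderiv_eq]
    exact himm z hz
  · rw [him]
    refine hci.congr ?_
    rintro _ ⟨z, hz, rfl⟩
    rw [gp_invFunOn_eq hΦinj hz, he hz, gp_invFunOn_eq hinj' hz]

end gen

theorem gp_iff {M : Set V} {Φ : CE ι → V} {U : Set (CE ι)} : IsParam M Φ U ↔ GpClauses M Φ U :=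
  ⟨fun h => ⟨h.isOpen, h.smooth, h.immersion, h.injOn, h.image, h.cont_inv⟩,
    fun h => ⟨h.1, h.2.1, h.2.2.1, h.2.2.2.1, h.2.2.2.2.1, h.2.2.2.2.2⟩⟩

theorem gp_equiv_of_inj {A : CE ι →L[ℝ] CE ι} (hA : Function.Injective A) :
    ∃ B : CE ι ≃L[ℝ] CE ι, (B : CE ι →L[ℝ] CE ι) = A := by
  refine ⟨(LinearEquiv.ofInjectiveEndo (A : CE ι →ₗ[ℝ] CE ι) hA).toContinuousLinearEquiv, ?_⟩
  ext v
  rfl

/-- a smooth injective immersion between open sets of `ℂ^ι` is an open map with continuous inverse. -/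
theorem isOpen_image_of_injective_fderiv {τ : CE ι → CE ι} {U' : Set (CE ι)} (hU' : IsOpen U')
    (hτ : ContDiffOn ℝ ∞ τ U') (hder : ∀ z ∈ U', Function.Injective (fderiv ℝ τ z)) :
    ∀ O ⊆ U', IsOpen O → IsOpen (τ '' O) :=
  gp_isOpen_image hU' hτ fun z hz => gp_equiv_of_inj (hder z hz)

theorem continuousOn_invFunOn_of_injective_fderiv {τ : CE ι → CE ι} {U' : Set (CE ι)} (hU' : IsOpen U')
    (hτ : ContDiffOn ℝ ∞ τ U') (hinj : Set.InjOn τ U')
    (hder : ∀ z ∈ U', Function.Injective (fderiv ℝ τ z)) :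
    ContinuousOn (Function.invFunOn τ U') (τ '' U') :=
  gp_continuousOn_inv hU' hτ hinj fun z hz => gp_equiv_of_inj (hder z hz)

/-- **reparametrisation.** -/
theorem IsParam.comp_injOn {M : Set V} {Φ : CE ι → V} {U : Set (CE ι)} (h : IsParam M Φ U)
    {τ : CE ι → CE ι} {U' : Set (CE ι)} (hU' : IsOpen U') (hτ : ContDiffOn ℝ ∞ τ U')
    (hinj : Set.InjOn τ U') (hder : ∀ z ∈ U', Function.Injective (fderiv ℝ τ z))
    (hmaps : Set.MapsTo τ U' U) : IsParam M (Φ ∘ τ) U' :=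
  gp_iff.2 (gp_comp (gp_iff.1 h) hU' hτ hinj (fun z hz => gp_equiv_of_inj (hder z hz)) hmaps)

/-- restriction to a smaller open set. -/
theorem IsParam.mono {M : Set V} {Φ : CE ι → V} {U U' : Set (CE ι)} (h : IsParam M Φ U)
    (hU' : IsOpen U') (hsub : U' ⊆ U) : IsParam M Φ U' := by
  have := gp_comp (τ := id) (gp_iff.1 h) hU' contDiffOn_id (Set.injOn_id _)
    (fun z _ => ⟨ContinuousLinearEquiv.refl ℝ (CE ι), by rw [fderiv_id]; rfl⟩) hsub
  exact gp_iff.2 this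

/-- only the values on `U` matter. -/
theorem IsParam.congr {M : Set V} {Φ Φ' : CE ι → V} {U : Set (CE ι)} (h : IsParam M Φ U)
    (he : Set.EqOn Φ Φ' U) : IsParam M Φ' U :=
  gp_iff.2 (gp_congr (gp_iff.1 h) he)

theorem isParam_of_isLocalParam {n N : ℕ} {M : Set (EuclideanSpace ℝ (Fin N))}
    {ψ : EuclideanSpace ℝ (Fin (2 * n)) → EuclideanSpace ℝ (Fin N)}
    {U : Set (EuclideanSpace ℝ (Fin (2 * n)))} (h : Claims.C0500.IsLocalParam M ψ U) :
    IsParam M (ψ ∘ reCE n) (reCE n ⁻¹' U) := by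
  have h' : GpClauses M ψ U := h
  refine gp_iff.2 (gp_comp h' (h.1.preimage (reCE n).continuous) (reCE n).contDiff.contDiffOn
    (reCE n).injective.injOn (fun z _ => ⟨(reCE n).toContinuousLinearEquiv, ?_⟩) fun z hz => hz)
  exact ((reCE n).toContinuousLinearEquiv.hasFDerivAt (x := z)).fderiv.symm

theorem isLocalParam_of_isParam {n N : ℕ} {M : Set (EuclideanSpace ℝ (Fin N))}
    {Φ : CE (Fin n) → EuclideanSpace ℝ (Fin N)} {U : Set (CE (Fin n))} (h : IsParam M Φ U) :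
    Claims.C0500.IsLocalParam M (Φ ∘ (reCE n).symm) ((reCE n).symm ⁻¹' U) := by
  have := gp_comp (gp_iff.1 h) (h.isOpen.preimage (reCE n).symm.continuous)
    (reCE n).symm.contDiff.contDiffOn
    (reCE n).symm.injective.injOn (fun z _ => ⟨(reCE n).symm.toContinuousLinearEquiv, ?_⟩)
    fun z hz => hz
  · exact this
  · exact ((reCE n).symm.toContinuousLinearEquiv.hasFDerivAt (x := z)).fderiv.symm

end Claimed.Agent.R316.B4

end SecGeoParam

/-!
# Row 316, B4-GeoKahler: the four clauses of `IsKahlerEmbedded` for parametrisations with model `ℂⁿ`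

Apply `hJ.2` to `ψ = Φ ∘ (reCE n).symm`, `U' = (reCE n).symm ⁻¹' U` (`isLocalParam_of_isParam`), the point `u = reCE n z` and the vectors
`reCE n v`, `reCE n w`.  With `e = (reCE n).symm` (a continuous linear equivalence):
`fderiv ℝ (Φ ∘ e) u = (fderiv ℝ Φ (e u)).comp e` for EVERY `u` (`ContinuousLinearEquiv.comp_right_fderiv`; no differentiability needed), so
`fderiv ℝ ψ u (reCE n v) = fderiv ℝ Φ z v`, the ranges agree (`e` is onto), `x ↦ fderiv ℝ ψ x (reCE n w) = (y ↦ fderiv ℝ Φ y w) ∘ e`, and once more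
`comp_right_fderiv` for the outer derivatives.  Unfold `tangentialPart`, `secondDeriv`.
-/

section SecGeoKahler
open scoped ContDiff ComplexOrder ComplexConjugate Topology

namespace Claimed.Agent.R316.B4

/-- orthogonal projection of the ambient space onto the tangent space `range dΦ_z`. -/
noncomputable def tang {n N : ℕ} (Φ : CE (Fin n) → EuclideanSpace ℝ (Fin N)) (z : CE (Fin n))
    (y : EuclideanSpace ℝ (Fin N)) : EuclideanSpace ℝ (Fin N) :=
  (LinearMap.range (fderiv ℝ Φ z).toLinearMap).starProjection y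

theorem kahler_starProjection_congr {N : ℕ} {K K' : Submodule ℝ (EuclideanSpace ℝ (Fin N))}
    (h : K = K') (y : EuclideanSpace ℝ (Fin N)) : K.starProjection y = K'.starProjection y := by
  subst h
  rfl

theorem kahler_clauses {n N : ℕ} {M : Set (EuclideanSpace ℝ (Fin N))}
    {J : EuclideanSpace ℝ (Fin N) → EuclideanSpace ℝ (Fin N) →L[ℝ] EuclideanSpace ℝ (Fin N)}
    (hJ : Claims.C0500.IsKahlerEmbedded n M J)
    {Φ : CE (Fin n) → EuclideanSpace ℝ (Fin N)} {U : Set (CE (Fin n))} (hΦ : IsParam M Φ U)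
    {z : CE (Fin n)} (hz : z ∈ U) (v w : CE (Fin n)) :
    J (Φ z) (fderiv ℝ Φ z v) ∈ LinearMap.range (fderiv ℝ Φ z).toLinearMap ∧
    J (Φ z) (J (Φ z) (fderiv ℝ Φ z v)) = - fderiv ℝ Φ z v ∧
    inner ℝ (J (Φ z) (fderiv ℝ Φ z v)) (J (Φ z) (fderiv ℝ Φ z w))
      = inner ℝ (fderiv ℝ Φ z v) (fderiv ℝ Φ z w) ∧
    tang Φ z (fderiv ℝ (fun x => J (Φ x) (fderiv ℝ Φ x w)) z v)
      = J (Φ z) (tang Φ z (fderiv ℝ (fun x => fderiv ℝ Φ x w) z v)) := by
  set eL : EuclideanSpace ℝ (Fin (2 * n)) ≃L[ℝ] CE (Fin n) := (reCE n).symm.toContinuousLinearEquiv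
    with heL
  have hloc := isLocalParam_of_isParam hΦ
  have hez : ∀ a : CE (Fin n), eL (reCE n a) = a := fun a => (reCE n).symm_apply_apply a
  have hu : reCE n z ∈ (reCE n).symm ⁻¹' U := by
    show (reCE n).symm (reCE n z) ∈ U
    rw [LinearIsometryEquiv.symm_apply_apply]; exact hz
  have key := hJ.2 (Φ ∘ (reCE n).symm) _ hloc (reCE n z) hu (reCE n v) (reCE n w)
  have hψ : (Φ ∘ (reCE n).symm) = Φ ∘ eL := rfl
  have ha : ∀ x, fderiv ℝ (Φ ∘ eL) x
      = (fderiv ℝ Φ (eL x)).comp (eL : EuclideanSpace ℝ (Fin (2 * n)) →L[ℝ] CE (Fin n)) :=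
    fun x => eL.comp_right_fderiv
  have hc : ∀ x (b : CE (Fin n)), fderiv ℝ (Φ ∘ eL) x (reCE n b) = fderiv ℝ Φ (eL x) b := by
    intro x b
    rw [ha, ContinuousLinearMap.comp_apply]
    congr 1
    exact hez b
  have hd : LinearMap.range (fderiv ℝ (Φ ∘ eL) (reCE n z)).toLinearMap
      = LinearMap.range (fderiv ℝ Φ z).toLinearMap := by
    rw [ha, hez]
    ext x
    constructor
    · rintro ⟨a, rfl⟩
      exact ⟨eL a, rfl⟩
    · rintro ⟨b, rfl⟩
      exact ⟨reCE n b, by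
        show fderiv ℝ Φ z (eL (reCE n b)) = _
        rw [hez]; rfl⟩
  have he : (fun x => fderiv ℝ (Φ ∘ eL) x (reCE n w)) = (fun y => fderiv ℝ Φ y w) ∘ eL := by
    funext x
    exact hc x w
  have hf : (fun x => J ((Φ ∘ eL) x) (fderiv ℝ (Φ ∘ eL) x (reCE n w)))
      = (fun y => J (Φ y) (fderiv ℝ Φ y w)) ∘ eL := by
    funext x
    simp only [Function.comp_apply]
    rw [hc x w]
  unfold Claims.C0500.tangentialPart Claims.C0500.secondDeriv at key
  rw [hψ] at key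
  obtain ⟨k1, k2, k3, k4⟩ := key
  rw [hd] at k1
  rw [kahler_starProjection_congr hd, kahler_starProjection_congr hd, he, hf,
    eL.comp_right_fderiv, eL.comp_right_fderiv] at k4
  simp only [hc, Function.comp_apply, hez, ContinuousLinearMap.comp_apply,
    ContinuousLinearEquiv.coe_coe] at k1 k2 k3 k4
  exact ⟨k1, k2, k3, k4⟩

end Claimed.Agent.R316.B4

end SecGeoKahler

/-!
# Row 316, B4-GeoCx: a real vector space of dimension `2n` with a complex structure is `ℂⁿ`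

Make `T` a `ℂ`-module: on a type synonym (or with local instances) `(x + i y) • v = x • v + y • J₀ v`
(`Module.ofCore`-style: check `one_smul`, `mul_smul` (uses `J₀² = -1`), `add_smul`, `smul_add`, `zero_smul`, `smul_zero`), `IsScalarTower ℝ ℂ T`.
Then `finrank ℝ T = 2 * finrank ℂ T` (`finrank_real_of_complex`), so `finrank ℂ T = n`; `Module.finBasisOfFinrankEq` gives a `ℂ`-basis `b : Basis (Fin n) ℂ T`;
`L v = ∑ j, v j • b j` = `(b.equivFun.symm) ∘ (EuclideanSpace.equiv _ _)`, restricted to `ℝ` (`LinearEquiv.restrictScalars`), continuous because finite dimensional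
(`LinearEquiv.toContinuousLinearEquiv`).  `L (i • v) = i • L v = J₀ (L v)`.
Alternative without instances: induction on `n`, choosing `v ≠ 0` and splitting off `span {v, J₀ v}` — longer.
-/

section SecGeoCx
open scoped ContDiff ComplexOrder ComplexConjugate Topology

namespace Claimed.Agent.R316.B4

theorem exists_complex_linear_iso {n : ℕ} {T : Type} [NormedAddCommGroup T] [NormedSpace ℝ T]
    [FiniteDimensional ℝ T] (hT : Module.finrank ℝ T = 2 * n) (J₀ : T →L[ℝ] T)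
    (hJ₀ : ∀ v, J₀ (J₀ v) = - v) :
    ∃ L : CE (Fin n) ≃L[ℝ] T, ∀ v, L (Complex.I • v) = J₀ (L v) := by
  have hJ : (J₀ : T →ₗ[ℝ] T) * (J₀ : T →ₗ[ℝ] T) = (-1 : Module.End ℝ T) := by
    ext v
    exact hJ₀ v
  let f : ℂ →ₐ[ℝ] Module.End ℝ T := Complex.lift ⟨(J₀ : T →ₗ[ℝ] T), hJ⟩
  let mC : Module ℂ T := Module.compHom T f.toRingHom
  have hsm : ∀ (z : ℂ) (v : T), z • v = f z v := fun _ _ => rfl
  have : IsScalarTower ℝ ℂ T := ⟨fun r z v => by
    rw [hsm, hsm, map_smul]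
    rfl⟩
  have : Module.Finite ℂ T := Module.Finite.of_restrictScalars_finite ℝ ℂ T
  have hfin : Module.finrank ℂ T = n := by
    have h1 := Module.finrank_mul_finrank ℝ ℂ T
    rw [Complex.finrank_real_complex, hT] at h1
    omega
  let b : Module.Basis (Fin n) ℂ T := Module.finBasisOfFinrankEq ℂ T hfin
  let L₁ : CE (Fin n) ≃ₗ[ℂ] T := (WithLp.linearEquiv 2 ℂ (Fin n → ℂ)).trans b.equivFun.symm
  let L₂ : CE (Fin n) ≃ₗ[ℝ] T := L₁.restrictScalars ℝ
  refine ⟨L₂.toContinuousLinearEquiv, fun v => ?_⟩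
  show L₁ (Complex.I • v) = J₀ (L₁ v)
  rw [map_smul, hsm]
  simp [f]

end Claimed.Agent.R316.B4

end SecGeoCx

/-!
# Row 316, B4-GeoInv: smooth local inverse of a map `F` with `F 0 = 0`, `dF(0) = id`

`hF.contDiffAt (ball_mem_nhds)` at `0`; `ContDiffAt.toOpenPartialHomeomorph` (with `HasFDerivAt F (ContinuousLinearEquiv.refl ℝ _ : _ →L[ℝ] _) 0`, `n = ∞ ≠ 0`),
`G = ContDiffAt.localInverse`; `ContDiffAt.to_localInverse` : `ContDiffAt ℝ ∞ G (F 0)`, hence smooth on a neighbourhood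
(`ContDiffAt.eventually` needs finite order: use instead that the inverse function theorem applies at EVERY point of the source where `dF` is invertible, or
`OpenPartialHomeomorph.contDiffAt_symm` at every point `y` of the target: it needs `HasFDerivAt F (f' : E ≃L E) (G y)`; the set of `x` where `fderiv ℝ F x` is invertible is
a neighbourhood of `0`: `ContinuousLinearEquiv.nhds` + continuity of `fderiv ℝ F` at `0`).
Choose `ρ` with `ball 0 ρ ⊆ target ∩ G⁻¹(ball 0 r ∩ {dF invertible})` (`G` is continuous on the open target).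
`dG_y` injective and the two-sided inverse statement: chain rule for `F ∘ G = id` near `y`, and `G ∘ F = id` near `G y`.
-/

section SecGeoInv
open scoped ContDiff ComplexOrder ComplexConjugate Topology

namespace Claimed.Agent.R316.B4

variable {ι : Type} [Fintype ι]

theorem exists_smooth_local_inverse {F : CE ι → CE ι} {r : ℝ} (hr : 0 < r)
    (hF : ContDiffOn ℝ ∞ F (Metric.ball 0 r)) (h0 : F 0 = 0)
    (hd : fderiv ℝ F 0 = ContinuousLinearMap.id ℝ (CE ι)) :
    ∃ (ρ : ℝ) (G : CE ι → CE ι), 0 < ρ ∧ ContDiffOn ℝ ∞ G (Metric.ball 0 ρ) ∧ G 0 = 0 ∧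
      Set.MapsTo G (Metric.ball 0 ρ) (Metric.ball 0 r) ∧
      (∀ y ∈ Metric.ball (0 : CE ι) ρ, F (G y) = y) ∧
      (∀ y ∈ Metric.ball (0 : CE ι) ρ, ∀ v, fderiv ℝ G y (fderiv ℝ F (G y) v) = v) ∧
      (∀ y ∈ Metric.ball (0 : CE ι) ρ, ∀ v, fderiv ℝ F (G y) (fderiv ℝ G y v) = v) := by
  have hball : Metric.ball (0 : CE ι) r ∈ 𝓝 (0 : CE ι) := Metric.ball_mem_nhds 0 hr
  have hFat : ∀ x ∈ Metric.ball (0 : CE ι) r, ContDiffAt ℝ ∞ F x := fun x hx =>
    hF.contDiffAt (Metric.isOpen_ball.mem_nhds hx)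
  have hF0 : ContDiffAt ℝ ∞ F 0 := hF.contDiffAt hball
  have hd' : HasFDerivAt F ((ContinuousLinearEquiv.refl ℝ (CE ι)) : CE ι →L[ℝ] CE ι) 0 := by
    have h1 := (hF0.differentiableAt (by simp)).hasFDerivAt
    rw [hd] at h1
    exact h1
  let e := hF0.toOpenPartialHomeomorph F hd' (by simp)
  have he : (e : CE ι → CE ι) = F := hF0.toOpenPartialHomeomorph_coe hd' (by simp)
  have hs0 : (0 : CE ι) ∈ e.source := hF0.mem_toOpenPartialHomeomorph_source hd' (by simp)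
  have ht0 : (0 : CE ι) ∈ e.target := by
    have := hF0.image_mem_toOpenPartialHomeomorph_target hd' (by simp)
    rwa [h0] at this
  have hG0 : e.symm 0 = 0 := by
    have h1 := e.left_inv hs0
    rw [he, h0] at h1
    exact h1
  have hcont : ContinuousAt (fderiv ℝ F) 0 :=
    (hF.continuousOn_fderiv_of_isOpen Metric.isOpen_ball (by simp)).continuousAt hball
  have hinv : ∀ᶠ x in 𝓝 (0 : CE ι),
      fderiv ℝ F x ∈ Set.range ((↑) : (CE ι ≃L[ℝ] CE ι) → CE ι →L[ℝ] CE ι) := by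
    apply hcont
    rw [hd]
    exact ContinuousLinearEquiv.nhds (ContinuousLinearEquiv.refl ℝ (CE ι))
  have hU : ∀ᶠ x in 𝓝 (0 : CE ι), x ∈ Metric.ball (0 : CE ι) r ∧
      fderiv ℝ F x ∈ Set.range ((↑) : (CE ι ≃L[ℝ] CE ι) → CE ι →L[ℝ] CE ι) :=
    (Filter.eventually_of_mem hball fun x hx => hx).and hinv
  have hGc : ContinuousAt e.symm 0 := e.symm.continuousAt ht0
  have hU' : ∀ᶠ y in 𝓝 (0 : CE ι), e.symm y ∈ Metric.ball (0 : CE ι) r ∧
      fderiv ℝ F (e.symm y) ∈ Set.range ((↑) : (CE ι ≃L[ℝ] CE ι) → CE ι →L[ℝ] CE ι) := by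
    have : Filter.Tendsto e.symm (𝓝 0) (𝓝 0) := by
      have := hGc.tendsto
      rwa [hG0] at this
    exact this.eventually hU
  have hT : ∀ᶠ y in 𝓝 (0 : CE ι), y ∈ e.target := e.open_target.mem_nhds ht0
  obtain ⟨ρ, hρ, hsub⟩ := Metric.mem_nhds_iff.1 (hU'.and hT)
  have key : ∀ y ∈ Metric.ball (0 : CE ι) ρ, ∃ A : CE ι ≃L[ℝ] CE ι,
      HasFDerivAt F (A : CE ι →L[ℝ] CE ι) (e.symm y) ∧
      HasFDerivAt e.symm (A.symm : CE ι →L[ℝ] CE ι) y ∧ ContDiffAt ℝ ∞ e.symm y := by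
    intro y hy
    obtain ⟨⟨h1, A, hA⟩, h3⟩ := hsub hy
    have h4 : HasFDerivAt F (A : CE ι →L[ℝ] CE ι) (e.symm y) := by
      rw [hA]
      exact ((hFat _ h1).differentiableAt (by simp)).hasFDerivAt
    have h4' : HasFDerivAt e (A : CE ι →L[ℝ] CE ι) (e.symm y) := by rw [he]; exact h4
    refine ⟨A, h4, e.hasFDerivAt_symm h3 h4', e.contDiffAt_symm h3 h4' ?_⟩
    rw [he]
    exact hFat _ h1
  refine ⟨ρ, e.symm, hρ, fun y hy => (key y hy).choose_spec.2.2.contDiffWithinAt, hG0,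
    fun y hy => (hsub hy).1.1, fun y hy => ?_, fun y hy v => ?_, fun y hy v => ?_⟩
  · have := e.right_inv (hsub hy).2
    rwa [he] at this
  · obtain ⟨A, h1, h2, _⟩ := key y hy
    rw [h1.fderiv, h2.fderiv]
    simp
  · obtain ⟨A, h1, h2, _⟩ := key y hy
    rw [h1.fderiv, h2.fderiv]
    simp

end Claimed.Agent.R316.B4

end SecGeoInv
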