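import Claimed.Agent.R316.B4.Geo

set_option autoImplicit false

/-!
# Row 316, B4-GeoGraph: graph coordinates of `M` at `p`

Given a local parametrisation `ψ₀ : U₀ → M`, `ψ₀ u₀ = p`.  Put `D₀ = fderiv ℝ ψ₀ u₀` (injective), `T = range D₀`.
1. `P₀ : ℝ^N →L ℝ^{2n}`, `P₀ = D₀⁻¹ ∘ proj_T` (e.g. `(LinearEquiv.ofInjective D₀ _).symm ∘ T.orthogonalProjection`, continuous since finite dimensional):
   `P₀ ∘ D₀ = id`, `P₀ ∘ starProjection T = P₀`.
2. `J₀ = P₀ ∘ J p ∘ D₀` satisfies `D₀ J₀ = J p D₀` (clause 1 of `IsKahlerEmbedded`: `J p D₀ v ∈ T`) and `J₀² = -1` (clause 2).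
   `exists_complex_linear_iso` gives `L : ℂⁿ ≃L ℝ^{2n}`, `L (i v) = J₀ L v` (`finrank ℝ (EuclideanSpace ℝ (Fin (2n))) = 2n`).
3. `Λ = L⁻¹ ∘ P₀`, `G u = Λ (ψ₀ u - p)`: smooth near `u₀`, `G u₀ = 0`, `dG(u₀) = L⁻¹` invertible.  Inverse function theorem
   (`ContDiffAt.toOpenPartialHomeomorph`, `ContDiffAt.to_localInverse`): `q` smooth near `0`, `q 0 = u₀`, `G (q z) = z`, `q (G u) = u` near `u₀`.
   Choose `r` with: `q` smooth on `ball 0 r`, `q (ball 0 r) ⊆ U₀`, `G ∘ q = id` there.  `q` is injective on the ball (left inverse `G`) and `dq_z` is injective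
   (`dG ∘ dq = id`).
4. `Ψ = ψ₀ ∘ q = (ψ₀ ∘ reCE n) ∘ ((reCE n).symm ∘ q)`: `IsParam` by `isParam_of_isLocalParam` and `IsParam.comp_injOn`.
5. `dΨ_0 = D₀ ∘ dq_0 = D₀ ∘ L` (`dq_0 = (dG_{u₀})⁻¹ = L`), so `range dΨ_0 = T`, which gives the last two clauses.
-/

section SecGeoGraph
open scoped ContDiff ComplexOrder ComplexConjugate Topology

namespace Claimed.Agent.R316.B4

/-- left inverse of an injective linear map which factors through the orthogonal projection onto the range. -/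
theorem graph_exists_left_inverse {d N : ℕ}
    (D : EuclideanSpace ℝ (Fin d) →L[ℝ] EuclideanSpace ℝ (Fin N)) (hD : Function.Injective D) :
    ∃ P : EuclideanSpace ℝ (Fin N) →L[ℝ] EuclideanSpace ℝ (Fin d), (∀ w, P (D w) = w) ∧
      ∀ y, P ((LinearMap.range D.toLinearMap).starProjection y) = P y := by
  set T := LinearMap.range D.toLinearMap with hT
  let e : EuclideanSpace ℝ (Fin d) ≃ₗ[ℝ] T := LinearEquiv.ofInjective D.toLinearMap hD
  let P : EuclideanSpace ℝ (Fin N) →L[ℝ] EuclideanSpace ℝ (Fin d) :=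
    LinearMap.toContinuousLinearMap (e.symm.toLinearMap ∘ₗ T.orthogonalProjectionOnto.toLinearMap)
  have hP : ∀ y, P y = e.symm (T.orthogonalProjectionOnto y) := fun y => rfl
  refine ⟨P, fun w => ?_, fun y => ?_⟩
  · have h1 : T.orthogonalProjectionOnto (D w) = e w := by
      have : (D w : EuclideanSpace ℝ (Fin N)) = ((e w : T) : EuclideanSpace ℝ (Fin N)) := rfl
      rw [this, Submodule.orthogonalProjectionOnto_mem_subspace_eq_self]
    rw [hP, h1, LinearEquiv.symm_apply_apply]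
  · rw [hP, hP, Submodule.starProjection_apply, Submodule.orthogonalProjectionOnto_mem_subspace_eq_self]

theorem graph_starProjection_congr {N : ℕ} {K K' : Submodule ℝ (EuclideanSpace ℝ (Fin N))}
    (h : K = K') (y : EuclideanSpace ℝ (Fin N)) : K.starProjection y = K'.starProjection y := by
  subst h
  rfl

theorem exists_graph_param {n N : ℕ} {M : Set (EuclideanSpace ℝ (Fin N))}
    {J : EuclideanSpace ℝ (Fin N) → EuclideanSpace ℝ (Fin N) →L[ℝ] EuclideanSpace ℝ (Fin N)}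
    (hJ : Claims.C0500.IsKahlerEmbedded n M J)
    {ψ₀ : EuclideanSpace ℝ (Fin (2 * n)) → EuclideanSpace ℝ (Fin N)}
    {U₀ : Set (EuclideanSpace ℝ (Fin (2 * n)))} (h₀ : Claims.C0500.IsLocalParam M ψ₀ U₀)
    {p : EuclideanSpace ℝ (Fin N)} (hp : p ∈ ψ₀ '' U₀) :
    ∃ (Ψ : CE (Fin n) → EuclideanSpace ℝ (Fin N)) (r : ℝ)
      (Λ : EuclideanSpace ℝ (Fin N) →L[ℝ] CE (Fin n)),
      0 < r ∧ IsParam M Ψ (Metric.ball 0 r) ∧ Ψ 0 = p ∧
      (∀ z ∈ Metric.ball (0 : CE (Fin n)) r, Λ (Ψ z - p) = z) ∧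
      (∀ y, Λ (tang Ψ 0 y) = Λ y) ∧
      (∀ v, fderiv ℝ Ψ 0 (Complex.I • v) = J p (fderiv ℝ Ψ 0 v)) := by
  obtain ⟨u₀, hu₀, rfl⟩ := hp
  obtain ⟨hU₀, hsm, himm, -, -, -⟩ := id h₀
  set D₀ := fderiv ℝ ψ₀ u₀ with hD₀
  obtain ⟨P₀, hP1, hP2⟩ := graph_exists_left_inverse D₀ (himm u₀ hu₀)
  -- the complex structure on the parameter space
  have cl := fun v => hJ.2 ψ₀ U₀ h₀ u₀ hu₀ v v
  have hDJ : ∀ w, D₀ (P₀ (J (ψ₀ u₀) (D₀ w))) = J (ψ₀ u₀) (D₀ w) := by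
    intro w
    obtain ⟨w', hw'⟩ := (cl w).1
    have hw'' : D₀ w' = J (ψ₀ u₀) (D₀ w) := hw'
    rw [← hw'', hP1]
  let J₀ : EuclideanSpace ℝ (Fin (2 * n)) →L[ℝ] EuclideanSpace ℝ (Fin (2 * n)) :=
    P₀.comp ((J (ψ₀ u₀)).comp D₀)
  have hJ₀ : ∀ w, J₀ w = P₀ (J (ψ₀ u₀) (D₀ w)) := fun w => rfl
  have hJ₀sq : ∀ w, J₀ (J₀ w) = - w := by
    intro w
    rw [hJ₀ (J₀ w), hJ₀ w, hDJ, (cl w).2.1, map_neg, hP1]
  obtain ⟨L, hL⟩ := exists_complex_linear_iso (n := n) (by simp) J₀ hJ₀sq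
  let Λ : EuclideanSpace ℝ (Fin N) →L[ℝ] CE (Fin n) := L.symm.toContinuousLinearMap.comp P₀
  have hΛ : ∀ y, Λ y = L.symm (P₀ y) := fun y => rfl
  -- the parametrisation in the new linear coordinates
  let A : CE (Fin n) → EuclideanSpace ℝ (Fin (2 * n)) := fun z => u₀ + L z
  have hAc : ContDiff ℝ ∞ A := contDiff_const.add L.contDiff
  have hA0 : A 0 = u₀ := by simp [A]
  have hopen : IsOpen (A ⁻¹' U₀) := hU₀.preimage hAc.continuous
  obtain ⟨r₁, hr₁, hball⟩ := Metric.isOpen_iff.1 hopen 0 (by show A 0 ∈ U₀; rw [hA0]; exact hu₀)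
  have hΦ : ContDiffOn ℝ ∞ (fun z => ψ₀ (A z)) (Metric.ball 0 r₁) :=
    hsm.comp hAc.contDiffOn hball
  have hAd : ∀ z, HasFDerivAt A (L : CE (Fin n) →L[ℝ] EuclideanSpace ℝ (Fin (2 * n))) z :=
    fun z => L.hasFDerivAt.const_add u₀
  have hψd : HasFDerivAt ψ₀ D₀ (A 0) := by
    rw [hA0]
    exact ((hsm.contDiffAt (hU₀.mem_nhds hu₀)).differentiableAt (by simp)).hasFDerivAt
  have hΦd : HasFDerivAt (fun z => ψ₀ (A z))
      (D₀.comp (L : CE (Fin n) →L[ℝ] EuclideanSpace ℝ (Fin (2 * n)))) 0 := hψd.comp 0 (hAd 0)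
  let F : CE (Fin n) → CE (Fin n) := fun z => Λ (ψ₀ (A z) - ψ₀ u₀)
  have hF : ContDiffOn ℝ ∞ F (Metric.ball 0 r₁) :=
    Λ.contDiff.comp_contDiffOn (hΦ.sub contDiffOn_const)
  have hF0 : F 0 = 0 := by simp [F, hA0]
  have hFd : fderiv ℝ F 0 = ContinuousLinearMap.id ℝ (CE (Fin n)) := by
    have h1 : HasFDerivAt F
        (Λ.comp (D₀.comp (L : CE (Fin n) →L[ℝ] EuclideanSpace ℝ (Fin (2 * n))))) 0 :=
      Λ.hasFDerivAt.comp 0 (hΦd.sub_const (ψ₀ u₀))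
    rw [h1.fderiv]
    ext1 v
    simp [hΛ, hP1]
  obtain ⟨ρ, G, hρ, hG, hG0, hGm, hFG, hGF', hFG'⟩ := exists_smooth_local_inverse hr₁ hF hF0 hFd
  have h0ρ : (0 : CE (Fin n)) ∈ Metric.ball (0 : CE (Fin n)) ρ := Metric.mem_ball_self hρ
  have hGdiff : ∀ y ∈ Metric.ball (0 : CE (Fin n)) ρ, DifferentiableAt ℝ G y := fun y hy =>
    (hG.contDiffAt (Metric.isOpen_ball.mem_nhds hy)).differentiableAt (by simp)
  have hGd0 : fderiv ℝ G 0 = ContinuousLinearMap.id ℝ (CE (Fin n)) := by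
    ext1 v
    have := hGF' 0 h0ρ v
    rw [hG0, hFd] at this
    simpa using this
  have hΨd : HasFDerivAt (fun y => ψ₀ (A (G y)))
      (D₀.comp (L : CE (Fin n) →L[ℝ] EuclideanSpace ℝ (Fin (2 * n)))) 0 := by
    have h1 : HasFDerivAt (fun z => ψ₀ (A z))
      (D₀.comp (L : CE (Fin n) →L[ℝ] EuclideanSpace ℝ (Fin (2 * n)))) (G 0) := by rw [hG0]; exact hΦd
    have h2 := h1.comp 0 (hGdiff 0 h0ρ).hasFDerivAt
    rw [hGd0, ContinuousLinearMap.comp_id] at h2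
    exact h2
  have hΨd' : ∀ v, fderiv ℝ (fun y => ψ₀ (A (G y))) 0 v = D₀ (L v) := fun v => by
    rw [hΨd.fderiv]; rfl
  refine ⟨fun y => ψ₀ (A (G y)), ρ, Λ, hρ, ?_, by simp only [hG0, hA0], fun z hz => hFG z hz,
    fun y => ?_, fun v => ?_⟩
  · -- `IsParam`
    have hpar := isParam_of_isLocalParam (n := n) h₀
    let τ : CE (Fin n) → CE (Fin n) := fun y => (reCE n).symm (A (G y))
    have hτ : ContDiffOn ℝ ∞ τ (Metric.ball 0 ρ) :=
      (reCE n).symm.contDiff.comp_contDiffOn (hAc.comp_contDiffOn hG)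
    have hinjG : Set.InjOn G (Metric.ball 0 ρ) := fun x hx y hy hxy => by
      rw [← hFG x hx, ← hFG y hy, hxy]
    have hinj : Set.InjOn τ (Metric.ball 0 ρ) := fun x hx y hy hxy => by
      have h1 : A (G x) = A (G y) := (reCE n).symm.injective hxy
      have h2 : L (G x) = L (G y) := add_left_cancel h1
      exact hinjG hx hy (L.injective h2)
    have hder : ∀ y ∈ Metric.ball (0 : CE (Fin n)) ρ, Function.Injective (fderiv ℝ τ y) := by
      intro y hy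
      have h1 : HasFDerivAt τ (((reCE n).symm.toContinuousLinearEquiv :
          EuclideanSpace ℝ (Fin (2 * n)) →L[ℝ] CE (Fin n)).comp
          ((L : CE (Fin n) →L[ℝ] EuclideanSpace ℝ (Fin (2 * n))).comp (fderiv ℝ G y))) y :=
        ((reCE n).symm.toContinuousLinearEquiv.hasFDerivAt).comp y
          ((hAd (G y)).comp y (hGdiff y hy).hasFDerivAt)
      rw [h1.fderiv]
      intro a b hab
      have h2 : L (fderiv ℝ G y a) = L (fderiv ℝ G y b) := (reCE n).symm.injective hab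
      have h3 := L.injective h2
      rw [← hFG' y hy a, ← hFG' y hy b, h3]
    have hmaps : Set.MapsTo τ (Metric.ball 0 ρ) (reCE n ⁻¹' U₀) := fun y hy => by
      show reCE n ((reCE n).symm (A (G y))) ∈ U₀
      rw [LinearIsometryEquiv.apply_symm_apply]
      exact hball (hGm hy)
    have := IsParam.comp_injOn hpar Metric.isOpen_ball hτ hinj hder hmaps
    have e : (ψ₀ ∘ reCE n) ∘ τ = fun y => ψ₀ (A (G y)) := by
      funext y
      simp [τ]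
    rwa [e] at this
  · have hr : LinearMap.range (fderiv ℝ (fun y => ψ₀ (A (G y))) 0).toLinearMap
        = LinearMap.range D₀.toLinearMap := by
      rw [hΨd.fderiv]
      ext x
      constructor
      · rintro ⟨v, rfl⟩
        exact ⟨L v, rfl⟩
      · rintro ⟨w, rfl⟩
        exact ⟨L.symm w, by simp⟩
    unfold tang
    rw [graph_starProjection_congr hr, hΛ, hΛ, hP2]
  · rw [hΨd', hΨd', hL, hJ₀, hDJ]

end Claimed.Agent.R316.B4

end SecGeoGraph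

/-!
# Row 316, B4-GeoPull: the pulled back almost complex structure in graph coordinates

Setting: `Ψ : ball 0 r → M` a parametrisation, `Λ (Ψ z - p) = z` on the ball.  Differentiating: `Λ ∘ dΨ_z = id` (`pull_left_inv`) and
`Λ (∂_v (x ↦ dΨ_x w)) = 0` (`pull_second`).  `Ĵ_z = pullJ Λ J Ψ z = Λ ∘ J(Ψ z) ∘ dΨ_z`.
* `pull_intertwine`: `J(Ψ z) dΨ_z v ∈ range dΨ_z` (clause 1), say `= dΨ_z v'`; then `Ĵ_z v = Λ dΨ_z v' = v'`.
* `pull_sq`: clause 2 and injectivity of `dΨ_z`.   * `pull_smooth`: composition of smooth maps (`ContDiffOn.clm_comp`, `contDiffOn_fderiv…` on the open ball,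
  `hJ.1.comp_contDiffOn`).
* `exists_christoffel`: `Γ z v w := Λ (tang Ψ z (∂_v (x ↦ dΨ_x w)(z)))`; symmetric by the symmetry of the second derivative
  (`ContDiffAt.isSymmSndFDerivAt`, `fderiv_clm_apply`); `dΨ_z (Γ z v w) = tang Ψ z (…)` because `tang … ∈ range dΨ_z` and `Λ dΨ_z = id`.
  Differentiate `J(Ψ x) dΨ_x w = dΨ_x (Ĵ_x w)` in the direction `v` at `z`:
  `∂_v (J(Ψ ·) dΨ_· w) = (∂_v dΨ_·)(Ĵ_z w) + dΨ_z ((∂_v Ĵ) w)`; apply `tang Ψ z`, clause 4, then `Λ`: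
  `Γ z v (Ĵ_z w) + (∂_v Ĵ)_z w = Λ J(Ψ z) dΨ_z Γ z v w = Ĵ_z (Γ z v w)`.
  At `z = 0`: `Γ 0 v w = Λ (tang Ψ 0 y) = Λ y = 0` by `hproj` and `pull_second`.
-/

section SecGeoPull
open scoped ContDiff ComplexOrder ComplexConjugate Topology

namespace Claimed.Agent.R316.B4

variable {n N : ℕ} {M : Set (EuclideanSpace ℝ (Fin N))}
  {J : EuclideanSpace ℝ (Fin N) → EuclideanSpace ℝ (Fin N) →L[ℝ] EuclideanSpace ℝ (Fin N)}
  {Ψ : CE (Fin n) → EuclideanSpace ℝ (Fin N)} {r : ℝ}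
  {Λ : EuclideanSpace ℝ (Fin N) →L[ℝ] CE (Fin n)} {p : EuclideanSpace ℝ (Fin N)}

theorem pull_contDiffOn_fderiv (hΨ : IsParam M Ψ (Metric.ball 0 r)) :
    ContDiffOn ℝ ∞ (fderiv ℝ Ψ) (Metric.ball 0 r) :=
  hΨ.smooth.fderiv_of_isOpen Metric.isOpen_ball (m := ∞) (by simp)

theorem pull_differentiableAt (hΨ : IsParam M Ψ (Metric.ball 0 r))
    {z : CE (Fin n)} (hz : z ∈ Metric.ball (0 : CE (Fin n)) r) : DifferentiableAt ℝ Ψ z :=
  (hΨ.smooth.contDiffAt (Metric.isOpen_ball.mem_nhds hz)).differentiableAt (by simp)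

theorem pull_differentiableAt_fderiv (hΨ : IsParam M Ψ (Metric.ball 0 r))
    {z : CE (Fin n)} (hz : z ∈ Metric.ball (0 : CE (Fin n)) r) : DifferentiableAt ℝ (fderiv ℝ Ψ) z :=
  ((pull_contDiffOn_fderiv hΨ).contDiffAt (Metric.isOpen_ball.mem_nhds hz)).differentiableAt (by simp)

theorem pull_fderiv_apply (hΨ : IsParam M Ψ (Metric.ball 0 r))
    {z : CE (Fin n)} (hz : z ∈ Metric.ball (0 : CE (Fin n)) r) (v w : CE (Fin n)) :
    fderiv ℝ (fun x => fderiv ℝ Ψ x w) z v = fderiv ℝ (fderiv ℝ Ψ) z v w := by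
  rw [fderiv_clm_apply (pull_differentiableAt_fderiv hΨ hz) (differentiableAt_const w)]
  simp

theorem pull_left_inv (hΨ : IsParam M Ψ (Metric.ball 0 r))
    (hΛ : ∀ z ∈ Metric.ball (0 : CE (Fin n)) r, Λ (Ψ z - p) = z)
    {z : CE (Fin n)} (hz : z ∈ Metric.ball (0 : CE (Fin n)) r) (v : CE (Fin n)) :
    Λ (fderiv ℝ Ψ z v) = v := by
  have hd := pull_differentiableAt hΨ hz
  have h1 : HasFDerivAt (fun x => Λ (Ψ x - p)) (Λ.comp (fderiv ℝ Ψ z)) z :=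
    Λ.hasFDerivAt.comp z (hd.hasFDerivAt.sub_const p)
  have h2 : HasFDerivAt (fun x => Λ (Ψ x - p)) (ContinuousLinearMap.id ℝ (CE (Fin n))) z :=
    (hasFDerivAt_id z).congr_of_eventuallyEq (by
      filter_upwards [Metric.isOpen_ball.mem_nhds hz] with x hx
      exact hΛ x hx)
  exact DFunLike.congr_fun (h1.unique h2) v

theorem pull_second (hΨ : IsParam M Ψ (Metric.ball 0 r))
    (hΛ : ∀ z ∈ Metric.ball (0 : CE (Fin n)) r, Λ (Ψ z - p) = z)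
    {z : CE (Fin n)} (hz : z ∈ Metric.ball (0 : CE (Fin n)) r) (v w : CE (Fin n)) :
    Λ (fderiv ℝ (fun x => fderiv ℝ Ψ x w) z v) = 0 := by
  have hd : DifferentiableAt ℝ (fun x => fderiv ℝ Ψ x w) z :=
    (pull_differentiableAt_fderiv hΨ hz).clm_apply (differentiableAt_const w)
  have h1 : HasFDerivAt (fun x => Λ (fderiv ℝ Ψ x w))
      (Λ.comp (fderiv ℝ (fun x => fderiv ℝ Ψ x w) z)) z := Λ.hasFDerivAt.comp z hd.hasFDerivAt
  have h2 : HasFDerivAt (fun x => Λ (fderiv ℝ Ψ x w)) (0 : CE (Fin n) →L[ℝ] CE (Fin n)) z :=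
    (hasFDerivAt_const w z).congr_of_eventuallyEq (by
      filter_upwards [Metric.isOpen_ball.mem_nhds hz] with x hx
      exact pull_left_inv hΨ hΛ hx w)
  exact DFunLike.congr_fun (h1.unique h2) v

theorem pull_intertwine (hJ : Claims.C0500.IsKahlerEmbedded n M J)
    (hΨ : IsParam M Ψ (Metric.ball 0 r))
    (hΛ : ∀ z ∈ Metric.ball (0 : CE (Fin n)) r, Λ (Ψ z - p) = z)
    {z : CE (Fin n)} (hz : z ∈ Metric.ball (0 : CE (Fin n)) r) (v : CE (Fin n)) :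
    fderiv ℝ Ψ z (pullJ Λ J Ψ z v) = J (Ψ z) (fderiv ℝ Ψ z v) := by
  obtain ⟨v', hv'⟩ := (kahler_clauses hJ hΨ hz v v).1
  have hv'' : fderiv ℝ Ψ z v' = J (Ψ z) (fderiv ℝ Ψ z v) := hv'
  have h1 : pullJ Λ J Ψ z v = Λ (J (Ψ z) (fderiv ℝ Ψ z v)) := rfl
  rw [h1, ← hv'', pull_left_inv hΨ hΛ hz]

theorem pull_sq (hJ : Claims.C0500.IsKahlerEmbedded n M J)
    (hΨ : IsParam M Ψ (Metric.ball 0 r))
    (hΛ : ∀ z ∈ Metric.ball (0 : CE (Fin n)) r, Λ (Ψ z - p) = z)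
    {z : CE (Fin n)} (hz : z ∈ Metric.ball (0 : CE (Fin n)) r) (v : CE (Fin n)) :
    pullJ Λ J Ψ z (pullJ Λ J Ψ z v) = - v := by
  apply hΨ.immersion z hz
  rw [pull_intertwine hJ hΨ hΛ hz, pull_intertwine hJ hΨ hΛ hz, (kahler_clauses hJ hΨ hz v v).2.1,
    map_neg]

theorem pull_smooth (hJ : Claims.C0500.IsKahlerEmbedded n M J)
    (hΨ : IsParam M Ψ (Metric.ball 0 r)) :
    ContDiffOn ℝ ∞ (pullJ Λ J Ψ) (Metric.ball 0 r) := by
  unfold pullJ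
  exact contDiffOn_const.clm_comp
    ((hJ.1.comp_contDiffOn hΨ.smooth).clm_comp (pull_contDiffOn_fderiv hΨ))

theorem pull_tang_range (z : CE (Fin n)) (t : CE (Fin n)) :
    tang Ψ z (fderiv ℝ Ψ z t) = fderiv ℝ Ψ z t :=
  Submodule.starProjection_eq_self_iff.2 ⟨t, rfl⟩

theorem pull_tang_add (z : CE (Fin n)) (x y : EuclideanSpace ℝ (Fin N)) :
    tang Ψ z (x + y) = tang Ψ z x + tang Ψ z y := map_add _ x y

/-- `tang Ψ z y = dΨ_z (Λ (tang Ψ z y))`. -/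
theorem pull_tang_eq (hΨ : IsParam M Ψ (Metric.ball 0 r))
    (hΛ : ∀ z ∈ Metric.ball (0 : CE (Fin n)) r, Λ (Ψ z - p) = z)
    {z : CE (Fin n)} (hz : z ∈ Metric.ball (0 : CE (Fin n)) r) (y : EuclideanSpace ℝ (Fin N)) :
    fderiv ℝ Ψ z (Λ (tang Ψ z y)) = tang Ψ z y := by
  obtain ⟨t, ht⟩ := Submodule.starProjection_apply_mem
    (LinearMap.range (fderiv ℝ Ψ z).toLinearMap) y
  have ht' : fderiv ℝ Ψ z t = tang Ψ z y := ht
  rw [← ht', pull_left_inv hΨ hΛ hz]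

/-- `∇Ĵ = 0` for a symmetric connection which vanishes at `0`. -/
theorem exists_christoffel (hJ : Claims.C0500.IsKahlerEmbedded n M J) (hr : 0 < r)
    (hΨ : IsParam M Ψ (Metric.ball 0 r))
    (hΛ : ∀ z ∈ Metric.ball (0 : CE (Fin n)) r, Λ (Ψ z - p) = z)
    (hproj : ∀ y, Λ (tang Ψ 0 y) = Λ y) :
    ∃ Γ : CE (Fin n) → CE (Fin n) → CE (Fin n) → CE (Fin n),
      (∀ z ∈ Metric.ball (0 : CE (Fin n)) r, ∀ v w, Γ z v w = Γ z w v) ∧ (∀ v w, Γ 0 v w = 0) ∧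
      ∀ z ∈ Metric.ball (0 : CE (Fin n)) r, ∀ v w,
        fderiv ℝ (pullJ Λ J Ψ) z v w = pullJ Λ J Ψ z (Γ z v w) - Γ z v (pullJ Λ J Ψ z w) := by
  refine ⟨fun z v w => Λ (tang Ψ z (fderiv ℝ (fun x => fderiv ℝ Ψ x w) z v)), fun z hz v w => ?_,
    fun v w => ?_, fun z hz v w => ?_⟩
  · simp only
    rw [pull_fderiv_apply hΨ hz, pull_fderiv_apply hΨ hz]
    have hs : ContDiffAt ℝ 2 Ψ z :=
      (hΨ.smooth.contDiffAt (Metric.isOpen_ball.mem_nhds hz)).of_le (by norm_cast)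
    rw [hs.isSymmSndFDerivAt (by rw [minSmoothness_of_isRCLikeNormedField]) v w]
  · simp only
    rw [hproj, pull_second hΨ hΛ (Metric.mem_ball_self hr)]
  · simp only
    have hdJ : DifferentiableAt ℝ (pullJ Λ J Ψ) z :=
      ((pull_smooth hJ hΨ).contDiffAt (Metric.isOpen_ball.mem_nhds hz)).differentiableAt (by simp)
    have hdJw : DifferentiableAt ℝ (fun x => pullJ Λ J Ψ x w) z :=
      hdJ.clm_apply (differentiableAt_const w)
    have e0 : (fun x => J (Ψ x) (fderiv ℝ Ψ x w)) =ᶠ[𝓝 z]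
        fun x => fderiv ℝ Ψ x (pullJ Λ J Ψ x w) := by
      filter_upwards [Metric.isOpen_ball.mem_nhds hz] with x hx
      exact (pull_intertwine hJ hΨ hΛ hx w).symm
    have e1 : fderiv ℝ (fun x => J (Ψ x) (fderiv ℝ Ψ x w)) z v
        = fderiv ℝ (fun x => fderiv ℝ Ψ x (pullJ Λ J Ψ z w)) z v
          + fderiv ℝ Ψ z (fderiv ℝ (pullJ Λ J Ψ) z v w) := by
      rw [e0.fderiv_eq, fderiv_clm_apply (pull_differentiableAt_fderiv hΨ hz) hdJw,
        pull_fderiv_apply hΨ hz, fderiv_clm_apply hdJ (differentiableAt_const w)]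
      simp [add_comm]
    have c4 := (kahler_clauses hJ hΨ hz v w).2.2.2
    rw [e1, pull_tang_add, pull_tang_range] at c4
    have c5 := congrArg Λ c4
    rw [map_add, pull_left_inv hΨ hΛ hz, ← pull_tang_eq hΨ hΛ hz
      (fderiv ℝ (fun x => fderiv ℝ Ψ x w) z v)] at c5
    have h1 : ∀ t, pullJ Λ J Ψ z t = Λ (J (Ψ z) (fderiv ℝ Ψ z t)) := fun t => rfl
    rw [h1 (Λ (tang Ψ z (fderiv ℝ (fun x => fderiv ℝ Ψ x w) z v))), ← c5]
    abel

/-- **the pulled back structure is a normalised integrable almost complex structure.** -/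
theorem isACS_pullJ (hJ : Claims.C0500.IsKahlerEmbedded n M J) (hr : 0 < r)
    (hΨ : IsParam M Ψ (Metric.ball 0 r)) (h0 : Ψ 0 = p)
    (hΛ : ∀ z ∈ Metric.ball (0 : CE (Fin n)) r, Λ (Ψ z - p) = z)
    (hproj : ∀ y, Λ (tang Ψ 0 y) = Λ y)
    (hi : ∀ v, fderiv ℝ Ψ 0 (Complex.I • v) = J p (fderiv ℝ Ψ 0 v)) :
    IsACS r (pullJ Λ J Ψ) := by
  obtain ⟨Γ, hsym, hΓ0, hΓ⟩ := exists_christoffel hJ hr hΨ hΛ hproj
  have h0mem : (0 : CE (Fin n)) ∈ Metric.ball (0 : CE (Fin n)) r := Metric.mem_ball_self hr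
  refine ⟨pull_smooth hJ hΨ, fun z hz v => pull_sq hJ hΨ hΛ hz v, fun v => ?_, ?_, ?_⟩
  · have h1 : pullJ Λ J Ψ 0 v = Λ (J (Ψ 0) (fderiv ℝ Ψ 0 v)) := rfl
    rw [h1, h0, ← hi v, pull_left_inv hΨ hΛ h0mem]
  · ext v w
    rw [hΓ 0 h0mem v w, hΓ0, hΓ0]
    simp
  · intro z hz v w
    rw [hΓ z hz, hΓ z hz, hΓ z hz, hΓ z hz]
    rw [hsym z hz (pullJ Λ J Ψ z v) (pullJ Λ J Ψ z w), hsym z hz v w,
      hsym z hz v (pullJ Λ J Ψ z w), hsym z hz w (pullJ Λ J Ψ z v)]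
    simp only [map_sub]
    abel

end Claimed.Agent.R316.B4

end SecGeoPull
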