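import Claimed.Agent.R316.B4.FrameInt
import Claimed.Agent.Lib.Sob.Api
import Claimed.Agent.R316.B4.Fried

set_option autoImplicit false

/-!
# Row 316, B4-RegDefs: definitions for the interior regularity of `Z̄ u = g`

Real vector fields of the frame: `Z̄_j = X_j + i Y_j`, `Z_j = X_j - i Y_j`, `X_j = ½ (e_j + A_j)`, `Y_j = ½ i (e_j - A_j)`, `A_j = ∑_k a_{jk} e_k`.
`ZbG a j z L = L X_j + i L Y_j` is `Z̄_j` evaluated on a (weak) derivative `L : CE ι →L[ℝ] ℂ` (`Zb_eq_ZbG`).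
`prA a z ξ = ∑_j ξ(X_j) X_j + ξ(Y_j) Y_j` is the (real, symmetric, positive definite) principal part of `∑ Z_j Z̄_j`, in the format of `Lib/Sob`.
-/

section SecRegDefs
set_option maxSynthPendingDepth 6
open scoped ContDiff ComplexOrder ComplexConjugate Topology
open MeasureTheory
open Claimed.Agent.R316.B6E (IsTest IsTestForm cx L2w)

namespace Claimed.Agent.R316.B4

variable {ι : Type} [Fintype ι] [DecidableEq ι]

noncomputable def frX (a : ι → ι → CE ι → ℂ) (j : ι) (z : CE ι) : CE ι :=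
  (1 / 2 : ℝ) • (eb j + ∑ k, a j k z • eb k)

noncomputable def frY (a : ι → ι → CE ι → ℂ) (j : ι) (z : CE ι) : CE ι :=
  (1 / 2 : ℝ) • (Complex.I • (eb j - ∑ k, a j k z • eb k))

/-- `Z̄_j` on a derivative. -/
noncomputable def ZbG (a : ι → ι → CE ι → ℂ) (j : ι) (z : CE ι) (L : CE ι →L[ℝ] ℂ) : ℂ :=
  L (frX a j z) + Complex.I * L (frY a j z)

/-- `Z_j` on a derivative. -/
noncomputable def ZfG (a : ι → ι → CE ι → ℂ) (j : ι) (z : CE ι) (L : CE ι →L[ℝ] ℂ) : ℂ :=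
  L (frX a j z) - Complex.I * L (frY a j z)

/-- principal part of `∑_j Z_j Z̄_j` (covector ↦ vector). -/
noncomputable def prA (a : ι → ι → CE ι → ℂ) (z : CE ι) : (CE ι →L[ℝ] ℝ) →L[ℝ] CE ι :=
  ∑ j, ((ContinuousLinearMap.apply ℝ ℝ (frX a j z)).smulRight (frX a j z)
    + (ContinuousLinearMap.apply ℝ ℝ (frY a j z)).smulRight (frY a j z))

/-- the first order operator
`½ ∑_j ( \bar σ_j Z_j φ - σ_j Z̄_j φ - [Z_j, Z̄_j] φ )`, `[Z_j, Z̄_j] = ∑_l (Z_j a_{jl}) ∂_l - (Z̄_j \bar a_{jl}) ∂̄_l`. -/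
noncomputable def lowC (a : ι → ι → CE ι → ℂ) (φ : CE ι → ℂ) (z : CE ι) : ℂ :=
  (1 / 2 : ℂ) * ∑ j, (conj (sg a j z) * Zf a j φ z - sg a j z * Zb a j φ z
    - ∑ l, Zf a j (a j l) z * dz l φ z + ∑ l, Zb a j (fun y => conj (a j l y)) z * dzb l φ z)

theorem Zb_eq_ZbG (a : ι → ι → CE ι → ℂ) (j : ι) (u : CE ι → ℂ) (z : CE ι) :
    Zb a j u z = ZbG a j z (fderiv ℝ u z) := by
  rw [Zb_eq_fderiv]
  unfold ZbG frX frY
  simp only [map_smul, Complex.real_smul]
  push_cast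
  ring

end Claimed.Agent.R316.B4

end SecRegDefs

/-!
# Row 316, B4-Garding: `∫ ‖dw‖² ≤ 16 ∑_j ∫ |Z̄_j w|²` for test functions, if `∑ |a_{jk}|² ≤ 1/4` on `Ω`

1. (`integral_dz_sq_eq`) `∫ |∂_j w|² = ∫ |∂̄_j w|²`:  `∫ ∂_j w \overline{∂_j w} = ∫ ∂_j w ∂̄_j \bar w = - ∫ ∂̄_j ∂_j w \bar w = - ∫ ∂_j ∂̄_j w \bar w = ∫ ∂̄_j w ∂_j \bar w = ∫ |∂̄_j w|²`
   (`B6E.integral_dz_mul`, `B6E.integral_dzb_mul`, `dz_conj`, `dzb_conj`, `dz_dzb_comm`; `‖x‖² = (x * conj x).re`, `B6E.normSq_eq_re`).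
2. pointwise on `Ω` (and trivially off `Ω`, where `w` and its derivatives vanish): `∂̄_j w = Z̄_j w - ∑_k a_{jk} ∂_k w`,
   `∑_j |∂̄_j w|² ≤ 2 ∑_j |Z̄_j w|² + 2 (∑_{jk} |a_{jk}|²) ∑_k |∂_k w|² ≤ 2 ∑ |Z̄_j w|² + ½ ∑ |∂_k w|²` (Cauchy–Schwarz `Finset.inner_mul_le_norm_mul_norm`/`Finset.sum_mul_sq_le_sq_mul_sq`).
3. integrate: `X := ∫ ∑ |∂̄_j w|² = ∫ ∑ |∂_j w|²`, `X ≤ 2Y + X/2`, so `X ≤ 4Y`.
4. `fderiv ℝ w z v = ∑_j (∂_j w v_j + ∂̄_j w \bar v_j)` (`fderiv_eq_sum` in `CW/Basic`), so `‖fderiv ℝ w z‖² ≤ 2 ∑ (|∂_j w|² + |∂̄_j w|²)` (`ContinuousLinearMap.opNorm_le_bound`,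
   `‖v‖² = ∑ ‖v_j‖²`: `EuclideanSpace.norm_sq_eq`).  Total: `∫ ‖dw‖² ≤ 2 · 2X ≤ 16 Y`.
-/

section SecGarding
open scoped ContDiff ComplexOrder ComplexConjugate Topology
open MeasureTheory
open Claimed.Agent.R316.B6E (IsTest IsTestForm cx L2w)

namespace Claimed.Agent.R316.B4

variable {ι : Type} [Fintype ι] [DecidableEq ι]

omit [DecidableEq ι] in
theorem gd_integrable_normSq {Ω : Set (CE ι)} {w : CE ι → ℂ} (hw : IsTest Ω w) :
    Integrable (fun z => ‖w z‖ ^ 2) := by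
  have hc : Continuous (fun z => ‖w z‖ ^ 2) := hw.continuous.norm.pow 2
  have hs : HasCompactSupport (fun z => ‖w z‖ ^ 2) :=
    hw.compact.comp_left (g := fun t : ℂ => ‖t‖ ^ 2) (by simp)
  exact hc.integrable_of_hasCompactSupport hs

omit [DecidableEq ι] in
theorem gd_ofReal_integral_normSq (f : CE ι → ℂ) :
    ((∫ z, ‖f z‖ ^ 2 : ℝ) : ℂ) = ∫ z, f z * conj (f z) := by
  rw [← integral_complex_ofReal]
  refine integral_congr_ae (Filter.Eventually.of_forall fun z => ?_)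
  simp only
  rw [Complex.mul_conj, Complex.normSq_eq_norm_sq]

theorem integral_dz_sq_eq {Ω : Set (CE ι)} {w : CE ι → ℂ} (hw : IsTest Ω w) (j : ι) :
    ∫ z, ‖dz j w z‖ ^ 2 = ∫ z, ‖dzb j w z‖ ^ 2 := by
  have hw' : IsTest Set.univ w := hw.mono (Set.subset_univ _)
  have hc : IsTest Set.univ (fun z => conj (w z)) := hw'.conj
  have h1 := B6E.integral_dz_mul (j := j) isOpen_univ hw' (hc.dzb (j := j)).smooth.contDiffOn
  have h2 := B6E.integral_dzb_mul (j := j) isOpen_univ hw' (hc.dz (j := j)).smooth.contDiffOn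
  have h3 : ∀ z, dz j (dzb j fun z => conj (w z)) z = dzb j (dz j fun z => conj (w z)) z :=
    fun z => dz_dzb_comm (hc.smooth.contDiffAt.of_le (by norm_cast))
  simp only [h3] at h1
  have e1 : ∀ z, dzb j (fun z => conj (w z)) z = conj (dz j w z) := fun z => dzb_conj
  have e2 : ∀ z, dz j (fun z => conj (w z)) z = conj (dzb j w z) := fun z => dz_conj
  have : ((∫ z, ‖dz j w z‖ ^ 2 : ℝ) : ℂ) = ((∫ z, ‖dzb j w z‖ ^ 2 : ℝ) : ℂ) := by
    rw [gd_ofReal_integral_normSq, gd_ofReal_integral_normSq]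
    simp only [← e1, ← e2]
    rw [h1, h2]
  exact_mod_cast this

theorem norm_fderiv_sq_le (w : CE ι → ℂ) (z : CE ι) :
    ‖fderiv ℝ w z‖ ^ 2 ≤ 2 * ∑ j, (‖dz j w z‖ ^ 2 + ‖dzb j w z‖ ^ 2) := by
  set S : ℝ := 2 * ∑ j, (‖dz j w z‖ ^ 2 + ‖dzb j w z‖ ^ 2) with hS
  have hS0 : 0 ≤ S := by positivity
  have hb : ‖fderiv ℝ w z‖ ≤ Real.sqrt S := by
    refine ContinuousLinearMap.opNorm_le_bound _ (Real.sqrt_nonneg _) fun v => ?_
    rw [fderiv_eq_sum]
    have h1 : ‖∑ j, (dz j w z * v j + dzb j w z * conj (v j))‖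
        ≤ ∑ j, (‖dz j w z‖ + ‖dzb j w z‖) * ‖v j‖ := by
      refine (norm_sum_le _ _).trans (Finset.sum_le_sum fun j _ => ?_)
      refine (norm_add_le _ _).trans ?_
      rw [norm_mul, norm_mul, RCLike.norm_conj, add_mul]
    have h2 : (∑ j, (‖dz j w z‖ + ‖dzb j w z‖) * ‖v j‖) ^ 2
        ≤ (∑ j, (‖dz j w z‖ + ‖dzb j w z‖) ^ 2) * ∑ j, ‖v j‖ ^ 2 :=
      Finset.sum_mul_sq_le_sq_mul_sq _ _ _
    have h3 : ∑ j, (‖dz j w z‖ + ‖dzb j w z‖) ^ 2 ≤ S := by
      rw [hS, Finset.mul_sum]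
      refine Finset.sum_le_sum fun j _ => ?_
      nlinarith [sq_nonneg (‖dz j w z‖ - ‖dzb j w z‖)]
    have h4 : ∑ j, ‖v j‖ ^ 2 = ‖v‖ ^ 2 := (EuclideanSpace.norm_sq_eq v).symm
    refine h1.trans (abs_le_of_sq_le_sq' ?_ (by positivity)).2
    rw [mul_pow, Real.sq_sqrt hS0]
    refine h2.trans ?_
    rw [h4]
    exact mul_le_mul_of_nonneg_right h3 (by positivity)
  calc ‖fderiv ℝ w z‖ ^ 2 ≤ Real.sqrt S ^ 2 := pow_le_pow_left₀ (norm_nonneg _) hb 2
    _ = S := Real.sq_sqrt hS0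

theorem gd_pointwise {Ω : Set (CE ι)} {a : ι → ι → CE ι → ℂ}
    (hsmall : ∀ z ∈ Ω, ∑ j, ∑ k, ‖a j k z‖ ^ 2 ≤ 1 / 4) {w : CE ι → ℂ} (hw : IsTest Ω w) (z : CE ι) :
    ∑ j, ‖dzb j w z‖ ^ 2 ≤ 2 * ∑ j, ‖Zb a j w z‖ ^ 2 + 1 / 2 * ∑ k, ‖dz k w z‖ ^ 2 := by
  by_cases hz : z ∈ Ω
  · set D : ℝ := ∑ k, ‖dz k w z‖ ^ 2 with hD
    have hD0 : 0 ≤ D := by positivity
    have h1 : ∀ j, ‖dzb j w z‖ ^ 2 ≤ 2 * ‖Zb a j w z‖ ^ 2 + 2 * ((∑ k, ‖a j k z‖ ^ 2) * D) := by
      intro j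
      have e : dzb j w z = Zb a j w z - ∑ k, a j k z * dz k w z := by unfold Zb; ring
      have n1 : ‖∑ k, a j k z * dz k w z‖ ≤ ∑ k, ‖a j k z‖ * ‖dz k w z‖ :=
        (norm_sum_le _ _).trans (Finset.sum_le_sum fun k _ => (norm_mul _ _).le)
      have n2 : (∑ k, ‖a j k z‖ * ‖dz k w z‖) ^ 2 ≤ (∑ k, ‖a j k z‖ ^ 2) * D :=
        Finset.sum_mul_sq_le_sq_mul_sq _ _ _
      have n3 : ‖∑ k, a j k z * dz k w z‖ ^ 2 ≤ (∑ k, ‖a j k z‖ ^ 2) * D :=
        (pow_le_pow_left₀ (norm_nonneg _) n1 2).trans n2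
      have n4 : ‖dzb j w z‖ ≤ ‖Zb a j w z‖ + ‖∑ k, a j k z * dz k w z‖ := by
        rw [e]; exact norm_sub_le _ _
      have n5 : ‖dzb j w z‖ ^ 2 ≤ (‖Zb a j w z‖ + ‖∑ k, a j k z * dz k w z‖) ^ 2 :=
        pow_le_pow_left₀ (norm_nonneg _) n4 2
      nlinarith [sq_nonneg (‖Zb a j w z‖ - ‖∑ k, a j k z * dz k w z‖)]
    calc ∑ j, ‖dzb j w z‖ ^ 2
        ≤ ∑ j, (2 * ‖Zb a j w z‖ ^ 2 + 2 * ((∑ k, ‖a j k z‖ ^ 2) * D)) :=
          Finset.sum_le_sum fun j _ => h1 j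
      _ = 2 * ∑ j, ‖Zb a j w z‖ ^ 2 + 2 * ((∑ j, ∑ k, ‖a j k z‖ ^ 2) * D) := by
          rw [Finset.sum_add_distrib, ← Finset.mul_sum, ← Finset.mul_sum, ← Finset.sum_mul]
      _ ≤ 2 * ∑ j, ‖Zb a j w z‖ ^ 2 + 1 / 2 * D := by
          have := mul_le_mul_of_nonneg_right (hsmall z hz) hD0
          linarith
  · have hz' : z ∉ tsupport w := fun h => hz (hw.supp h)
    simp only [dzb_eq_zero_of_notMem_tsupport hz', dz_eq_zero_of_notMem_tsupport hz',
      Zb_eq_zero_of_notMem_tsupport hz']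
    simp

/-- **Gårding's inequality for the first order system `(Z̄_j)`.** -/
theorem garding {Ω : Set (CE ι)} {a : ι → ι → CE ι → ℂ} (ha : ∀ j k, ContDiff ℝ ∞ (a j k))
    (hsmall : ∀ z ∈ Ω, ∑ j, ∑ k, ‖a j k z‖ ^ 2 ≤ 1 / 4) {w : CE ι → ℂ} (hw : IsTest Ω w) :
    ∫ z, ‖fderiv ℝ w z‖ ^ 2 ≤ 16 * ∫ z, ∑ j, ‖Zb a j w z‖ ^ 2 := by
  have i1 : ∀ j, Integrable (fun z => ‖dz j w z‖ ^ 2) := fun j => gd_integrable_normSq (hw.dz (j := j))
  have i2 : ∀ j, Integrable (fun z => ‖dzb j w z‖ ^ 2) :=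
    fun j => gd_integrable_normSq (hw.dzb (j := j))
  have i3 : ∀ j, Integrable (fun z => ‖Zb a j w z‖ ^ 2) :=
    fun j => gd_integrable_normSq (isTest_Zb (j := j) ha hw)
  have I1 : Integrable (fun z => ∑ j, ‖dz j w z‖ ^ 2) := integrable_finsetSum _ fun j _ => i1 j
  have I2 : Integrable (fun z => ∑ j, ‖dzb j w z‖ ^ 2) := integrable_finsetSum _ fun j _ => i2 j
  have I3 : Integrable (fun z => ∑ j, ‖Zb a j w z‖ ^ 2) := integrable_finsetSum _ fun j _ => i3 j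
  have eX : ∫ z, ∑ j, ‖dz j w z‖ ^ 2 = ∫ z, ∑ j, ‖dzb j w z‖ ^ 2 := by
    rw [integral_finsetSum _ fun j _ => i1 j, integral_finsetSum _ fun j _ => i2 j]
    exact Finset.sum_congr rfl fun j _ => integral_dz_sq_eq hw j
  have h1 : ∫ z, ∑ j, ‖dzb j w z‖ ^ 2
      ≤ 2 * (∫ z, ∑ j, ‖Zb a j w z‖ ^ 2) + 1 / 2 * ∫ z, ∑ k, ‖dz k w z‖ ^ 2 := by
    rw [← integral_const_mul, ← integral_const_mul, ← integral_add (I3.const_mul _) (I1.const_mul _)]
    exact integral_mono I2 ((I3.const_mul _).add (I1.const_mul _)) fun z => gd_pointwise hsmall hw z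
  have h2 : ∫ z, ‖fderiv ℝ w z‖ ^ 2
      ≤ 2 * ((∫ z, ∑ j, ‖dz j w z‖ ^ 2) + ∫ z, ∑ j, ‖dzb j w z‖ ^ 2) := by
    rw [← integral_add I1 I2, ← integral_const_mul]
    refine integral_mono_of_nonneg (Filter.Eventually.of_forall fun z => by positivity)
      ((I1.add I2).const_mul _) (Filter.Eventually.of_forall fun z => ?_)
    have := norm_fderiv_sq_le w z
    rw [Finset.sum_add_distrib] at this
    exact this
  linarith

end Claimed.Agent.R316.B4

end SecGarding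

/-!
# Row 316, B4-H1: `u ∈ L²(Ω)`, `Z̄_j u ∈ L²_loc(Ω)` weakly  ⇒  `u ∈ H¹_loc(Ω)`

Notions of `Lib/Sob` (`HasWeakFDeriv`, `L2Loc`; `μ = volume`, `E = CE ι`, `F = ℂ`); tool `Lib.Sob.exists_hasWeakFDeriv_of_cauchy`.
`ũ = Ω.indicator u ∈ L²(ℂ^ι)`, `u_n = wsMol n ũ` (globally smooth, `u_n → ũ` in `L²`: `wsMol_contDiff`, `wsMol_tendsto_eLpNorm`).
Fix a compact `K ⊆ Ω`; choose `δ > 0` with `cthickening (3δ) K ⊆ Ω` and a real test function `χ` on `Ω`, `χ = 1` on a neighbourhood of `cthickening (2δ) K`… (`B6E.exists_isTest_eq_one`).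
1. `v = χ ũ ∈ L²` has compact support in `Ω` and `WeakZb univ a v h'`, `h'_j = χ h_j + (Z̄_j χ) u` on `Ω`, `0` outside (`∈ L²`, compact support): test `hw` with `χ w`,
   `Z̄_j^t(χ w) = χ Z̄_j^t w - (Z̄_jχ) w`.
2. `moll_approx_scalar`: `Z̄_j (wsMol n v) → h'_j` in `L²`; in particular Cauchy.
3. for `n ≥ n₀` the functions `wsMol n v` are test functions on `Ω` (`wsMol_support_subset`), so `garding` applied to `wsMol n v - wsMol m v`:
   `∫ ‖d(wsMol n v) - d(wsMol m v)‖² ≤ 16 ∑_j ∫ |Z̄_j(wsMol n v) - Z̄_j(wsMol m v)|² → 0`.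
4. for `1/(n+1) < δ`: `wsMol n ũ = wsMol n v` on the open set `thickening δ K` (`wsMol_eq_of_eqOn`: `ũ = v` on `ball x (1/(n+1))`), hence the derivatives agree on `K`.
   This is hypothesis `h2` of `exists_hasWeakFDeriv_of_cauchy`; `h1` is `u_n → ũ = u` in `L²(K)`.
5. the identity `ZbG a j z (G z) = h j z` a.e.: on `K`, `Z̄_j u_n = ZbG a j z (d u_n)` (`Zb_eq_ZbG`) converges in `L²(K)` both to `ZbG a j z (G z)` (coefficients bounded on `K`, third conclusion of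
   `exists_hasWeakFDeriv_of_cauchy`) and to `h'_j = h_j`; exhaust `Ω` by countably many compacts.
   (Alternative: `∫ ZbG(G) w = ∫ u Z̄_j^t w = ∫ h_j w` for all test `w` by the definition of the weak derivative, then `IsOpen.ae_eq_zero_of_integral_contDiff_smul_eq_zero`.)
-/

section SecH1
set_option maxSynthPendingDepth 6
open scoped ContDiff ComplexOrder ComplexConjugate Topology
open MeasureTheory Filter
open Claimed.Agent.R316.B6E (IsTest IsTestForm cx L2w)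
open Claimed.Agent.Lib.Sob (HasWeakFDeriv L2Loc)

namespace Claimed.Agent.R316.B4

variable {ι : Type} [Fintype ι] [DecidableEq ι]

omit [DecidableEq ι] in
theorem h1_memLp_test_mul {Ω : Set (CE ι)} {c : CE ι → ℂ} (hc : IsTest Ω c) {f : CE ι → ℂ}
    {μ : Measure (CE ι)} (hf : MemLp f 2 μ) : MemLp (fun z => c z * f z) 2 μ := by
  obtain ⟨M, hM⟩ := hc.continuous.bounded_above_of_compact_support hc.compact
  refine hf.of_le_mul (c := M) (hc.continuous.aestronglyMeasurable.mul hf.1)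
    (Eventually.of_forall fun y => ?_)
  rw [norm_mul]
  exact mul_le_mul_of_nonneg_right (hM y) (norm_nonneg _)

omit [DecidableEq ι] in
/-- a test function times an `L²_loc` function is in `L²`. -/
theorem h1_memLp_test_mul_loc {Ω : Set (CE ι)} {c : CE ι → ℂ} (hc : IsTest Ω c) {f : CE ι → ℂ}
    (hf : L2Loc volume Ω f) : MemLp (fun z => c z * f z) 2 volume := by
  have h1 : MemLp (fun z => c z * f z) 2 (volume.restrict (tsupport c)) :=
    h1_memLp_test_mul hc (hf _ hc.compact hc.supp)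
  have h2 := (memLp_indicator_iff_restrict (isClosed_tsupport c).measurableSet).2 h1
  have e : (tsupport c).indicator (fun z => c z * f z) = fun z => c z * f z := by
    funext z
    by_cases hz : z ∈ tsupport c
    · rw [Set.indicator_of_mem hz]
    · rw [Set.indicator_of_notMem hz, image_eq_zero_of_notMem_tsupport hz, zero_mul]
  rwa [e] at h2

theorem h1_Zbt_mul {a : ι → ι → CE ι → ℂ} {j : ι} {c w : CE ι → ℂ} {z : CE ι}
    (hc : DifferentiableAt ℝ c z) (hw : DifferentiableAt ℝ w z) :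
    Zbt a j (fun y => c y * w y) z = c z * Zbt a j w z - Zb a j c z * w z := by
  unfold Zbt
  rw [Zb_mul hc hw]
  ring

/-- step 1: localisation of the weak equation. -/
theorem weakZb_cutoff {Ω : Set (CE ι)} (hΩ : IsOpen Ω) {a : ι → ι → CE ι → ℂ}
    (ha : ∀ j k, ContDiff ℝ ∞ (a j k)) {u : CE ι → ℂ} (hu : MemLp u 2 (volume.restrict Ω))
    {h : ι → CE ι → ℂ} (hh : ∀ j, L2Loc volume Ω (h j)) (hw : WeakZb Ω a u h)
    {χ : CE ι → ℝ} (hχ : IsTest Ω (cx χ)) :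
    MemLp (fun z => cx χ z * Ω.indicator u z) 2 volume ∧
    (∀ j, MemLp (fun z => Ω.indicator (fun y => cx χ y * h j y + Zb a j (cx χ) y * u y) z) 2 volume) ∧
    WeakZb Set.univ a (fun z => cx χ z * Ω.indicator u z)
      (fun j z => Ω.indicator (fun y => cx χ y * h j y + Zb a j (cx χ) y * u y) z) := by
  have hũ : MemLp (Ω.indicator u) 2 volume := (memLp_indicator_iff_restrict hΩ.measurableSet).2 hu
  have hul : LocallyIntegrableOn u Ω :=
    (Claimed.Agent.Lib.Sob.memLp_l2Loc hu).locallyIntegrableOn hΩ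
  have hZχ : ∀ j, IsTest Ω (Zb a j (cx χ)) := fun j => isTest_Zb ha hχ
  refine ⟨h1_memLp_test_mul hχ hũ, fun j => ?_, fun w hw' j => ?_⟩
  · refine (memLp_indicator_iff_restrict hΩ.measurableSet).2 ?_
    exact ((h1_memLp_test_mul_loc hχ (hh j)).restrict Ω).add (h1_memLp_test_mul (hZχ j) hu)
  · have hT : IsTest Ω (fun z => cx χ z * w z) := hχ.mul_contDiffOn hΩ hw'.smooth.contDiffOn
    have key := hw _ hT j
    have e1 : ∀ z, u z * Zbt a j (fun y => cx χ y * w y) z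
        = u z * (cx χ z * Zbt a j w z) - u z * (Zb a j (cx χ) z * w z) := fun z => by
      rw [h1_Zbt_mul (hχ.differentiable z) (hw'.differentiable z)]
      ring
    have t1 : IsTest Ω (fun z => cx χ z * Zbt a j w z) :=
      hχ.mul_contDiffOn hΩ (isTest_Zbt ha hw').smooth.contDiffOn
    have t2 : IsTest Ω (fun z => Zb a j (cx χ) z * w z) :=
      (hZχ j).mul_contDiffOn hΩ hw'.smooth.contDiffOn
    have i1 := t1.integrable_mul_left hΩ hul
    have i2 := t2.integrable_mul_left hΩ hul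
    have i3 := hT.integrable_mul_left hΩ ((hh j).locallyIntegrableOn hΩ)
    simp only [e1] at key
    rw [integral_sub i1 i2] at key
    have l1 : ∀ z, cx χ z * Ω.indicator u z * Zbt a j w z = u z * (cx χ z * Zbt a j w z) := by
      intro z
      by_cases hz : z ∈ Ω
      · rw [Set.indicator_of_mem hz]; ring
      · rw [hχ.eq_zero_of_notMem hz]; ring
    have l2 : ∀ z, Ω.indicator (fun y => cx χ y * h j y + Zb a j (cx χ) y * u y) z * w z
        = h j z * (cx χ z * w z) + u z * (Zb a j (cx χ) z * w z) := by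
      intro z
      by_cases hz : z ∈ Ω
      · rw [Set.indicator_of_mem hz]; ring
      · rw [Set.indicator_of_notMem hz, hχ.eq_zero_of_notMem hz, (hZχ j).eq_zero_of_notMem hz]; ring
    simp only [l1, l2]
    rw [integral_add i3 i2, ← key]
    ring


omit [DecidableEq ι] in
/-- mollifications of a function supported in a compact subset of `Ω` are eventually test functions. -/
theorem h1_wsMol_isTest {Ω : Set (CE ι)} (hΩ : IsOpen Ω) {K : Set (CE ι)} (hK : IsCompact K)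
    (hKΩ : K ⊆ Ω) {v : CE ι → ℂ} (hv : LocallyIntegrable v volume) (hv0 : ∀ z, z ∉ K → v z = 0) :
    ∃ N : ℕ, ∀ n, N ≤ n → IsTest Ω (B6E.wsMol n v) := by
  obtain ⟨δ, hδ, hδΩ⟩ := hK.exists_cthickening_subset_open hΩ hKΩ
  obtain ⟨N, hN⟩ := exists_nat_one_div_lt hδ
  refine ⟨N, fun n hn => ?_⟩
  have hn' : 1 / ((n : ℝ) + 1) < δ := by
    refine lt_of_le_of_lt ?_ hN
    have : (N : ℝ) ≤ n := by exact_mod_cast hn
    exact one_div_le_one_div_of_le (by positivity) (by linarith)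
  have hs : Function.support (B6E.wsMol n v) ⊆ Metric.cthickening δ K := by
    intro x hx
    by_contra hx'
    apply hx
    apply B6E.wsMol_eq_zero_of
    intro y hy
    apply hv0
    intro hyK
    apply hx'
    refine Metric.mem_cthickening_of_dist_le x y δ K hyK ?_
    rw [dist_comm]
    exact (Metric.mem_ball.1 hy).le.trans hn'.le
  have hts : tsupport (B6E.wsMol n v) ⊆ Metric.cthickening δ K :=
    closure_minimal hs Metric.isClosed_cthickening
  exact ⟨B6E.wsMol_contDiff n hv, hK.cthickening.of_isClosed_subset (isClosed_tsupport _) hts,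
    hts.trans hδΩ⟩

omit [DecidableEq ι] in
theorem h1_integrable_normSq_sub {f g : CE ι → ℂ} (hf : MemLp f 2 volume) (hg : MemLp g 2 volume) :
    Integrable (fun z => ‖f z - g z‖ ^ 2) :=
  (memLp_two_iff_integrable_sq_norm (hf.sub hg).1).1 (hf.sub hg)

omit [DecidableEq ι] in
theorem h1_test_memLp {Ω : Set (CE ι)} {w : CE ι → ℂ} (hw : IsTest Ω w) : MemLp w 2 volume :=
  hw.continuous.memLp_of_hasCompactSupport hw.compact

/-- the derivatives of the mollifications form a Cauchy sequence in `L²`. -/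
theorem h1_cauchy {Ω : Set (CE ι)} (hΩ : IsOpen Ω) {a : ι → ι → CE ι → ℂ}
    (ha : ∀ j k, ContDiff ℝ ∞ (a j k))
    (hsmall : ∀ z ∈ Ω, ∑ j, ∑ k, ‖a j k z‖ ^ 2 ≤ 1 / 4)
    {K : Set (CE ι)} (hK : IsCompact K) (hKΩ : K ⊆ Ω) {v : CE ι → ℂ} {h : ι → CE ι → ℂ}
    (hv : MemLp v 2 volume) (hh : ∀ j, MemLp (h j) 2 volume) (hv0 : ∀ z, z ∉ K → v z = 0)
    (hweak : WeakZb Set.univ a v h) {η : ℝ} (hη : 0 < η) :
    ∃ N : ℕ, ∀ n m, N ≤ n → N ≤ m → IsTest Ω (B6E.wsMol n v) ∧ IsTest Ω (B6E.wsMol m v) ∧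
      ∫ z, ‖fderiv ℝ (B6E.wsMol n v) z - fderiv ℝ (B6E.wsMol m v) z‖ ^ 2 ≤ η := by
  have hvl : LocallyIntegrable v volume := hv.locallyIntegrable (by norm_num)
  obtain ⟨N₀, hN₀⟩ := h1_wsMol_isTest hΩ hK hKΩ hvl hv0
  set c : ℝ := (Fintype.card ι : ℝ) + 1 with hc
  have hc0 : 0 < c := by positivity
  have hev : ∀ᶠ n : ℕ in atTop, ∀ j, ∫ z, ‖Zb a j (B6E.wsMol n v) z - h j z‖ ^ 2 < η / (64 * c) := by
    rw [eventually_all]
    intro j
    exact (moll_approx_scalar ha hK hv hh hv0 hweak j).eventually (gt_mem_nhds (by positivity))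
  obtain ⟨N₁, hN₁⟩ := eventually_atTop.1 hev
  refine ⟨max N₀ N₁, fun n m hn hm => ?_⟩
  have tn := hN₀ n ((le_max_left _ _).trans hn)
  have tm := hN₀ m ((le_max_left _ _).trans hm)
  refine ⟨tn, tm, ?_⟩
  have g := garding ha hsmall (tn.sub tm)
  have e1 : ∀ z, fderiv ℝ (fun z => B6E.wsMol n v z - B6E.wsMol m v z) z
      = fderiv ℝ (B6E.wsMol n v) z - fderiv ℝ (B6E.wsMol m v) z :=
    fun z => fderiv_fun_sub (tn.differentiable z) (tm.differentiable z)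
  have e2 : ∀ j z, Zb a j (fun z => B6E.wsMol n v z - B6E.wsMol m v z) z
      = Zb a j (B6E.wsMol n v) z - Zb a j (B6E.wsMol m v) z :=
    fun j z => Zb_sub (tn.differentiable z) (tm.differentiable z)
  simp only [e1, e2] at g
  refine g.trans ?_
  have In : ∀ j, Integrable (fun z => ‖Zb a j (B6E.wsMol n v) z - h j z‖ ^ 2) := fun j =>
    h1_integrable_normSq_sub (h1_test_memLp (isTest_Zb ha tn)) (hh j)
  have Im : ∀ j, Integrable (fun z => ‖Zb a j (B6E.wsMol m v) z - h j z‖ ^ 2) := fun j =>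
    h1_integrable_normSq_sub (h1_test_memLp (isTest_Zb ha tm)) (hh j)
  have Inm : ∀ j, Integrable (fun z => ‖Zb a j (B6E.wsMol n v) z - Zb a j (B6E.wsMol m v) z‖ ^ 2) :=
    fun j => h1_integrable_normSq_sub (h1_test_memLp (isTest_Zb ha tn))
      (h1_test_memLp (isTest_Zb ha tm))
  rw [integral_finsetSum _ fun j _ => Inm j]
  have hj : ∀ j, ∫ z, ‖Zb a j (B6E.wsMol n v) z - Zb a j (B6E.wsMol m v) z‖ ^ 2
      ≤ 4 * (η / (64 * c)) := by
    intro j
    have h1 : ∫ z, ‖Zb a j (B6E.wsMol n v) z - Zb a j (B6E.wsMol m v) z‖ ^ 2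
        ≤ ∫ z, (2 * ‖Zb a j (B6E.wsMol n v) z - h j z‖ ^ 2
          + 2 * ‖Zb a j (B6E.wsMol m v) z - h j z‖ ^ 2) := by
      refine integral_mono (Inm j) (((In j).const_mul 2).add ((Im j).const_mul 2)) fun z => ?_
      simp only
      have t : ‖Zb a j (B6E.wsMol n v) z - Zb a j (B6E.wsMol m v) z‖
          ≤ ‖Zb a j (B6E.wsMol n v) z - h j z‖ + ‖Zb a j (B6E.wsMol m v) z - h j z‖ := by
        have := norm_sub_le (Zb a j (B6E.wsMol n v) z - h j z) (Zb a j (B6E.wsMol m v) z - h j z)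
        simpa using this
      have t2 := pow_le_pow_left₀ (norm_nonneg _) t 2
      nlinarith [sq_nonneg (‖Zb a j (B6E.wsMol n v) z - h j z‖ - ‖Zb a j (B6E.wsMol m v) z - h j z‖)]
    rw [integral_add ((In j).const_mul 2) ((Im j).const_mul 2), integral_const_mul,
      integral_const_mul] at h1
    have a1 := hN₁ n ((le_max_right _ _).trans hn) j
    have a2 := hN₁ m ((le_max_right _ _).trans hm) j
    linarith
  have hsum : ∑ j, ∫ z, ‖Zb a j (B6E.wsMol n v) z - Zb a j (B6E.wsMol m v) z‖ ^ 2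
      ≤ (Fintype.card ι : ℝ) * (4 * (η / (64 * c))) := by
    have := Finset.sum_le_sum fun j (_ : j ∈ Finset.univ) => hj j
    simpa using this
  have hfin : 16 * ((Fintype.card ι : ℝ) * (4 * (η / (64 * c)))) ≤ η := by
    have : 16 * ((Fintype.card ι : ℝ) * (4 * (η / (64 * c)))) = η * ((Fintype.card ι : ℝ) / c) := by
      field_simp
      ring
    rw [this]
    have h1 : (Fintype.card ι : ℝ) / c ≤ 1 := by
      rw [div_le_one hc0, hc]; linarith
    nlinarith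
  linarith


omit [DecidableEq ι] in
theorem h1_tendsto_L2K {Ω : Set (CE ι)} (hΩ : IsOpen Ω) {u : CE ι → ℂ}
    (hu : MemLp u 2 (volume.restrict Ω)) {K : Set (CE ι)} (hK : IsCompact K) (hKΩ : K ⊆ Ω) :
    Tendsto (fun n => eLpNorm (fun x => B6E.wsMol n (Ω.indicator u) x - u x) 2 (volume.restrict K))
      atTop (𝓝 0) := by
  have hũ : MemLp (Ω.indicator u) 2 volume := (memLp_indicator_iff_restrict hΩ.measurableSet).2 hu
  refine tendsto_of_tendsto_of_tendsto_of_le_of_le tendsto_const_nhds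
    (B6E.wsMol_tendsto_eLpNorm (p := 2) (by norm_num) (by norm_num) hũ) (fun _ => zero_le)
    (fun n => ?_)
  have e : eLpNorm (fun x => B6E.wsMol n (Ω.indicator u) x - u x) 2 (volume.restrict K)
      = eLpNorm (fun x => B6E.wsMol n (Ω.indicator u) x - Ω.indicator u x) 2 (volume.restrict K) :=
    eLpNorm_congr_ae (ae_restrict_of_forall_mem hK.measurableSet fun x hx => by
      simp only
      rw [Set.indicator_of_mem (hKΩ hx)])
  simp only
  rw [e]
  exact eLpNorm_mono_measure _ Measure.restrict_le_self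

omit [DecidableEq ι] in
theorem h1_memLp_fderiv {Ω : Set (CE ι)} {w : CE ι → ℂ} (hw : IsTest Ω w) :
    MemLp (fderiv ℝ w) 2 volume :=
  (hw.smooth.continuous_fderiv (by simp)).memLp_of_hasCompactSupport (hw.compact.fderiv ℝ)

theorem h1_cauchy_K {Ω : Set (CE ι)} (hΩ : IsOpen Ω) {a : ι → ι → CE ι → ℂ}
    (ha : ∀ j k, ContDiff ℝ ∞ (a j k))
    (hsmall : ∀ z ∈ Ω, ∑ j, ∑ k, ‖a j k z‖ ^ 2 ≤ 1 / 4)
    {u : CE ι → ℂ} (hu : MemLp u 2 (volume.restrict Ω))
    {h : ι → CE ι → ℂ} (hh : ∀ j, L2Loc volume Ω (h j)) (hw : WeakZb Ω a u h)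
    {K : Set (CE ι)} (hK : IsCompact K) (hKΩ : K ⊆ Ω) (ε : ENNReal) (hε : 0 < ε) :
    ∃ N : ℕ, ∀ n m : ℕ, N ≤ n → N ≤ m →
      eLpNorm (fun x => fderiv ℝ (B6E.wsMol n (Ω.indicator u)) x
        - fderiv ℝ (B6E.wsMol m (Ω.indicator u)) x) 2 (volume.restrict K) ≤ ε := by
  obtain ⟨δ, hδ, hδΩ⟩ := hK.exists_cthickening_subset_open hΩ hKΩ
  have hK₁ : IsCompact (Metric.cthickening δ K) := hK.cthickening
  obtain ⟨χ, hχ, -, hχ1⟩ := B6E.exists_isTest_eq_one hΩ hK₁ hδΩ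
  have hχ1' : ∀ z ∈ Metric.cthickening δ K, χ z = 1 := hχ1.self_of_nhdsSet
  obtain ⟨hv, hh', hweak⟩ := weakZb_cutoff hΩ ha hu hh hw hχ
  have hv0 : ∀ z, z ∉ tsupport (cx χ) → cx χ z * Ω.indicator u z = 0 := fun z hz => by
    rw [image_eq_zero_of_notMem_tsupport hz, zero_mul]
  obtain ⟨η, hη, hηε⟩ : ∃ η : ℝ, 0 < η ∧ ENNReal.ofReal η ≤ ε := by
    rcases eq_or_ne ε ⊤ with rfl | hne
    · exact ⟨1, one_pos, le_top⟩
    · exact ⟨ε.toReal, ENNReal.toReal_pos hε.ne' hne, (ENNReal.ofReal_toReal hne).le⟩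
  obtain ⟨N₁, hN₁⟩ := h1_cauchy hΩ ha hsmall hχ.compact hχ.supp hv hh' hv0 hweak (η := η ^ 2)
    (by positivity)
  obtain ⟨N₂, hN₂⟩ := exists_nat_one_div_lt (half_pos hδ)
  refine ⟨max N₁ N₂, fun n m hn hm => ?_⟩
  obtain ⟨tn, tm, hint⟩ := hN₁ n m ((le_max_left _ _).trans hn) ((le_max_left _ _).trans hm)
  have heq : ∀ k, N₂ ≤ k → ∀ x ∈ K, fderiv ℝ (B6E.wsMol k (Ω.indicator u)) x
      = fderiv ℝ (B6E.wsMol k (fun z => cx χ z * Ω.indicator u z)) x := by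
    intro k hk x hx
    have hk' : 1 / ((k : ℝ) + 1) < δ / 2 := by
      refine lt_of_le_of_lt ?_ hN₂
      have : (N₂ : ℝ) ≤ k := by exact_mod_cast hk
      exact one_div_le_one_div_of_le (by positivity) (by linarith)
    refine Filter.EventuallyEq.fderiv_eq ?_
    filter_upwards [Metric.ball_mem_nhds x (half_pos hδ)] with x' hx'
    refine B6E.wsMol_eq_of_eqOn k fun y hy => ?_
    have hy' : y ∈ Metric.cthickening δ K := by
      refine Metric.mem_cthickening_of_dist_le y x δ K hx ?_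
      have h1 := dist_triangle y x' x
      have h2 := Metric.mem_ball.1 hy
      have h3 := Metric.mem_ball.1 hx'
      linarith
    simp only [cx, hχ1' y hy', Complex.ofReal_one, one_mul]
  have hmL : MemLp (fun x => fderiv ℝ (B6E.wsMol n (fun z => cx χ z * Ω.indicator u z)) x
      - fderiv ℝ (B6E.wsMol m (fun z => cx χ z * Ω.indicator u z)) x) 2 volume :=
    (h1_memLp_fderiv tn).sub (h1_memLp_fderiv tm)
  have hL : Claimed.Agent.Lib.Sob.L2Le volume Set.univ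
      (fun x => fderiv ℝ (B6E.wsMol n (fun z => cx χ z * Ω.indicator u z)) x
      - fderiv ℝ (B6E.wsMol m (fun z => cx χ z * Ω.indicator u z)) x) η := by
    rw [Claimed.Agent.Lib.Sob.l2Le_iff_integral hη.le, Measure.restrict_univ]
    exact ⟨hmL, hint⟩
  have hL2 := hL.2
  rw [Measure.restrict_univ] at hL2
  calc eLpNorm (fun x => fderiv ℝ (B6E.wsMol n (Ω.indicator u)) x
        - fderiv ℝ (B6E.wsMol m (Ω.indicator u)) x) 2 (volume.restrict K)
      = eLpNorm (fun x => fderiv ℝ (B6E.wsMol n (fun z => cx χ z * Ω.indicator u z)) x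
        - fderiv ℝ (B6E.wsMol m (fun z => cx χ z * Ω.indicator u z)) x) 2 (volume.restrict K) :=
        eLpNorm_congr_ae (ae_restrict_of_forall_mem hK.measurableSet fun x hx => by
          simp only
          rw [heq n ((le_max_right _ _).trans hn) x hx, heq m ((le_max_right _ _).trans hm) x hx])
    _ ≤ eLpNorm (fun x => fderiv ℝ (B6E.wsMol n (fun z => cx χ z * Ω.indicator u z)) x
        - fderiv ℝ (B6E.wsMol m (fun z => cx χ z * Ω.indicator u z)) x) 2 volume :=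
        eLpNorm_mono_measure _ Measure.restrict_le_self
    _ ≤ ENNReal.ofReal η := hL2
    _ ≤ ε := hηε

/-- `ZbG a j z` as a continuous linear map. -/
noncomputable def h1ZbGL (a : ι → ι → CE ι → ℂ) (j : ι) (z : CE ι) : (CE ι →L[ℝ] ℂ) →L[ℝ] ℂ :=
  ContinuousLinearMap.apply ℝ ℂ (frX a j z) + Complex.I • ContinuousLinearMap.apply ℝ ℂ (frY a j z)

theorem h1ZbGL_apply (a : ι → ι → CE ι → ℂ) (j : ι) (z : CE ι) (L : CE ι →L[ℝ] ℂ) :
    h1ZbGL a j z L = ZbG a j z L := by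
  unfold h1ZbGL ZbG
  simp

theorem h1_continuous_ZbGL {a : ι → ι → CE ι → ℂ} (ha : ∀ j k, ContDiff ℝ ∞ (a j k)) (j : ι) :
    Continuous (h1ZbGL a j) := by
  have hc : ∀ k, Continuous (a j k) := fun k => (ha j k).continuous
  have h1 : Continuous (frX a j) := by
    unfold frX
    fun_prop
  have h2 : Continuous (frY a j) := by
    unfold frY
    fun_prop
  unfold h1ZbGL
  exact ((ContinuousLinearMap.apply ℝ ℂ).continuous.comp h1).add
    (((ContinuousLinearMap.apply ℝ ℂ).continuous.comp h2).const_smul Complex.I)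


omit [DecidableEq ι] in
theorem h1_isTest_cx {Ω : Set (CE ι)} {g : CE ι → ℝ} (h1 : ContDiff ℝ ∞ g) (h2 : HasCompactSupport g)
    (h3 : tsupport g ⊆ Ω) : IsTest Ω (cx g) := by
  have hs : tsupport (cx g) ⊆ tsupport g := by
    refine closure_mono fun z hz => ?_
    intro h0
    apply hz
    simp only [cx]
    rw [h0, Complex.ofReal_zero]
  exact ⟨B6E.contDiff_cx h1, h2.of_isClosed_subset (isClosed_tsupport _) hs, hs.trans h3⟩

theorem h1_identity {Ω : Set (CE ι)} (hΩ : IsOpen Ω) {a : ι → ι → CE ι → ℂ}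
    (ha : ∀ j k, ContDiff ℝ ∞ (a j k)) {u : CE ι → ℂ} (hu : MemLp u 2 (volume.restrict Ω))
    {h : ι → CE ι → ℂ} (hh : ∀ j, L2Loc volume Ω (h j)) (hw : WeakZb Ω a u h)
    {G : CE ι → CE ι →L[ℝ] ℂ} (hG : L2Loc volume Ω G)
    (hconv : ∀ K : Set (CE ι), IsCompact K → K ⊆ Ω →
      Tendsto (fun n => eLpNorm (fun x => fderiv ℝ (B6E.wsMol n (Ω.indicator u)) x - G x) 2
        (volume.restrict K)) atTop (𝓝 0)) (j : ι) :
    ∀ᵐ z ∂(volume.restrict Ω), ZbG a j z (G z) = h j z := by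
  have hũ : MemLp (Ω.indicator u) 2 volume := (memLp_indicator_iff_restrict hΩ.measurableSet).2 hu
  have hũl : LocallyIntegrable (Ω.indicator u) volume := hũ.locallyIntegrable (by norm_num)
  have hGl : LocallyIntegrableOn G Ω := hG.locallyIntegrableOn hΩ
  have hcB : Continuous (h1ZbGL a j) := h1_continuous_ZbGL ha j
  have hl1 : LocallyIntegrableOn (fun z => ZbG a j z (G z)) Ω := by
    have := Claimed.Agent.Lib.Sob.weak_locInt_clm_apply hΩ hcB.continuousOn hGl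
    simpa only [h1ZbGL_apply] using this
  have hl2 : LocallyIntegrableOn (h j) Ω := (hh j).locallyIntegrableOn hΩ
  have key := hΩ.ae_eq_zero_of_integral_contDiff_smul_eq_zero (hl1.sub hl2) (fun g hg1 hg2 hg3 => ?_)
  · rw [ae_restrict_iff' hΩ.measurableSet]
    filter_upwards [key] with z hz hzΩ
    exact sub_eq_zero.1 (hz hzΩ)
  have hT : IsTest Ω (cx g) := h1_isTest_cx hg1 hg2 hg3
  have hTs : Claimed.Agent.Lib.Sob.IsTest Ω g := ⟨hg1, hg2, hg3⟩
  set K := tsupport g with hK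
  have hKc : IsCompact K := hg2
  have hg0 : ∀ x, x ∉ K → g x = 0 := fun x hx => image_eq_zero_of_notMem_tsupport hx
  have hsm : ∀ n, ContDiff ℝ ∞ (B6E.wsMol n (Ω.indicator u)) := fun n => B6E.wsMol_contDiff n hũl
  -- the two limits
  have mc : ∀ {X : Type} [NormedAddCommGroup X] [NormedSpace ℝ X] [FiniteDimensional ℝ X]
      {f : CE ι → X}, Continuous f → MemLp f 2 (volume.restrict K) := fun {X} _ _ _ {f} hf =>
    Claimed.Agent.Lib.Sob.l2Loc_of_continuousOn (U := Set.univ) hf.continuousOn K hKc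
      (Set.subset_univ _)
  have mT1 : MemLp (fun x => g x • h1ZbGL a j x) 2 (volume.restrict K) :=
    mc (hg1.continuous.smul hcB)
  have L1 := Claimed.Agent.Lib.Sob.tendsto_setIntegral_clm_apply mT1
    (fun n => mc ((hsm n).continuous_fderiv (by simp))) (hG K hKc hg3) (hconv K hKc hg3)
  have hZc : Continuous (Zbt a j (cx g)) := (isTest_Zbt ha hT).continuous
  have mT2 : MemLp (fun x => ContinuousLinearMap.mul ℝ ℂ (Zbt a j (cx g) x)) 2 (volume.restrict K) :=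
    mc ((ContinuousLinearMap.mul ℝ ℂ).continuous.comp hZc)
  have L2 := Claimed.Agent.Lib.Sob.tendsto_setIntegral_clm_apply mT2
    (fun n => mc (hsm n).continuous) (hu.mono_measure (Measure.restrict_mono hg3 le_rfl))
    (h1_tendsto_L2K hΩ hu hKc hg3)
  have hZ0 : ∀ x, x ∉ K → Zbt a j (cx g) x = 0 := fun x hx => by
    refine Zbt_eq_zero_of_notMem_tsupport fun hx' => hx ?_
    have hs : tsupport (cx g) ⊆ tsupport g := by
      refine closure_mono fun z hz => ?_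
      intro h0
      apply hz
      simp only [cx]
      rw [h0, Complex.ofReal_zero]
    exact hs hx'
  have en : ∀ n, ∫ x in K, (g x • h1ZbGL a j x) (fderiv ℝ (B6E.wsMol n (Ω.indicator u)) x)
      = ∫ x in K, ContinuousLinearMap.mul ℝ ℂ (Zbt a j (cx g) x) (B6E.wsMol n (Ω.indicator u) x) := by
    intro n
    rw [setIntegral_eq_integral_of_forall_compl_eq_zero (fun x hx => by rw [hg0 x hx]; simp),
      setIntegral_eq_integral_of_forall_compl_eq_zero (fun x hx => by rw [hZ0 x hx]; simp)]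
    have h1 := integral_Zb_mul (j := j) ha hΩ hT (hsm n).contDiffOn
    have e1 : ∀ x, (g x • h1ZbGL a j x) (fderiv ℝ (B6E.wsMol n (Ω.indicator u)) x)
        = Zb a j (B6E.wsMol n (Ω.indicator u)) x * cx g x := fun x => by
      rw [Zb_eq_ZbG, FunLike.coe_smul, Pi.smul_apply, h1ZbGL_apply, Complex.real_smul, mul_comm]
      rfl
    have e2 : ∀ x, ContinuousLinearMap.mul ℝ ℂ (Zbt a j (cx g) x) (B6E.wsMol n (Ω.indicator u) x)
        = B6E.wsMol n (Ω.indicator u) x * Zbt a j (cx g) x := fun x => by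
      rw [ContinuousLinearMap.mul_apply', mul_comm]
    simp only [e1, e2]
    exact h1
  simp only [en] at L1
  have hlim := tendsto_nhds_unique L1 L2
  rw [setIntegral_eq_integral_of_forall_compl_eq_zero (fun x hx => by rw [hg0 x hx]; simp),
    setIntegral_eq_integral_of_forall_compl_eq_zero (fun x hx => by rw [hZ0 x hx]; simp)] at hlim
  have e3 : ∀ x, ContinuousLinearMap.mul ℝ ℂ (Zbt a j (cx g) x) (u x) = u x * Zbt a j (cx g) x :=
    fun x => by rw [ContinuousLinearMap.mul_apply', mul_comm]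
  have e4 : ∀ x, (g x • h1ZbGL a j x) (G x) = g x • ZbG a j x (G x) := fun x => by
    rw [FunLike.coe_smul, Pi.smul_apply, h1ZbGL_apply]
  simp only [e3, e4] at hlim
  rw [hw _ hT j] at hlim
  have i1 := Claimed.Agent.Lib.Sob.weak_integrable_smul hTs hl1
  have i2 := Claimed.Agent.Lib.Sob.weak_integrable_smul hTs hl2
  have e5 : ∀ x, g x • ((fun z => ZbG a j z (G z)) - h j) x
      = g x • ZbG a j x (G x) - g x • h j x := fun x => by
    rw [Pi.sub_apply, smul_sub]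
  simp only [e5]
  rw [integral_sub i1 i2, hlim, sub_eq_zero]
  refine integral_congr_ae (Eventually.of_forall fun x => ?_)
  simp only [cx, Complex.real_smul]
  ring

/-- **`H¹_loc` regularity.** -/
theorem weakZb_H1 {Ω : Set (CE ι)} (hΩ : IsOpen Ω) {a : ι → ι → CE ι → ℂ}
    (ha : ∀ j k, ContDiff ℝ ∞ (a j k))
    (hsmall : ∀ z ∈ Ω, ∑ j, ∑ k, ‖a j k z‖ ^ 2 ≤ 1 / 4)
    {u : CE ι → ℂ} (hu : MemLp u 2 (volume.restrict Ω))
    {h : ι → CE ι → ℂ} (hh : ∀ j, L2Loc volume Ω (h j)) (hw : WeakZb Ω a u h) :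
    ∃ G : CE ι → CE ι →L[ℝ] ℂ, HasWeakFDeriv volume Ω u G ∧ L2Loc volume Ω G ∧
      ∀ j, ∀ᵐ z ∂(volume.restrict Ω), ZbG a j z (G z) = h j z := by
  have hũ : MemLp (Ω.indicator u) 2 volume := (memLp_indicator_iff_restrict hΩ.measurableSet).2 hu
  have hũl : LocallyIntegrable (Ω.indicator u) volume := hũ.locallyIntegrable (by norm_num)
  obtain ⟨G, hG1, hG2, hG3⟩ := Claimed.Agent.Lib.Sob.exists_hasWeakFDeriv_of_cauchy volume hΩ
    (u := u) (un := fun n => B6E.wsMol n (Ω.indicator u))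
    (fun n => ((B6E.wsMol_contDiff n hũl).of_le (by simp)).contDiffOn)
    (Claimed.Agent.Lib.Sob.memLp_l2Loc hu)
    (fun K hK hKΩ => h1_tendsto_L2K hΩ hu hK hKΩ)
    (fun K hK hKΩ ε hε => h1_cauchy_K hΩ ha hsmall hu hh hw hK hKΩ ε hε)
  exact ⟨G, hG1, hG2, fun j => h1_identity hΩ ha hu hh hw hG2 hG3 j⟩

end Claimed.Agent.R316.B4

end SecH1
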